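import Vale.Agent.P297.H777.GenFacts
import Vale.Agent.P297.H637.PsiDefs
import Vale.Agent.P297.H521.Rul
import Vale.Agent.P297.Gen.Der
import Mathlib.LinearAlgebra.Matrix.Rank

/-!
Tangency of a line of a ruling with the octic: the line is defined over the field of the quadric.
-/

set_option linter.unusedSectionVars false
set_option linter.style.haveILetI false
set_option linter.unusedSimpArgs false

open IntermediateField Polynomial

namespace Vale.Agent.P297.C8

open Vale.Agent.P297.H777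

section gst

variable {R : Type} [CommRing R]

/-- The gradient of the Steiner quartic. -/
def gst (y : Fin 4 → R) : Fin 4 → R :=
  ![-(2 * (y 1 * y 2 * y 3)), 2 * (y 1 * y 3 ^ 2 + y 1 * y 2 ^ 2 - y 0 * y 2 * y 3),
    2 * (y 2 * y 3 ^ 2 + y 1 ^ 2 * y 2 - y 0 * y 1 * y 3),
    2 * (y 2 ^ 2 * y 3 + y 1 ^ 2 * y 3 - y 0 * y 1 * y 2)]

theorem gst_self (y : Fin 4 → R) : ∑ i, gst y i * y i = 4 * st y := by
  simp only [Fin.sum_univ_four, gst, st, Matrix.cons_val_zero, Matrix.cons_val_one,
    Matrix.cons_val_two, Matrix.cons_val_three, Matrix.head_cons, Matrix.tail_cons,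
    Matrix.cons_val]
  ring

theorem gst_eb (y : Fin 4 → R) (u : Fin 3 → R) :
    ∑ i, gst y i * eb (vy y) u i = 2 * st y * (y 1 * u 0 + y 2 * u 1 + y 3 * u 2) := by
  simp only [Fin.sum_univ_four, gst, st, eb, vy_zero, vy_one, vy_two, Matrix.cons_val_zero,
    Matrix.cons_val_one, Matrix.cons_val_two, Matrix.cons_val_three, Matrix.head_cons,
    Matrix.tail_cons, Matrix.cons_val]
  ring

/-- The derivative of the Steiner quartic. -/
theorem der_st (D : Derivation ℤ R R) (y : Fin 4 → R) :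
    D (st y) = ∑ i, gst y i * D (y i) := by
  simp only [Fin.sum_univ_four, gst, st, Matrix.cons_val_zero,
    Matrix.cons_val_one, Matrix.cons_val_two, Matrix.cons_val_three, Matrix.head_cons,
    Matrix.tail_cons, Matrix.cons_val, map_sub, map_add, Derivation.leibniz,
    Derivation.leibniz_pow, smul_eq_mul, nsmul_eq_mul]
  have h2 : D (2 : R) = 0 := by
    have := D.map_natCast 2
    simpa using this
  rw [h2]
  push_cast
  ring

end gst

section ann

variable {N : Type} [Field N]

/-- Three vectors annihilated by two independent functionals are dependent. -/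
theorem dep_of_ann {l g a b c : Fin 4 → N} (hlg : LinearIndependent N ![l, g])
    (ha : ∑ i, l i * a i = 0) (ha' : ∑ i, g i * a i = 0)
    (hb : ∑ i, l i * b i = 0) (hb' : ∑ i, g i * b i = 0)
    (hc : ∑ i, l i * c i = 0) (hc' : ∑ i, g i * c i = 0) :
    ¬ LinearIndependent N ![a, b, c] := by
  intro h
  let A : Matrix (Fin 2) (Fin 4) N := Matrix.of ![l, g]
  have hA : A.rank = 2 := by
    have := LinearIndependent.rank_matrix (M := A) hlg
    rwa [Fintype.card_fin] at this
  let f := A.mulVecLin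
  have h1 : Module.finrank N (LinearMap.range f) + Module.finrank N (LinearMap.ker f) = 4 := by
    have := LinearMap.finrank_range_add_finrank_ker f
    simpa using this
  have h2 : Module.finrank N (LinearMap.range f) = 2 := hA
  have hk : ∀ z : Fin 4 → N, ∑ i, l i * z i = 0 → ∑ i, g i * z i = 0 → z ∈ LinearMap.ker f := by
    intro z h3 h4
    rw [LinearMap.mem_ker]
    funext j
    fin_cases j
    · exact h3
    · exact h4
  let w : Fin 3 → LinearMap.ker f := ![⟨a, hk a ha ha'⟩, ⟨b, hk b hb hb'⟩, ⟨c, hk c hc hc'⟩]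
  have hw : LinearIndependent N w := by
    refine LinearIndependent.of_comp (LinearMap.ker f).subtype ?_
    convert h using 1
    funext j
    fin_cases j <;> rfl
  have h3 := hw.fintype_card_le_finrank
  rw [Fintype.card_fin] at h3
  omega

end ann

section core

variable {N : Type} [Field N] [Algebra ℂ N] [CharZero N]

theorem lam_eb {x y : N} (hx : x ≠ 0) (hy : y ≠ 0) (v u : Fin 3 → N) :
    2 * (∑ i, lam x y i * eb v u i) =
      (∑ i, mv x y i * v i) * (∑ i, mv x⁻¹ y⁻¹ i * u i) +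
      (∑ i, mv x y i * u i) * (∑ i, mv x⁻¹ y⁻¹ i * v i) := by
  simp only [Fin.sum_univ_four, Fin.sum_univ_three, eb]
  simp only [lam, mv, Matrix.cons_val_zero, Matrix.cons_val_one, Matrix.cons_val_two,
    Matrix.cons_val_three, Matrix.head_cons, Matrix.tail_cons, Matrix.cons_val]
  field_simp
  ring

end core

section rul

variable {R : Type} [CommRing R]

theorem der_wd (D : Derivation ℤ R R) (z u : Fin 4 → R) (i : Fin 6) :
    D (wd z u i) = wd (fun j => D (z j)) u i + wd z (fun j => D (u j)) i := by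
  fin_cases i <;>
  · simp [wd, Derivation.leibniz]
    ring

theorem der_ws (D : Derivation ℤ R R) (z u : Fin 4 → R) (i : Fin 6) :
    D (ws z u i) = ws (fun j => D (z j)) u i + ws z (fun j => D (u j)) i := by
  fin_cases i <;>
  · simp [ws, Derivation.leibniz]
    ring

theorem wd_smul_self (c : R) (u : Fin 4 → R) : wd (c • u) u = 0 := by
  funext i
  fin_cases i <;>
  · simp [wd]
    ring

theorem ws_smul_self (c : R) (u : Fin 4 → R) : ws (c • u) u = 0 := by
  funext i
  fin_cases i <;>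
  · simp [ws]
    ring

theorem der_mulVec (D : Derivation ℤ R R) (M : Matrix (Fin 4) (Fin 4) R)
    (hM : ∀ a b, D (M a b) = 0) (z : Fin 4 → R) (i : Fin 4) :
    D (M.mulVec z i) = M.mulVec (fun j => D (z j)) i := by
  simp only [Matrix.mulVec, dotProduct, map_sum, Derivation.leibniz, hM, smul_eq_mul, mul_zero,
    add_zero]

/-- Differentiating the relation of a ruling. -/
theorem der_rul (D : Derivation ℤ R R) {M : Matrix (Fin 4) (Fin 4) R}
    (hM : ∀ a b, D (M a b) = 0) {w : R} (hw : D w = 0) {z u : Fin 4 → R} {κ : R}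
    (hz : (fun j => D (z j)) = κ • u) (h : Rul M w z u) : Rul M w z (fun j => D (u j)) := by
  funext i
  have h1 := congrArg D (congrFun h i)
  have e1 : (fun j => D (M.mulVec z j)) = κ • M.mulVec u := by
    funext j
    rw [der_mulVec D M hM, hz, Matrix.mulVec_smul]
  have e2 : (fun j => D (M.mulVec u j)) = M.mulVec (fun j => D (u j)) :=
    funext fun j => der_mulVec D M hM u j
  rw [der_wd, e1, e2, wd_smul_self, Pi.smul_apply, smul_eq_mul, D.leibniz, hw, der_ws, hz,
    ws_smul_self] at h1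
  simpa using h1

/-- Pairing of the relation of a ruling with two vectors. -/
theorem rul_pair {M : Matrix (Fin 4) (Fin 4) R} {w : R} {z u : Fin 4 → R} (h : Rul M w z u)
    (d e : Fin 4 → R) :
    (∑ i, d i * M.mulVec z i) * (∑ i, e i * M.mulVec u i) -
      (∑ i, e i * M.mulVec z i) * (∑ i, d i * M.mulVec u i) =
      w * (∑ i, ws z u i * wd d e i) := by
  have h1 : ∑ i, wd (M.mulVec z) (M.mulVec u) i * wd d e i =
      w * (∑ i, ws z u i * wd d e i) := by
    unfold Rul at h
    rw [h, Finset.mul_sum]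
    refine Finset.sum_congr rfl fun i _ => ?_
    simp only [Pi.smul_apply, smul_eq_mul]
    ring
  rw [← h1]
  generalize M.mulVec z = a
  generalize M.mulVec u = b
  simp only [Fin.sum_univ_four, Fin.sum_univ_six, wd, Matrix.cons_val_zero,
    Matrix.cons_val_one, Matrix.cons_val_two, Matrix.cons_val_three, Matrix.cons_val_four,
    Matrix.head_cons, Matrix.tail_cons, Matrix.cons_val]
  ring

theorem ws_wd_left (z u e : Fin 4 → R) : ∑ i, ws z u i * wd z e i = 0 := by
  simp only [Fin.sum_univ_six, wd, ws, Matrix.cons_val_zero,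
    Matrix.cons_val_one, Matrix.cons_val_two, Matrix.cons_val_three, Matrix.cons_val_four,
    Matrix.head_cons, Matrix.tail_cons, Matrix.cons_val]
  ring

theorem ws_wd_right (z u e : Fin 4 → R) : ∑ i, ws z u i * wd u e i = 0 := by
  simp only [Fin.sum_univ_six, wd, ws, Matrix.cons_val_zero,
    Matrix.cons_val_one, Matrix.cons_val_two, Matrix.cons_val_three, Matrix.cons_val_four,
    Matrix.head_cons, Matrix.tail_cons, Matrix.cons_val]
  ring

end rul

section line

variable {k : Type} [Field k] [CharZero k]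

theorem sum_mulVec_comm {M : Matrix (Fin 4) (Fin 4) k} (hM : M.IsSymm) (z u : Fin 4 → k) :
    ∑ i, z i * M.mulVec u i = ∑ i, u i * M.mulVec z i := by
  change z ⬝ᵥ M.mulVec u = u ⬝ᵥ M.mulVec z
  rw [Matrix.dotProduct_mulVec, ← Matrix.mulVec_transpose, hM.eq, dotProduct_comm]

/-- A line of a ruling is isotropic. -/
theorem rul_iso {M : Matrix (Fin 4) (Fin 4) k} (hdet : M.det ≠ 0) {w : k}
    {z u : Fin 4 → k} (hzu : LinearIndependent k ![z, u]) (h : Rul M w z u) :
    ∑ i, z i * M.mulVec z i = 0 ∧ ∑ i, z i * M.mulVec u i = 0 ∧ ∑ i, u i * M.mulVec u i = 0 := by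
  have hinj : ∀ a : Fin 4 → k, M.mulVec a = 0 → a = 0 := by
    intro a ha
    by_contra hne
    exact hdet (Matrix.exists_mulVec_eq_zero_iff.1 ⟨a, hne, ha⟩)
  have hcov : ∀ a : Fin 4 → k, (∀ e : Fin 4 → k, ∑ i, e i * a i = 0) → a = 0 := by
    intro a ha
    funext j
    have := ha (Pi.single j 1)
    simpa [Pi.single_apply] using this
  rw [LinearIndependent.pair_iff] at hzu
  have h1 : (∑ i, z i * M.mulVec z i) • u - (∑ i, z i * M.mulVec u i) • z = 0 := by
    refine hinj _ (hcov _ fun e => ?_)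
    have h2 := rul_pair h z e
    rw [ws_wd_left, mul_zero] at h2
    rw [Matrix.mulVec_sub, Matrix.mulVec_smul, Matrix.mulVec_smul]
    simp only [Pi.sub_apply, Pi.smul_apply, smul_eq_mul, mul_sub, Finset.sum_sub_distrib]
    rw [← h2, Finset.mul_sum, Finset.sum_mul]
    congr 1
    · exact Finset.sum_congr rfl fun i _ => by ring
    · exact Finset.sum_congr rfl fun i _ => by ring
  have h3 : (∑ i, u i * M.mulVec z i) • u - (∑ i, u i * M.mulVec u i) • z = 0 := by
    refine hinj _ (hcov _ fun e => ?_)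
    have h2 := rul_pair h u e
    rw [ws_wd_right, mul_zero] at h2
    rw [Matrix.mulVec_sub, Matrix.mulVec_smul, Matrix.mulVec_smul]
    simp only [Pi.sub_apply, Pi.smul_apply, smul_eq_mul, mul_sub, Finset.sum_sub_distrib]
    rw [← h2, Finset.mul_sum, Finset.sum_mul]
    congr 1
    · exact Finset.sum_congr rfl fun i _ => by ring
    · exact Finset.sum_congr rfl fun i _ => by ring
  obtain ⟨h4, h5⟩ := hzu (-(∑ i, z i * M.mulVec u i)) (∑ i, z i * M.mulVec z i) (by
    rw [neg_smul, neg_add_eq_sub]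
    exact h1)
  obtain ⟨h6, h7⟩ := hzu (-(∑ i, u i * M.mulVec u i)) (∑ i, u i * M.mulVec z i) (by
    rw [neg_smul, neg_add_eq_sub]
    exact h3)
  exact ⟨h5, neg_eq_zero.1 h4, neg_eq_zero.1 h6⟩

theorem pair_indep {z u : Fin 4 → k} (hz : z 0 = 1) (hu0 : u 0 = 0) (hu : u ≠ 0) :
    LinearIndependent k ![z, u] := by
  rw [LinearIndependent.pair_iff]
  intro α β h
  have h1 := congrFun h 0
  simp only [Pi.add_apply, Pi.smul_apply, smul_eq_mul, hz, hu0, mul_one, mul_zero, add_zero,
    Pi.zero_apply] at h1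
  rw [h1, zero_smul, zero_add] at h
  exact ⟨h1, (smul_eq_zero.1 h).resolve_right hu⟩

/-- There is at most one line of a ruling through a point. -/
theorem rul_line {M : Matrix (Fin 4) (Fin 4) k} (hM : M.IsSymm) (hdet : M.det ≠ 0) {w : k}
    {z r u : Fin 4 → k} (hz : z 0 = 1) (hr0 : r 0 = 0) (hr : r ≠ 0) (hu0 : u 0 = 0)
    (h : Rul M w z r) (h' : Rul M w z u) : ∃ c : k, u = c • r := by
  by_cases hu : u = 0
  · exact ⟨0, by rw [hu, zero_smul]⟩
  obtain ⟨a1, a2, a3⟩ := rul_iso hdet (pair_indep hz hr0 hr) h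
  obtain ⟨b1, b2, b3⟩ := rul_iso hdet (pair_indep hz hu0 hu) h'
  by_cases hur : u + r = 0
  · exact ⟨-1, by rw [neg_smul, one_smul]; exact eq_neg_of_add_eq_zero_left hur⟩
  obtain ⟨-, -, c3⟩ := rul_iso hdet (pair_indep hz (by
    rw [Pi.add_apply, hu0, hr0, add_zero]) hur) (h'.add h)
  have hmix : ∑ i, u i * M.mulVec r i = 0 := by
    rw [Matrix.mulVec_add] at c3
    simp only [Pi.add_apply, add_mul, mul_add, Finset.sum_add_distrib] at c3
    rw [a3, b3, sum_mulVec_comm hM r u] at c3
    have : 2 * ∑ i, u i * M.mulVec r i = 0 := by linear_combination c3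
    exact (mul_eq_zero.1 this).resolve_left two_ne_zero
  have hdep := dep_of_ann (pair_indep hz hu0 hu) (a := M.mulVec z) (b := M.mulVec u)
    (c := M.mulVec r) a1 (by rw [sum_mulVec_comm hM]; exact b2) b2 b3 a2 hmix
  rw [Fintype.not_linearIndependent_iff] at hdep
  obtain ⟨g, hg, j, hj⟩ := hdep
  rw [Fin.sum_univ_three] at hg
  have hg' : M.mulVec (g 0 • z + g 1 • u + g 2 • r) = 0 := by
    rw [Matrix.mulVec_add, Matrix.mulVec_add, Matrix.mulVec_smul, Matrix.mulVec_smul,
      Matrix.mulVec_smul]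
    exact hg
  have hg2 : g 0 • z + g 1 • u + g 2 • r = 0 := by
    by_contra hne
    exact hdet (Matrix.exists_mulVec_eq_zero_iff.1 ⟨_, hne, hg'⟩)
  have hg0 : g 0 = 0 := by
    have h3 := congrFun hg2 0
    simp only [Pi.add_apply, Pi.smul_apply, smul_eq_mul, hz, hr0, hu0, mul_one, mul_zero,
      add_zero, Pi.zero_apply] at h3
    exact h3
  rw [hg0, zero_smul, zero_add] at hg2
  have hg1 : g 1 ≠ 0 := by
    intro h3
    rw [h3, zero_smul, zero_add] at hg2
    have h4 : g 2 = 0 := (smul_eq_zero.1 hg2).resolve_right hr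
    fin_cases j
    · exact hj hg0
    · exact hj h3
    · exact hj h4
  refine ⟨-(g 2 / g 1), ?_⟩
  funext l
  have h3 := congrFun hg2 l
  simp only [Pi.add_apply, Pi.smul_apply, smul_eq_mul, Pi.zero_apply] at h3 ⊢
  field_simp
  linear_combination h3

end line

section dbl


variable {N : Type} [Field N] [Algebra ℂ N] [IsAlgClosed N]

/-- The derivative of the quadrics. -/
theorem der_qq {Q : Web} (hQ : ∀ i, (Q i).IsSymm) (D : Derivation ℤ N N)
    (hD : ∀ c : ℂ, D (algebraMap ℂ N c) = 0) (o : Fin 4 → N) (i : Fin 4) :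
    D (qq Q o i) = 2 * qb Q o (fun j => D (o j)) i := by
  have h1 : D (qq Q o i) = qb Q o (fun j => D (o j)) i + qb Q (fun j => D (o j)) o i := by
    rw [qq_apply, map_sum, qb_apply, qb_apply, ← Finset.sum_add_distrib]
    refine Finset.sum_congr rfl fun a _ => ?_
    rw [map_sum, ← Finset.sum_add_distrib]
    refine Finset.sum_congr rfl fun b _ => ?_
    rw [D.leibniz, hD, D.leibniz]
    simp only [smul_eq_mul]
    ring
  rw [h1, qb_comm hQ (fun j => D (o j)) o]
  ring

theorem MM_mulVec (Q : Web) (x y : N) (z u : Fin 4 → N) :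
    ∑ a, z a * (MM Q x y).mulVec u a = MB Q x y z u := by
  simp only [MM, MB, Matrix.mulVec, dotProduct, qb_apply, Fin.sum_univ_four]
  ring

/-- **Tangency.** If a line of a ruling of a quadric of the web is tangent to the octic at a
point of the line of the plane, it is defined over the field of definition of the quadric. -/
theorem dbl_core {Q : Web} (hQ : ∀ i, (Q i).IsSymm) {F : IntermediateField ℂ N}
    (hF : ∀ z : N, IsAlgebraic F z → z ∈ F) {x y w : N} (hx : x ∈ F) (hy : y ∈ F) (hx0 : x ≠ 0)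
    (hy0 : y ≠ 0) (hw : w ∈ F) {o R : Fin 4 → N}
    (ho : o 0 = 1) (hR0 : R 0 = 0) (hR : R ≠ 0) (hrul : Rul (MM Q x y) w o R)
    (hoo : MB Q x y o o = 0) (hoR : MB Q x y o R = 0)
    (hline : ∀ u : Fin 4 → N, u 0 = 0 → Rul (MM Q x y) w o u → ∃ c : N, u = c • R)
    (hst : st (qq Q o) = 0) (hjac : (jac Q o).det ≠ 0)
    (hq : qq Q o 1 * qq Q o 2 * qq Q o 3 ≠ 0)
    (hm : ((∑ i, mv x y i * vy (qq Q o) i) = 0 ∧ (∑ i, mv x⁻¹ y⁻¹ i * vy (qq Q o) i) ≠ 0) ∨
      ((∑ i, mv x⁻¹ y⁻¹ i * vy (qq Q o) i) = 0 ∧ (∑ i, mv x y i * vy (qq Q o) i) ≠ 0))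
    (hdbl : ∑ i, gst (qq Q o) i * qb Q o R i = 0) :
    ∃ c : N, c ≠ 0 ∧ ∀ i, c * R i ∈ F := by
  haveI : CharZero N := charZero_of_injective_algebraMap (algebraMap ℂ N).injective
  obtain ⟨k, hk⟩ : ∃ k, R k ≠ 0 := by
    by_contra hne
    push Not at hne
    exact hR (funext hne)
  refine ⟨(R k)⁻¹, inv_ne_zero hk, fun i => ?_⟩
  by_contra hi
  obtain ⟨D, hDF, hD1⟩ := Gen.exists_derivation F (w := (R k)⁻¹ * R i) fun h => hi (hF _ h)
  have hDC : ∀ c : ℂ, D (algebraMap ℂ N c) = 0 := fun c => hDF _ (F.algebraMap_mem c)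
  let Do : Fin 4 → N := fun j => D (o j)
  have hDo0 : Do 0 = 0 := by
    change D (o 0) = 0
    rw [ho, D.map_one_eq_zero]
  have hlamF : ∀ i, lam x y i ∈ F := by
    have h2 : (2 : N) ∈ F := ofNat_mem F 2
    intro i
    fin_cases i
    · exact one_mem F
    · exact div_mem (add_mem hx (inv_mem hx)) h2
    · exact div_mem (add_mem hy (inv_mem hy)) h2
    · exact div_mem (add_mem (mul_mem hx hy) (inv_mem (mul_mem hx hy))) h2
  have hMF : ∀ a b, D (MM Q x y a b) = 0 := fun a b =>
    hDF _ (sum_mem fun i _ => mul_mem (hlamF i) (F.algebraMap_mem _))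
  -- the equation of the quadric
  have h1 : ∑ i, lam x y i * qb Q o Do i = 0 := by
    have h2 : D (MB Q x y o o) = 0 := by rw [hoo, map_zero]
    have h3 : D (MB Q x y o o) = 2 * ∑ i, lam x y i * qb Q o Do i := by
      rw [MB, map_sum, Finset.mul_sum]
      refine Finset.sum_congr rfl fun i _ => ?_
      rw [D.leibniz, hDF _ (hlamF i), smul_zero, add_zero]
      have h4 := der_qq hQ D hDC o i
      have h5 : qq Q o i = qb Q o o i := rfl
      rw [← h5, h4, smul_eq_mul]
      ring
    rw [h3] at h2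
    exact (mul_eq_zero.1 h2).resolve_left two_ne_zero
  have h2 : ∑ i, gst (qq Q o) i * qb Q o Do i = 0 := by
    have h3 : D (st (qq Q o)) = 0 := by rw [hst, map_zero]
    rw [der_st] at h3
    have h4 : ∑ i, gst (qq Q o) i * D (qq Q o i) = 2 * ∑ i, gst (qq Q o) i * qb Q o Do i := by
      rw [Finset.mul_sum]
      refine Finset.sum_congr rfl fun i _ => ?_
      rw [der_qq hQ D hDC o i]
      ring
    rw [h4] at h3
    exact (mul_eq_zero.1 h3).resolve_left two_ne_zero
  -- independence of the two functionals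
  have hg0 : gst (qq Q o) 0 ≠ 0 := by
    have h3 : gst (qq Q o) 0 = -(2 * (qq Q o 1 * qq Q o 2 * qq Q o 3)) := rfl
    rw [h3]
    exact neg_ne_zero.2 (mul_ne_zero two_ne_zero hq)
  have hind : LinearIndependent N ![lam x y, gst (qq Q o)] := by
    rw [LinearIndependent.pair_iff]
    intro α β hαβ
    have h3 : ∀ u : Fin 3 → N, α * ∑ i, lam x y i * eb (vy (qq Q o)) u i = 0 := by
      intro u
      have h4 := gst_eb (qq Q o) u
      rw [hst, mul_zero, zero_mul] at h4
      have h5 : ∑ i, (α • lam x y + β • gst (qq Q o)) i * eb (vy (qq Q o)) u i = 0 := by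
        rw [hαβ]
        simp
      simp only [Pi.add_apply, Pi.smul_apply, smul_eq_mul, add_mul, mul_assoc,
        Finset.sum_add_distrib, ← Finset.mul_sum] at h5
      rwa [h4, mul_zero, add_zero] at h5
    have h4 : α = 0 := by
      by_contra hα
      have h5 := fun u => (mul_eq_zero.1 (h3 u)).resolve_left hα
      have h6 := lam_eb hx0 hy0 (vy (qq Q o)) ![0, 0, 1]
      rw [h5, mul_zero] at h6
      have h7 : (∑ i, mv x y i * (![0, 0, 1] : Fin 3 → N) i) = 1 := by
        simp [Fin.sum_univ_three, mv]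
      have h8 : (∑ i, mv x⁻¹ y⁻¹ i * (![0, 0, 1] : Fin 3 → N) i) = 1 := by
        simp [Fin.sum_univ_three, mv]
      rw [h7, h8, mul_one, one_mul] at h6
      rcases hm with ⟨h9, h10⟩ | ⟨h9, h10⟩
      · rw [h9, zero_add] at h6
        exact h10 h6.symm
      · rw [h9, add_zero] at h6
        exact h10 h6.symm
    refine ⟨h4, ?_⟩
    rw [h4, zero_smul, zero_add] at hαβ
    have h5 := congrFun hαβ 0
    exact (mul_eq_zero.1 h5).resolve_right hg0
  -- `D o` is proportional to `R`
  have hdep := dep_of_ann hind (a := qb Q o o) (b := qb Q o R) (c := qb Q o Do) hoo (by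
    have h3 := gst_self (qq Q o)
    rw [hst, mul_zero] at h3
    exact h3) hoR hdbl h1 h2
  rw [Fintype.not_linearIndependent_iff] at hdep
  obtain ⟨g, hg, j, hj⟩ := hdep
  rw [Fin.sum_univ_three] at hg
  have hg' : qb Q o (g 0 • o + g 1 • R + g 2 • Do) = 0 := by
    rw [qb_add_right, qb_add_right, qb_smul_right, qb_smul_right, qb_smul_right]
    exact hg
  have hg2 : g 0 • o + g 1 • R + g 2 • Do = 0 := by
    by_contra hne
    exact hjac (Matrix.exists_mulVec_eq_zero_iff.1 ⟨_, hne, by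
      rw [jac_mulVec, qb_comm hQ]
      exact hg'⟩)
  have hg0 : g 0 = 0 := by
    have h3 := congrFun hg2 0
    simp only [Pi.add_apply, Pi.smul_apply, smul_eq_mul, ho, hR0, hDo0, mul_one, mul_zero,
      add_zero, Pi.zero_apply] at h3
    exact h3
  rw [hg0, zero_smul, zero_add] at hg2
  have hg2' : g 2 ≠ 0 := by
    intro h3
    rw [h3, zero_smul, add_zero] at hg2
    have h4 : g 1 = 0 := (smul_eq_zero.1 hg2).resolve_right hR
    fin_cases j
    · exact hj hg0
    · exact hj h4
    · exact hj h3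
  have hDo : Do = (-(g 1 / g 2)) • R := by
    funext l
    have h3 := congrFun hg2 l
    simp only [Pi.add_apply, Pi.smul_apply, smul_eq_mul, Pi.zero_apply] at h3 ⊢
    field_simp
    linear_combination h3
  have hDR := der_rul D hMF (hDF _ hw) hDo hrul
  obtain ⟨c, hc⟩ := hline (fun j => D (R j)) (by rw [hR0, map_zero]) hDR
  have h3 : D ((R k)⁻¹ * R i) = 0 := by
    have h4 := D.leibniz (R k) ((R k)⁻¹ * R i)
    have h5 : R k * ((R k)⁻¹ * R i) = R i := by field_simp
    have h6 : D (R i) = c * R i := congrFun hc i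
    have h7 : D (R k) = c * R k := congrFun hc k
    rw [h5, h6, h7, smul_eq_mul, smul_eq_mul] at h4
    have h8 : R k * D ((R k)⁻¹ * R i) = 0 := by
      have h9 : (R k)⁻¹ * R i * (c * R k) = c * R i := by field_simp
      rw [h9] at h4
      linear_combination -h4
    exact (mul_eq_zero.1 h8).resolve_left hk
  rw [h3] at hD1
  exact zero_ne_one hD1

theorem MM_isSymm {Q : Web} (hQ : ∀ i, (Q i).IsSymm) (x y : N) : (MM Q x y).IsSymm := by
  ext a b
  change MM Q x y b a = MM Q x y a b
  unfold MM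
  refine Finset.sum_congr rfl fun i _ => ?_
  rw [(hQ i).apply a b]

/-- **Tangency**, final form. -/
theorem dbl {Q : Web} (hQ : ∀ i, (Q i).IsSymm) {F : IntermediateField ℂ N}
    (hF : ∀ z : N, IsAlgebraic F z → z ∈ F) {x y w : N} (hx : x ∈ F) (hy : y ∈ F) (hx0 : x ≠ 0)
    (hy0 : y ≠ 0) (hw : w ^ 2 = (MM Q x y).det) (hw0 : w ≠ 0) {o R : Fin 4 → N}
    (ho : o 0 = 1) (hR0 : R 0 = 0) (hR : R ≠ 0) (hrul : Rul (MM Q x y) w o R)
    (hst : st (qq Q o) = 0) (hjac : (jac Q o).det ≠ 0)
    (hq : qq Q o 1 * qq Q o 2 * qq Q o 3 ≠ 0)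
    (hm : ((∑ i, mv x y i * vy (qq Q o) i) = 0 ∧ (∑ i, mv x⁻¹ y⁻¹ i * vy (qq Q o) i) ≠ 0) ∨
      ((∑ i, mv x⁻¹ y⁻¹ i * vy (qq Q o) i) = 0 ∧ (∑ i, mv x y i * vy (qq Q o) i) ≠ 0))
    (hdbl : ∑ i, gst (qq Q o) i * qb Q o R i = 0) :
    ∃ c : N, c ≠ 0 ∧ ∀ i, c * R i ∈ F := by
  haveI : CharZero N := charZero_of_injective_algebraMap (algebraMap ℂ N).injective
  have hdet : (MM Q x y).det ≠ 0 := by
    rw [← hw]
    exact pow_ne_zero _ hw0
  have hsym := MM_isSymm hQ x y
  obtain ⟨h1, h2, h3⟩ := rul_iso hdet (pair_indep ho hR0 hR) hrul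
  have hMF : ∀ a b, MM Q x y a b ∈ F := by
    have h2 : (2 : N) ∈ F := ofNat_mem F 2
    intro a b
    refine sum_mem fun i _ => mul_mem ?_ (F.algebraMap_mem _)
    fin_cases i
    · exact one_mem F
    · exact div_mem (add_mem hx (inv_mem hx)) h2
    · exact div_mem (add_mem hy (inv_mem hy)) h2
    · exact div_mem (add_mem (mul_mem hx hy) (inv_mem (mul_mem hx hy))) h2
  have hwF : w ∈ F := by
    refine hF w ?_
    have h4 : (MM Q x y).det ∈ F := by
      rw [Matrix.det_apply]
      refine sum_mem fun τ _ => ?_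
      rcases Int.units_eq_one_or (Equiv.Perm.sign τ) with h5 | h5
      · rw [h5, one_smul]
        exact prod_mem fun i _ => hMF _ _
      · rw [h5, Units.smul_def]
        simp only [Units.val_neg, Units.val_one, neg_smul, one_smul]
        exact neg_mem (prod_mem fun i _ => hMF _ _)
    refine ⟨X ^ 2 - C ⟨_, h4⟩, ?_, ?_⟩
    · exact (Polynomial.monic_X_pow_sub_C _ (by norm_num)).ne_zero
    · rw [map_sub, map_pow, Polynomial.aeval_X, Polynomial.aeval_C, hw]
      exact sub_self _
  refine dbl_core hQ hF hx hy hx0 hy0 hwF ho hR0 hR hrul ?_ ?_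
    (fun u hu0 hu => rul_line hsym hdet ho hR0 hR hu0 hrul hu) hst hjac hq hm hdbl
  · rw [← MM_mulVec]
    exact h1
  · rw [← MM_mulVec]
    exact h2

end dbl

end Vale.Agent.P297.C8
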