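import Vale.Agent.P297.MathlibUsed
import Mathlib.Analysis.Complex.Polynomial.Basic

/-!
Smoothness of the intersection of four quadrics in the projective space of dimension six which is
the universal cover of a Campedelli surface with fundamental group `ℤ/4 × ℤ/2`, and the conditions
on its parameters.
-/

namespace Vale.Agent.P297.H777.ZU

/-- The intersection of the quadrics `XY = h² - εw²`, `r² + s² = 2T`, `r² - s² = 2A`,
`v² = M + 2nrs` with `T = c₁hw + c₂(X² - Y²)`, `A = αh² + βw² + γ(X² + Y²)`,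
`M = m₁hw + m₂(X² - Y²)` is smooth of codimension four. -/
def SmoothU (c1 c2 m1 m2 n α β γ ε : ℂ) : Prop :=
  ∀ X Y h w r s v : ℂ, X * Y = h ^ 2 - ε * w ^ 2 →
    r ^ 2 + s ^ 2 = 2 * (c1 * (h * w) + c2 * (X ^ 2 - Y ^ 2)) →
    r ^ 2 - s ^ 2 = 2 * (α * h ^ 2 + β * w ^ 2 + γ * (X ^ 2 + Y ^ 2)) →
    v ^ 2 = m1 * (h * w) + m2 * (X ^ 2 - Y ^ 2) + 2 * n * (r * s) →
    (X ≠ 0 ∨ Y ≠ 0 ∨ h ≠ 0 ∨ w ≠ 0 ∨ r ≠ 0 ∨ s ≠ 0 ∨ v ≠ 0) →
    ∀ l1 l2 l3 l4 : ℂ,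
      l1 * Y - l2 * (4 * c2 * X) - l3 * (4 * γ * X) - l4 * (2 * m2 * X) = 0 →
      l1 * X + l2 * (4 * c2 * Y) - l3 * (4 * γ * Y) + l4 * (2 * m2 * Y) = 0 →
      -(l1 * (2 * h)) - l2 * (2 * c1 * w) - l3 * (4 * α * h) - l4 * (m1 * w) = 0 →
      l1 * (2 * ε * w) - l2 * (2 * c1 * h) - l3 * (4 * β * w) - l4 * (m1 * h) = 0 →
      l2 * (2 * r) + l3 * (2 * r) - l4 * (2 * n * s) = 0 →
      l2 * (2 * s) - l3 * (2 * s) - l4 * (2 * n * r) = 0 →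
      l4 * (2 * v) = 0 →
      l1 = 0 ∧ l2 = 0 ∧ l3 = 0 ∧ l4 = 0

variable {c1 c2 m1 m2 n α β γ ε : ℂ}

theorem exists_sq (a : ℂ) : ∃ b : ℂ, b ^ 2 = a := by
  obtain ⟨b, hb⟩ := IsAlgClosed.exists_pow_nat_eq a (n := 2) (by norm_num)
  exact ⟨b, hb⟩

/-- The kernel of a degenerate binary quadratic form. -/
theorem exists_ker2 {a b c : ℂ} (h : b ^ 2 = 4 * a * c) :
    ∃ x y : ℂ, (x ≠ 0 ∨ y ≠ 0) ∧ 2 * a * x + b * y = 0 ∧ b * x + 2 * c * y = 0 := by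
  by_cases h0 : a = 0 ∧ b = 0
  · exact ⟨1, 0, Or.inl one_ne_zero, by rw [h0.1]; ring, by rw [h0.2]; ring⟩
  · refine ⟨b, -(2 * a), ?_, by ring, by linear_combination h⟩
    by_contra hcon
    push Not at hcon
    obtain ⟨h1, h2⟩ := hcon
    apply h0
    refine ⟨?_, h1⟩
    have h3 : 2 * a = 0 := neg_eq_zero.1 h2
    exact (mul_eq_zero.1 h3).resolve_left two_ne_zero

theorem exists_yz (P R : ℂ) : ∃ y z : ℂ, (y ≠ 0 ∨ z ≠ 0) ∧ P * y ^ 2 = R * z ^ 2 := by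
  by_cases hP : P = 0
  · exact ⟨1, 0, Or.inl one_ne_zero, by rw [hP]; ring⟩
  · obtain ⟨y, hy⟩ := exists_sq (R / P)
    refine ⟨y, 1, Or.inr one_ne_zero, ?_⟩
    rw [hy, one_pow, mul_one, mul_div_cancel₀ _ hP]

/-- A pencil of quadratic equations in the squares. -/
theorem exists_squares (α β γ ε t1 t2 : ℂ) : ∃ X Y h w : ℂ, (X ≠ 0 ∨ Y ≠ 0 ∨ h ≠ 0 ∨ w ≠ 0) ∧
    X * Y = h ^ 2 - ε * w ^ 2 ∧ α * h ^ 2 + β * w ^ 2 + γ * (X ^ 2 + Y ^ 2) = 0 ∧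
    t2 * (h * w) = t1 * (X ^ 2 - Y ^ 2) := by
  classical
  -- the linear equations in the squares of `X + Y`, `X - Y`, `h`, `w`
  let A : Matrix (Fin 2) (Fin 4) ℂ := !![1, -1, -4, 4 * ε; γ, γ, 2 * α, 2 * β]
  have h1 : Module.finrank ℂ (LinearMap.range A.mulVecLin) +
      Module.finrank ℂ (LinearMap.ker A.mulVecLin) = 4 := by
    have := LinearMap.finrank_range_add_finrank_ker A.mulVecLin
    simpa using this
  have h2 : Module.finrank ℂ (LinearMap.range A.mulVecLin) ≤ 2 := by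
    have := (LinearMap.range A.mulVecLin).finrank_le
    simpa using this
  have h3 : 2 ≤ Module.finrank ℂ (LinearMap.ker A.mulVecLin) := by omega
  obtain ⟨f, hf⟩ := exists_linearIndependent_of_le_finrank h3
  have hker : ∀ a b : ℂ, A.mulVec (a • (f 0 : Fin 4 → ℂ) + b • (f 1 : Fin 4 → ℂ)) = 0 :=
    fun a b => (a • f 0 + b • f 1).2
  obtain ⟨p, hp⟩ : ∃ p : Fin 4 → ℂ, p = (f 0 : Fin 4 → ℂ) := ⟨_, rfl⟩
  obtain ⟨q, hq⟩ : ∃ q : Fin 4 → ℂ, q = (f 1 : Fin 4 → ℂ) := ⟨_, rfl⟩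
  rw [← hp, ← hq] at hker
  have hind : LinearIndependent ℂ ![p, q] := by
    have h6 : LinearIndependent ℂ (fun i => ((f i : LinearMap.ker A.mulVecLin) :
        Fin 4 → ℂ)) := hf.map' (LinearMap.ker A.mulVecLin).subtype (Submodule.ker_subtype _)
    convert h6 using 1
    funext i
    fin_cases i
    · exact hp
    · exact hq
  rw [LinearIndependent.pair_iff] at hind
  -- the binary form
  obtain ⟨s, t, hst, hz⟩ : ∃ s t : ℂ, (s ≠ 0 ∨ t ≠ 0) ∧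
      t2 ^ 2 * ((s * p 2 + t * q 2) * (s * p 3 + t * q 3)) =
      t1 ^ 2 * ((s * p 0 + t * q 0) * (s * p 1 + t * q 1)) := by
    obtain ⟨a, ha⟩ : ∃ a, a = t2 ^ 2 * (p 2 * p 3) - t1 ^ 2 * (p 0 * p 1) := ⟨_, rfl⟩
    obtain ⟨b, hb⟩ : ∃ b, b = t2 ^ 2 * (p 2 * q 3 + q 2 * p 3) -
      t1 ^ 2 * (p 0 * q 1 + q 0 * p 1) := ⟨_, rfl⟩
    obtain ⟨c, hc⟩ : ∃ c, c = t2 ^ 2 * (q 2 * q 3) - t1 ^ 2 * (q 0 * q 1) := ⟨_, rfl⟩
    by_cases ha0 : a = 0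
    · refine ⟨1, 0, Or.inl one_ne_zero, ?_⟩
      rw [ha0] at ha
      linear_combination (-1) * ha
    · obtain ⟨e, he⟩ := exists_sq (b ^ 2 - 4 * a * c)
      refine ⟨(e - b) / (2 * a), 1, Or.inr one_ne_zero, ?_⟩
      have h7 : a * ((e - b) / (2 * a)) ^ 2 + b * ((e - b) / (2 * a)) + c = 0 := by
        field_simp
        linear_combination he
      rw [ha, hb, hc] at h7
      rw [ha, hb]
      linear_combination h7
  obtain ⟨k, hk⟩ : ∃ k : Fin 4 → ℂ, k = s • p + t • q := ⟨_, rfl⟩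
  have hkA := hker s t
  rw [← hk] at hkA
  have hk0 : k ≠ 0 := by
    intro h0
    rw [h0] at hk
    obtain ⟨h8, h9⟩ := hind s t hk.symm
    rcases hst with h10 | h10
    · exact h10 h8
    · exact h10 h9
  have hke : ∀ i, k i = s * p i + t * q i := fun i => by
    rw [hk]
    rfl
  rw [← hke, ← hke, ← hke, ← hke] at hz
  have e0 : k 0 - k 1 - 4 * k 2 + 4 * ε * k 3 = 0 := by
    have h8 := congrFun hkA 0
    simp only [A, Matrix.mulVec, dotProduct, Fin.sum_univ_four, Matrix.of_apply,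
      Matrix.cons_val_zero, Matrix.cons_val_one, Matrix.cons_val, Pi.zero_apply] at h8
    linear_combination h8
  have e1 : γ * k 0 + γ * k 1 + 2 * α * k 2 + 2 * β * k 3 = 0 := by
    have h8 := congrFun hkA 1
    simp only [A, Matrix.mulVec, dotProduct, Fin.sum_univ_four, Matrix.of_apply,
      Matrix.cons_val_zero, Matrix.cons_val_one, Matrix.cons_val, Pi.zero_apply] at h8
    linear_combination h8
  obtain ⟨S, hS⟩ := exists_sq (k 0)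
  obtain ⟨D, hD⟩ := exists_sq (k 1)
  obtain ⟨h, hh⟩ := exists_sq (k 2)
  obtain ⟨w, hw⟩ := exists_sq (k 3)
  have hsgn : ∃ w' : ℂ, w' ^ 2 = k 3 ∧ t2 * (h * w') = t1 * (S * D) := by
    have h8 : (t2 * (h * w) - t1 * (S * D)) * (t2 * (h * w) + t1 * (S * D)) = 0 := by
      rw [← hS, ← hD, ← hh, ← hw] at hz
      linear_combination hz
    rcases mul_eq_zero.1 h8 with h9 | h9
    · exact ⟨w, hw, sub_eq_zero.1 h9⟩
    · exact ⟨-w, by rw [neg_sq, hw], by linear_combination (-1) * h9⟩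
  obtain ⟨w', hw', hrel⟩ := hsgn
  refine ⟨(S + D) / 2, (S - D) / 2, h, w', ?_, ?_, ?_, ?_⟩
  · by_contra hcon
    push Not at hcon
    obtain ⟨g1, g2, g3, g4⟩ := hcon
    have hS0 : S = 0 := by linear_combination g1 + g2
    have hD0 : D = 0 := by linear_combination g1 - g2
    apply hk0
    funext i
    fin_cases i
    · change k 0 = 0
      rw [← hS, hS0]
      ring
    · change k 1 = 0
      rw [← hD, hD0]
      ring
    · change k 2 = 0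
      rw [← hh, g3]
      ring
    · change k 3 = 0
      rw [← hw', g4]
      ring
  · rw [← hS, ← hD, ← hh, ← hw'] at e0
    linear_combination (1 / 4) * e0
  · rw [← hS, ← hD, ← hh, ← hw'] at e1
    linear_combination (1 / 2) * e1
  · linear_combination hrel

/-- **(G1)** -/
theorem SmoothU.g1 (H : SmoothU c1 c2 m1 m2 n α β γ ε) : c1 * m2 ≠ c2 * m1 := by
  intro h0
  obtain ⟨κ, μ, hκ, hκ1, hκ2⟩ : ∃ κ μ : ℂ, (κ ≠ 0 ∨ μ ≠ 0) ∧ κ * c1 + μ * m1 = 0 ∧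
      κ * c2 + μ * m2 = 0 := by
    by_cases h1 : c1 = 0 ∧ m1 = 0
    · by_cases h2 : c2 = 0 ∧ m2 = 0
      · exact ⟨1, 0, Or.inl one_ne_zero, by rw [h1.1]; ring, by rw [h2.1]; ring⟩
      · refine ⟨m2, -c2, ?_, by linear_combination h0, by ring⟩
        by_contra hcon
        push Not at hcon
        exact h2 ⟨neg_eq_zero.1 hcon.2, hcon.1⟩
    · refine ⟨m1, -c1, ?_, by ring, by linear_combination (-1) * h0⟩
      by_contra hcon
      push Not at hcon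
      exact h1 ⟨neg_eq_zero.1 hcon.2, hcon.1⟩
  obtain ⟨t1, t2, ht, ht1, ht2⟩ : ∃ t1 t2 : ℂ, (t1 ≠ 0 ∨ t2 ≠ 0) ∧ t1 * c1 + t2 * c2 = 0 ∧
      t1 * m1 + t2 * m2 = 0 := by
    by_cases h1 : c1 = 0 ∧ c2 = 0
    · by_cases h2 : m1 = 0 ∧ m2 = 0
      · exact ⟨1, 0, Or.inl one_ne_zero, by rw [h1.1]; ring, by rw [h2.1]; ring⟩
      · refine ⟨m2, -m1, ?_, by rw [h1.1, h1.2]; ring, by ring⟩
        by_contra hcon
        push Not at hcon
        exact h2 ⟨neg_eq_zero.1 hcon.2, hcon.1⟩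
    · refine ⟨c2, -c1, ?_, by ring, by linear_combination (-1) * h0⟩
      by_contra hcon
      push Not at hcon
      exact h1 ⟨neg_eq_zero.1 hcon.2, hcon.1⟩
  obtain ⟨X, Y, h, w, hne, e1, e2, e3⟩ := exists_squares α β γ ε t1 t2
  have hT : ∀ a b : ℂ, t1 * a + t2 * b = 0 → a * (h * w) + b * (X ^ 2 - Y ^ 2) = 0 := by
    intro a b hab
    have g1 : t1 * (a * (h * w) + b * (X ^ 2 - Y ^ 2)) = 0 := by
      linear_combination (h * w) * hab - b * e3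
    have g2 : t2 * (a * (h * w) + b * (X ^ 2 - Y ^ 2)) = 0 := by
      linear_combination (X ^ 2 - Y ^ 2) * hab + a * e3
    rcases ht with h1 | h1
    · exact (mul_eq_zero.1 g1).resolve_left h1
    · exact (mul_eq_zero.1 g2).resolve_left h1
  have hTc := hT c1 c2 ht1
  have hTm := hT m1 m2 ht2
  have hfin := H X Y h w 0 0 0 e1 (by rw [hTc]; ring) (by rw [e2]; ring) (by rw [hTm]; ring)
    (by tauto) 0 κ 0 (2 * μ) (by linear_combination (-4 * X) * hκ2)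
    (by linear_combination (4 * Y) * hκ2) (by linear_combination (-2 * w) * hκ1)
    (by linear_combination (-2 * h) * hκ1) (by ring) (by ring) (by ring)
  rcases hκ with h1 | h1
  · exact h1 hfin.2.1
  · exact h1 ((mul_eq_zero.1 hfin.2.2.2).resolve_left two_ne_zero)

/-- **(G2)** -/
theorem SmoothU.g2 (H : SmoothU c1 c2 m1 m2 n α β γ ε) : ¬ (c2 = 0 ∧ γ = 0) := by
  rintro ⟨h1, h2⟩
  obtain ⟨v, hv⟩ := exists_sq m2
  have hfin := H 1 0 0 0 0 0 v (by ring) (by rw [h1]; ring) (by rw [h2]; ring)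
    (by rw [hv]; ring) (Or.inl one_ne_zero) 0 1 0 0 (by rw [h1]; ring) (by ring) (by ring)
    (by ring) (by ring) (by ring) (by ring)
  exact one_ne_zero hfin.2.1

/-- **(G3)** -/
theorem SmoothU.g3 (H : SmoothU c1 c2 m1 m2 n α β γ ε) (hβ : β = -(ε * α)) :
    c1 ≠ 0 ∧ ε ≠ 0 := by
  constructor
  · intro h1
    obtain ⟨h, hh⟩ := exists_sq ε
    obtain ⟨v, hv⟩ := exists_sq (m1 * h)
    have hfin := H 0 0 h 1 0 0 v (by rw [hh]; ring) (by rw [h1]; ring)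
      (by rw [hh, hβ]; ring) (by rw [hv]; ring) (by simp) (-2 * α) 1 1 0 (by ring) (by ring)
      (by rw [h1]; ring) (by rw [h1, hβ]; ring) (by ring) (by ring) (by ring)
    exact one_ne_zero hfin.2.1
  · intro h1
    have hβ0 : β = 0 := by rw [hβ, h1]; ring
    have hfin := H 0 0 0 1 0 0 0 (by rw [h1]; ring) (by ring) (by rw [hβ0]; ring) (by ring)
      (by simp) 1 0 0 0 (by ring) (by ring) (by ring) (by rw [h1]; ring) (by ring) (by ring)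
      (by ring)
    exact one_ne_zero hfin.1

/-- **(G4)**, the first condition. -/
theorem SmoothU.g4a (H : SmoothU c1 c2 m1 m2 n α β γ ε) (hβ : β = ε * α) :
    c1 ^ 2 ≠ 4 * ε * α ^ 2 := by
  intro h0
  have hα : α ≠ 0 := by
    intro h1
    have h2 : c1 = 0 := by
      rw [h1] at h0
      have h3 : c1 ^ 2 = 0 := by rw [h0]; ring
      exact (pow_eq_zero_iff two_ne_zero).1 h3
    exact (H.g3 (by rw [hβ, h1]; ring)).1 h2
  obtain ⟨h, hh⟩ : ∃ h, h = -(c1 / (2 * α)) := ⟨_, rfl⟩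
  have e1 : 2 * α * h = -c1 := by
    rw [hh]
    field_simp
  have e2 : h ^ 2 = ε := by
    have h1 : 4 * α ^ 2 * (h ^ 2 - ε) = 0 := by
      linear_combination (2 * α * h - c1) * e1 + h0
    exact sub_eq_zero.1 ((mul_eq_zero.1 h1).resolve_left
      (mul_ne_zero (by norm_num) (pow_ne_zero 2 hα)))
  have e3 : c1 * h = -(2 * ε * α) := by linear_combination h * e1 - 2 * α * e2
  obtain ⟨s, hs⟩ := exists_sq (2 * (c1 * h))
  obtain ⟨v, hv⟩ := exists_sq (m1 * h)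
  have hfin := H 0 0 h 1 0 s v (by rw [e2]; ring) (by rw [hs]; ring)
    (by rw [hs, e3, e2, hβ]; ring) (by rw [hv]; ring) (by simp) 0 1 1 0 (by ring) (by ring)
    (by linear_combination (-2) * e1) (by rw [hβ]; linear_combination (-2) * e3) (by ring)
    (by ring) (by ring)
  exact one_ne_zero hfin.2.1

/-- **(G4)**, the other conditions. -/
theorem SmoothU.g4b (H : SmoothU c1 c2 m1 m2 n α β γ ε) (hβ : β = ε * α) :
    c1 ^ 2 - 16 * ε * c2 ^ 2 ≠ 4 * ε * (α ^ 2 - 4 * γ ^ 2) := by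
  intro h0
  obtain ⟨l, hl⟩ := exists_sq (16 * (γ ^ 2 - c2 ^ 2))
  obtain ⟨h₀, w₀, hne, f1, f2⟩ := exists_ker2 (a := -l - 2 * α) (b := -(2 * c1))
    (c := ε * l - 2 * β) (by rw [hβ]; linear_combination 4 * h0 + 4 * ε * hl)
  obtain ⟨X₀, Y₀, hne', f3, f4⟩ := exists_ker2 (a := -(2 * c2 + 2 * γ)) (b := l)
    (c := 2 * c2 - 2 * γ) (by linear_combination hl)
  obtain ⟨y, z, hyz, f5⟩ := exists_yz (X₀ * Y₀) (h₀ ^ 2 - ε * w₀ ^ 2)
  obtain ⟨T, hT⟩ : ∃ T, T = c1 * ((h₀ * z) * (w₀ * z)) + c2 * ((X₀ * y) ^ 2 - (Y₀ * y) ^ 2) :=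
    ⟨_, rfl⟩
  obtain ⟨M, hM⟩ : ∃ M, M = m1 * ((h₀ * z) * (w₀ * z)) + m2 * ((X₀ * y) ^ 2 - (Y₀ * y) ^ 2) :=
    ⟨_, rfl⟩
  obtain ⟨s, hs⟩ := exists_sq (2 * T)
  obtain ⟨v, hv⟩ := exists_sq M
  have hTA : T + (α * (h₀ * z) ^ 2 + β * (w₀ * z) ^ 2 + γ * ((X₀ * y) ^ 2 + (Y₀ * y) ^ 2)) = 0 := by
    have h1 : (2 : ℂ) * 2 *
        (T + (α * (h₀ * z) ^ 2 + β * (w₀ * z) ^ 2 + γ * ((X₀ * y) ^ 2 + (Y₀ * y) ^ 2))) = 0 := by
      rw [hT]
      linear_combination (-(h₀ * z ^ 2)) * f1 - (w₀ * z ^ 2) * f2 - (X₀ * y ^ 2) * f3 -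
        (Y₀ * y ^ 2) * f4 + 2 * l * f5
    exact (mul_eq_zero.1 h1).resolve_left (mul_ne_zero two_ne_zero two_ne_zero)
  have hfin := H (X₀ * y) (Y₀ * y) (h₀ * z) (w₀ * z) 0 s v (by linear_combination f5)
    (by rw [hs, hT]; ring) (by rw [hs]; linear_combination (-2) * hTA) (by rw [hv, hM]; ring) (by
      rcases hyz with g | g
      · rcases hne' with g' | g'
        · exact Or.inl (mul_ne_zero g' g)
        · exact Or.inr (Or.inl (mul_ne_zero g' g))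
      · rcases hne with g' | g'
        · exact Or.inr (Or.inr (Or.inl (mul_ne_zero g' g)))
        · exact Or.inr (Or.inr (Or.inr (Or.inl (mul_ne_zero g' g))))) l 1 1 0
    (by linear_combination y * f3) (by linear_combination y * f4)
    (by linear_combination z * f1) (by linear_combination z * f2) (by ring) (by ring) (by ring)
  exact one_ne_zero hfin.2.1

/-- **(G5)**, the first condition. -/
theorem SmoothU.g5a (H : SmoothU c1 c2 m1 m2 n α β γ ε) (hn : n = 0) : m2 ≠ 0 := by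
  intro h0
  obtain ⟨r, hr⟩ := exists_sq (c2 + γ)
  obtain ⟨s, hs⟩ := exists_sq (c2 - γ)
  have hfin := H 1 0 0 0 r s 0 (by ring) (by rw [hr, hs]; ring) (by rw [hr, hs]; ring)
    (by rw [h0, hn]; ring) (Or.inl one_ne_zero) 0 0 0 1 (by rw [h0]; ring) (by ring) (by ring)
    (by ring) (by rw [hn]; ring) (by rw [hn]; ring) (by ring)
  exact one_ne_zero hfin.2.2.2

/-- **(G5)**, the second condition. -/
theorem SmoothU.g5b (H : SmoothU c1 c2 m1 m2 n α β γ ε) (hn : n = 0) :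
    m1 ^ 2 ≠ 16 * ε * m2 ^ 2 := by
  intro h0
  obtain ⟨l, hl⟩ := exists_sq (-(4 * m2 ^ 2))
  obtain ⟨h₀, w₀, hne, f1, f2⟩ := exists_ker2 (a := -l) (b := -m1) (c := ε * l)
    (by linear_combination h0 + 4 * ε * hl)
  obtain ⟨X₀, Y₀, hne', f3, f4⟩ := exists_ker2 (a := -m2) (b := l) (c := m2)
    (by linear_combination hl)
  obtain ⟨y, z, hyz, f5⟩ := exists_yz (X₀ * Y₀) (h₀ ^ 2 - ε * w₀ ^ 2)
  obtain ⟨T, hT⟩ : ∃ T, T = c1 * ((h₀ * z) * (w₀ * z)) + c2 * ((X₀ * y) ^ 2 - (Y₀ * y) ^ 2) :=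
    ⟨_, rfl⟩
  obtain ⟨A, hA⟩ : ∃ A, A = α * (h₀ * z) ^ 2 + β * (w₀ * z) ^ 2 +
    γ * ((X₀ * y) ^ 2 + (Y₀ * y) ^ 2) := ⟨_, rfl⟩
  obtain ⟨r, hr⟩ := exists_sq (T + A)
  obtain ⟨s, hs⟩ := exists_sq (T - A)
  have hM : m1 * ((h₀ * z) * (w₀ * z)) + m2 * ((X₀ * y) ^ 2 - (Y₀ * y) ^ 2) = 0 := by
    have h1 : (2 : ℂ) *
        (m1 * ((h₀ * z) * (w₀ * z)) + m2 * ((X₀ * y) ^ 2 - (Y₀ * y) ^ 2)) = 0 := by
      linear_combination (-(h₀ * z ^ 2)) * f1 - (w₀ * z ^ 2) * f2 - (X₀ * y ^ 2) * f3 -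
        (Y₀ * y ^ 2) * f4 + 2 * l * f5
    exact (mul_eq_zero.1 h1).resolve_left two_ne_zero
  have hfin := H (X₀ * y) (Y₀ * y) (h₀ * z) (w₀ * z) r s 0 (by linear_combination f5)
    (by rw [hr, hs, hT]; ring) (by rw [hr, hs, hA]; ring) (by rw [hM, hn]; ring) (by
      rcases hyz with g | g
      · rcases hne' with g' | g'
        · exact Or.inl (mul_ne_zero g' g)
        · exact Or.inr (Or.inl (mul_ne_zero g' g))
      · rcases hne with g' | g'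
        · exact Or.inr (Or.inr (Or.inl (mul_ne_zero g' g)))
        · exact Or.inr (Or.inr (Or.inr (Or.inl (mul_ne_zero g' g))))) l 0 0 1
    (by linear_combination y * f3) (by linear_combination y * f4)
    (by linear_combination z * f1) (by linear_combination z * f2) (by rw [hn]; ring)
    (by rw [hn]; ring) (by ring)
  exact one_ne_zero hfin.2.2.2

/-- **(G6)** -/
theorem SmoothU.g6 (H : SmoothU c1 c2 m1 m2 n α β γ ε) : ¬ (α = 0 ∧ β = 0 ∧ γ = 0) := by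
  rintro ⟨h1, h2, h3⟩
  obtain ⟨X, Y, h, w, hne, e1, -, e3⟩ := exists_squares 0 0 0 ε (-c2) c1
  obtain ⟨v, hv⟩ := exists_sq (m1 * (h * w) + m2 * (X ^ 2 - Y ^ 2))
  have hfin := H X Y h w 0 0 v e1 (by linear_combination (-2) * e3)
    (by rw [h1, h2, h3]; ring) (by rw [hv]; ring) (by tauto) 0 0 1 0 (by rw [h3]; ring)
    (by rw [h3]; ring) (by rw [h1]; ring) (by rw [h2]; ring) (by ring) (by ring) (by ring)
  exact one_ne_zero hfin.2.2.1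

/-- The conditions on the parameters. -/
theorem SmoothU.good (H : SmoothU c1 c2 m1 m2 n α β γ ε) :
    c1 * m2 ≠ c2 * m1 ∧ ¬ (c2 = 0 ∧ γ = 0) ∧ (β = -(ε * α) → c1 ≠ 0 ∧ ε ≠ 0) ∧
    (β = ε * α → ¬ (c1 ^ 2 = 4 * ε * α ^ 2 ∧ c2 ^ 2 = γ ^ 2) ∧
      ¬ (α ^ 2 = 4 * γ ^ 2 ∧ c1 ^ 2 = 16 * ε * c2 ^ 2) ∧
      ¬ (c1 ^ 2 - 16 * ε * c2 ^ 2 = 4 * ε * (α ^ 2 - 4 * γ ^ 2) ∧ c1 * m1 = 16 * ε * c2 * m2 ∧
        m1 ^ 2 - 16 * ε * m2 ^ 2 = -4 * n ^ 2 * (c1 ^ 2 - 16 * ε * c2 ^ 2))) ∧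
    (n = 0 → ¬ (m2 = 0 ∧ c2 ^ 2 = γ ^ 2) ∧
      ¬ (γ = 0 ∧ β = -(ε * α) ∧ m1 ^ 2 = 16 * ε * m2 ^ 2 ∧
        (c1 ^ 2 + 16 * ε * c2 ^ 2 + 4 * ε * α ^ 2) * m2 = 2 * c1 * c2 * m1)) :=
  ⟨H.g1, H.g2, H.g3, fun hβ => ⟨fun h => H.g4a hβ h.1,
    fun h => H.g4b hβ (by rw [h.1, h.2]; ring), fun h => H.g4b hβ h.1⟩,
    fun hn => ⟨fun h => H.g5a hn h.1, fun h => H.g5b hn h.2.2.1⟩⟩

end Vale.Agent.P297.H777.ZU
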