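import Vale.Agent.P297.H777.Web
import Mathlib.RingTheory.Derivation.Basic
import Mathlib.Algebra.MvPolynomial.Derivation

/-!
Generic points of the octic of a web of quadrics: what does not vanish at them.
-/

set_option linter.unusedSectionVars false
set_option linter.style.haveILetI false
set_option linter.unusedSimpArgs false

open IntermediateField Polynomial

namespace Vale.Agent.P297.H777

/-- A derivation which kills a subalgebra kills the elements algebraic over it. -/
theorem der_eq_zero {B L : Type} [CommRing B] [IsDomain B] [Algebra ℂ B] [CommRing L]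
    [IsDomain L] [Algebra ℂ L] [Algebra B L] [IsScalarTower ℂ B L]
    (hinj : Function.Injective (algebraMap B L)) (D : Derivation ℂ B L) (A : Subalgebra ℂ B)
    (hA : ∀ a ∈ A, D a = 0) {z : B} (hz : IsAlgebraic A z) : D z = 0 := by
  classical
  let D' : Derivation A B L :=
    { toFun := D
      map_add' := fun a b => D.map_add a b
      map_smul' := fun a b => by
        change D ((a : B) * b) = a • D b
        rw [D.leibniz, hA a a.2, smul_zero, add_zero]
        rfl
      map_one_eq_zero' := D.map_one_eq_zero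
      leibniz' := fun a b => D.leibniz a b }
  have hex : ∃ n : ℕ, ∃ p : Polynomial A, p ≠ 0 ∧ Polynomial.aeval z p = 0 ∧ p.natDegree = n := by
    obtain ⟨p, hp, hp'⟩ := hz
    exact ⟨_, p, hp, hp', rfl⟩
  obtain ⟨p, hp, hpz, hpn⟩ := Nat.find_spec hex
  have hmin := fun m => Nat.find_min hex (m := m)
  have hn : p.natDegree ≠ 0 := by
    intro h0
    rw [Polynomial.eq_C_of_natDegree_eq_zero h0, Polynomial.aeval_C] at hpz
    have h1 : p.coeff 0 = 0 := Subtype.ext hpz
    apply hp
    rw [Polynomial.eq_C_of_natDegree_eq_zero h0, h1, C_0]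
  haveI : CharZero A := charZero_of_injective_algebraMap (algebraMap ℂ A).injective
  have hd : Polynomial.derivative p ≠ 0 := by
    intro h0
    exact hn (Polynomial.derivative_eq_zero.1 h0)
  have hdz : Polynomial.aeval z (Polynomial.derivative p) ≠ 0 := by
    intro h0
    refine hmin _ ?_ ⟨Polynomial.derivative p, hd, h0, rfl⟩
    rw [← hpn]
    exact Polynomial.natDegree_derivative_lt hn
  have h1 := D'.map_aeval p z
  rw [hpz, map_zero] at h1
  have h2 : algebraMap B L (Polynomial.aeval z (Polynomial.derivative p)) * D' z = 0 := by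
    rw [← Algebra.smul_def]
    exact h1.symm
  rcases mul_eq_zero.1 h2 with h3 | h3
  · exact absurd (hinj (h3.trans (map_zero _).symm)) hdz
  · exact h3

/-- Algebraically independent elements among elements over which independent elements are
algebraic. -/
theorem exists_indep_alg {N ι : Type} [Field N] [Algebra ℂ N] (o : ι → N) {n : ℕ} (u : Fin n → N)
    (hu : AlgebraicIndependent ℂ u)
    (halg : ∀ i, IsAlgebraic (IntermediateField.adjoin ℂ (Set.range o)) (u i)) :
    ∃ s : Fin n → ι, AlgebraicIndependent ℂ (fun i => o (s i)) := by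
  classical
  let E := IntermediateField.adjoin ℂ (Set.range o)
  let F := algebraicClosure E N
  have h1 : Algebra.trdeg ℂ E + Algebra.trdeg E F = Algebra.trdeg ℂ F := trdeg_add_eq ℂ E
  have h2 : Algebra.trdeg E F = 0 := trdeg_eq_zero
  rw [h2, add_zero] at h1
  have h3 : (n : Cardinal) ≤ Algebra.trdeg ℂ F := by
    have h4 : AlgebraicIndependent ℂ
        (fun i => (⟨u i, mem_algebraicClosure_iff.2 (halg i)⟩ : F)) :=
      AlgebraicIndependent.of_comp (F.val.restrictScalars ℂ) hu
    have h5 := h4.cardinalMk_le_trdeg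
    rwa [Cardinal.mk_fin] at h5
  rw [← h1] at h3
  obtain ⟨t, w, hw⟩ := exists_isTranscendenceBasis' ℂ (A := E)
  rw [← hw.cardinalMk_eq_trdeg, ← Cardinal.mk_fin, Cardinal.le_def] at h3
  obtain ⟨e⟩ := h3
  have h6 : AlgebraicIndependent ℂ (fun i => ((w (e i) : E) : N)) :=
    (hw.1.comp e e.injective).map' (f := E.val) Subtype.val_injective
  exact exists_indep o _ h6 fun i => (w (e i)).2

/-- Integrality descends along injections. -/
theorem isIntegral_pullback {B L : Type} [CommRing B] [Algebra ℂ B] [CommRing L] [Algebra ℂ L]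
    (g : B →ₐ[ℂ] L) (hinj : Function.Injective g) (S : Set B) {z : B}
    (h : IsIntegral (Algebra.adjoin ℂ (g '' S)) (g z)) : IsIntegral (Algebra.adjoin ℂ S) z := by
  let A := Algebra.adjoin ℂ S
  have h1 : IsIntegral (A.map g) (g z) := by
    have h2 : A.map g = Algebra.adjoin ℂ (g '' S) := AlgHom.map_adjoin g S
    rw [← h2] at h
    exact h
  let e : A ≃ₐ[ℂ] A.map g := A.equivMapOfInjective g hinj
  letI : Algebra A L := (g.comp A.val).toRingHom.toAlgebra
  have h3 : IsIntegral A (g z) := by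
    refine IsIntegral.map_of_comp_eq (e.symm : A.map g →+* A) (RingHom.id L) ?_ h1
    ext y
    obtain ⟨x, rfl⟩ := e.surjective y
    change g (e.symm (e x) : A) = (e x : L)
    rw [e.symm_apply_apply]
    rfl
  let g' : B →ₐ[A] L := { g with commutes' := fun _ => rfl }
  exact (isIntegral_algHom_iff g' hinj).1 h3

end Vale.Agent.P297.H777

namespace Vale.Agent.P297.C8

open Vale.Agent.P297.H777

section jac

variable {R A : Type} [CommRing R] [Algebra ℂ R] [CommRing A] [Algebra ℂ A]

/-- Half the Jacobian matrix of a (symmetric) web. -/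
noncomputable def jac (Q : Web) (o : Fin 4 → R) : Matrix (Fin 4) (Fin 4) R :=
  Matrix.of fun i a => ∑ b, algebraMap ℂ R (Q i a b) * o b

theorem jac_mulVec (Q : Web) (o u : Fin 4 → R) : (jac Q o).mulVec u = qb Q u o := by
  funext i
  rw [qb_apply, Matrix.mulVec, dotProduct]
  refine Finset.sum_congr rfl fun a _ => ?_
  rw [jac, Matrix.of_apply, Finset.sum_mul]
  exact Finset.sum_congr rfl fun b _ => by ring

theorem map_jac (Q : Web) (g : R →ₐ[ℂ] A) (o : Fin 4 → R) :
    (jac Q o).map g = jac Q (fun j => g (o j)) := by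
  ext i a
  simp only [jac, Matrix.map_apply, Matrix.of_apply, map_sum, map_mul, AlgHom.commutes]

theorem map_jac_det (Q : Web) (g : R →ₐ[ℂ] A) (o : Fin 4 → R) :
    g (jac Q o).det = (jac Q (fun j => g (o j))).det := by
  rw [← map_jac]
  exact AlgHom.map_det g _

/-- The Jacobian determinant of a web. -/
noncomputable def jacP (Q : Web) : MvPolynomial (Fin 4) ℂ := (jac Q MvPolynomial.X).det

theorem aeval_jacP (Q : Web) (o : Fin 4 → R) :
    MvPolynomial.aeval o (jacP Q) = (jac Q o).det := by
  rw [jacP, map_jac_det]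
  simp only [MvPolynomial.aeval_X]

theorem jacP_homogeneous (Q : Web) : (jacP Q).IsHomogeneous 4 := by
  rw [jacP, Matrix.det_apply]
  refine MvPolynomial.IsHomogeneous.sum _ _ _ fun τ _ => ?_
  have h1 : (∏ i, jac Q (MvPolynomial.X : Fin 4 → MvPolynomial (Fin 4) ℂ) (τ i) i).IsHomogeneous
      (∑ _i : Fin 4, 1) := by
    refine MvPolynomial.IsHomogeneous.prod _ _ _ fun i _ => ?_
    rw [jac, Matrix.of_apply]
    refine MvPolynomial.IsHomogeneous.sum _ _ _ fun b _ => ?_
    exact (MvPolynomial.isHomogeneous_C (Fin 4) _).mul (MvPolynomial.isHomogeneous_X ℂ b)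
  have h2 : ∑ _i : Fin 4, 1 = 4 := by simp
  rw [h2] at h1
  rcases Int.units_eq_one_or (Equiv.Perm.sign τ) with h3 | h3
  · rw [h3, one_smul]
    exact h1
  · rw [h3]
    have h4 : ((-1 : ℤˣ) • ∏ i, jac Q (MvPolynomial.X : Fin 4 → MvPolynomial (Fin 4) ℂ) (τ i) i) =
        - ∏ i, jac Q (MvPolynomial.X : Fin 4 → MvPolynomial (Fin 4) ℂ) (τ i) i := by
      rw [Units.smul_def]
      simp
    rw [h4]
    exact h1.neg

/-- The Jacobian determinant of a symmetric web without base points is not zero. -/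
theorem jacP_ne_zero {Q : Web} (hQ : ∀ i, (Q i).IsSymm)
    (hfin : ∀ o : Fin 4 → ℂ, qq Q o = 0 → o = 0) : jacP Q ≠ 0 := by
  intro h0
  let B := MvPolynomial (Fin 4) ℂ
  let L := FractionRing B
  let o : Fin 4 → L := fun j => algebraMap B L (MvPolynomial.X j)
  have hinj : Function.Injective (algebraMap B L) := IsFractionRing.injective B L
  have hdet : (jac Q o).det = 0 := by
    have h1 := map_jac_det Q (IsScalarTower.toAlgHom ℂ B L) (MvPolynomial.X : Fin 4 → B)
    rw [← jacP, h0, map_zero] at h1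
    exact h1.symm
  obtain ⟨u, hu, hu0⟩ := Matrix.exists_mulVec_eq_zero_iff.2 hdet
  rw [jac_mulVec] at hu0
  let D : Derivation ℂ B L := MvPolynomial.mkDerivation ℂ u
  have hDX : ∀ j, D (MvPolynomial.X j) = u j := fun j => MvPolynomial.mkDerivation_X _ _ _
  have hDq : ∀ i, D (qq Q (MvPolynomial.X : Fin 4 → B) i) = 0 := by
    intro i
    have h1 : D (qq Q (MvPolynomial.X : Fin 4 → B) i) = qb Q u o i + qb Q o u i := by
      rw [qq_apply, map_sum, qb_apply, qb_apply, ← Finset.sum_add_distrib]
      refine Finset.sum_congr rfl fun a _ => ?_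
      rw [map_sum, ← Finset.sum_add_distrib]
      refine Finset.sum_congr rfl fun b _ => ?_
      rw [D.leibniz, D.map_algebraMap, smul_zero, add_zero, D.leibniz, hDX, hDX]
      simp only [Algebra.smul_def, o]
      rw [← IsScalarTower.algebraMap_apply]
      ring
    rw [h1, qb_comm hQ o u, hu0]
    simp
  let A : Subalgebra ℂ B := Algebra.adjoin ℂ (Set.range (qq Q (MvPolynomial.X : Fin 4 → B)))
  have hA : ∀ a ∈ A, D a = 0 := by
    intro a ha
    induction ha using Algebra.adjoin_induction with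
    | mem x hx =>
      obtain ⟨i, rfl⟩ := hx
      exact hDq i
    | algebraMap r => exact D.map_algebraMap r
    | add x y _ _ hx hy => rw [map_add, hx, hy, add_zero]
    | mul x y _ _ hx hy => rw [D.leibniz, hx, hy, smul_zero, smul_zero, add_zero]
  apply hu
  funext j
  have h1 := web_integral hfin o j
  have h2 : Set.range (qq Q o) = (IsScalarTower.toAlgHom ℂ B L) ''
      Set.range (qq Q (MvPolynomial.X : Fin 4 → B)) := by
    rw [← Set.range_comp]
    congr 1
    funext i
    exact (map_qq Q (IsScalarTower.toAlgHom ℂ B L) MvPolynomial.X i).symm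
  rw [h2] at h1
  have h3 := isIntegral_pullback (IsScalarTower.toAlgHom ℂ B L) hinj _ h1
  rw [← hDX]
  exact der_eq_zero hinj D A hA h3.isAlgebraic

end jac

variable {N : Type} [Field N] [Algebra ℂ N] {Q : Web}

/-- Only multiples of the octic vanish at a generic point. -/
theorem GenW.dvd (hirr : Irreducible (octic Q)) {o : Fin 4 → N} (ho : GenW Q o)
    {f : MvPolynomial (Fin 4) ℂ} {d : ℕ} (hf : f.IsHomogeneous d)
    (h0 : MvPolynomial.aeval o f = 0) : octic Q ∣ f := by
  obtain ⟨i, j, hij⟩ := ho.ind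
  let x : Fin 4 → N := fun k => o k / o 0
  have hx : ∀ {e : ℕ} {g : MvPolynomial (Fin 4) ℂ}, g.IsHomogeneous e →
      MvPolynomial.aeval o g = 0 → MvPolynomial.aeval x g = 0 := by
    intro e g hg h1
    have h2 : x = fun k => (o 0)⁻¹ * o k := funext fun k => div_eq_inv_mul _ _
    rw [h2, aeval_smul_homog hg, h1, mul_zero]
  let y : Fin 4 → N[X] := fun k => X * C (x k)
  have hy : ∀ {e : ℕ} {g : MvPolynomial (Fin 4) ℂ}, g.IsHomogeneous e →
      MvPolynomial.aeval o g = 0 → MvPolynomial.aeval y g = 0 := by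
    intro e g hg h1
    rw [aeval_smul_homog hg]
    have h2 : MvPolynomial.aeval (fun k => C (x k) : Fin 4 → N[X]) g =
        (IsScalarTower.toAlgHom ℂ N N[X]) (MvPolynomial.aeval x g) := by
      rw [MvPolynomial.comp_aeval_apply]
      rfl
    rw [h2, hx hg h1, map_zero, mul_zero]
  refine (dvd_of_generic (octic Q) hirr y (hy (octic_homogeneous Q) ?_) ![0, i, j] ?_ f).1
    (hy hf h0)
  · rw [aeval_octic, ho.zero]
  · convert indep_cone hij using 1
    funext k
    fin_cases k
    · change X * C (o 0 / o 0) = X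
      rw [div_self ho.ne, C_1, mul_one]
    · change X * C (x i) = C (x i) * X
      rw [mul_comm]
    · change X * C (x j) = C (x j) * X
      rw [mul_comm]

/-- Forms of degree less than eight do not vanish at generic points. -/
theorem GenW.aeval_ne_zero (hirr : Irreducible (octic Q)) {o : Fin 4 → N} (ho : GenW Q o)
    {f : MvPolynomial (Fin 4) ℂ} {d : ℕ} (hf : f.IsHomogeneous d) (hd : d < 8) (h : f ≠ 0) :
    MvPolynomial.aeval o f ≠ 0 := by
  intro h0
  obtain ⟨g, hg⟩ := ho.dvd hirr hf h0
  have hgne : g ≠ 0 := by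
    rintro rfl
    exact h (by rw [hg, mul_zero])
  have h1 : f.totalDegree = (octic Q).totalDegree + g.totalDegree := by
    rw [hg, MvPolynomial.totalDegree_mul_of_isDomain hirr.ne_zero hgne]
  rw [hf.totalDegree h, (octic_homogeneous Q).totalDegree hirr.ne_zero] at h1
  omega

/-- The Jacobian determinant does not vanish at a generic point. -/
theorem GenW.jac_ne (hQ : ∀ i, (Q i).IsSymm) (hfin : ∀ o : Fin 4 → ℂ, qq Q o = 0 → o = 0)
    (hirr : Irreducible (octic Q)) {o : Fin 4 → N} (ho : GenW Q o) : (jac Q o).det ≠ 0 := by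
  rw [← aeval_jacP]
  exact ho.aeval_ne_zero hirr (jacP_homogeneous Q) (by norm_num) (jacP_ne_zero hQ hfin)

/-- The kernel of `qb o ·` at a generic point is zero. -/
theorem GenW.qb_eq_zero (hQ : ∀ i, (Q i).IsSymm) (hfin : ∀ o : Fin 4 → ℂ, qq Q o = 0 → o = 0)
    (hirr : Irreducible (octic Q)) {o : Fin 4 → N} (ho : GenW Q o) {u : Fin 4 → N}
    (hu : qb Q o u = 0) : u = 0 := by
  by_contra hne
  exact ho.jac_ne hQ hfin hirr (Matrix.exists_mulVec_eq_zero_iff.1
    ⟨u, hne, by rw [jac_mulVec, qb_comm hQ, hu]⟩)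

/-- The values of the quadrics at a generic point. -/
theorem GenW.indep_qq (hfin : ∀ o : Fin 4 → ℂ, qq Q o = 0 → o = 0)
    {o : Fin 4 → N} (ho : GenW Q o) {k : Fin 4} (hk : qq Q o k ≠ 0) :
    ∃ i j, AlgebraicIndependent ℂ ![qq Q o i / qq Q o k, qq Q o j / qq Q o k] := by
  let M := AlgebraicClosure N
  let ι : N →ₐ[ℂ] M := IsScalarTower.toAlgHom ℂ N M
  have hι : Function.Injective ι := (algebraMap N M).injective
  obtain ⟨s, hs⟩ := IsAlgClosed.exists_pow_nat_eq (ι (qq Q o k)) (n := 2) (by norm_num)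
  have hs0 : s ≠ 0 := by
    rintro rfl
    rw [zero_pow (by norm_num)] at hs
    exact hk (hι (by rw [← hs, map_zero]))
  let η : Fin 4 → M := fun i => ι (qq Q o i / qq Q o k)
  let o' : Fin 4 → M := s⁻¹ • fun j => ι (o j)
  have ho' : qq Q o' = η := by
    change qq Q (s⁻¹ • fun j => ι (o j)) = η
    rw [qq_smul, ← map_qq']
    funext i
    change (s⁻¹) ^ 2 * ι (qq Q o i) = ι (qq Q o i / qq Q o k)
    rw [inv_pow, hs, map_div₀, div_eq_inv_mul]
  obtain ⟨i, j, hij⟩ := ho.ind
  have hij' : AlgebraicIndependent ℂ (fun l => ι (![o i / o 0, o j / o 0] l)) := hij.map' hι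
  let E := IntermediateField.adjoin ℂ (Set.range η)
  have halg : ∀ j, IsAlgebraic E (o' j) := by
    intro j
    have h1 := web_integral hfin o' j
    rw [ho'] at h1
    have hle : ∀ z : Algebra.adjoin ℂ (Set.range η), (z : M) ∈ E := fun z =>
      IntermediateField.algebra_adjoin_le_adjoin ℂ _ z.2
    let φ : Algebra.adjoin ℂ (Set.range η) →+* E :=
      (Algebra.adjoin ℂ (Set.range η)).val.toRingHom.codRestrict E hle
    exact (IsIntegral.map_of_comp_eq φ (RingHom.id M) rfl h1).isAlgebraic
  have hrat : ∀ l, IsAlgebraic E (ι (o l / o 0)) := by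
    intro l
    have h1 : ι (o l / o 0) = o' l / o' 0 := by
      change ι (o l / o 0) = (s⁻¹ * ι (o l)) / (s⁻¹ * ι (o 0))
      rw [mul_div_mul_left _ _ (inv_ne_zero hs0), map_div₀]
    rw [h1, div_eq_mul_inv]
    exact IsAlgebraic.mul (halg l) (IsAlgebraic.inv (halg 0))
  obtain ⟨t, ht⟩ := exists_indep_alg η _ hij' (by
    intro l
    fin_cases l
    · exact hrat i
    · exact hrat j)
  refine ⟨t 0, t 1, AlgebraicIndependent.of_comp ι ?_⟩
  have h3 : (ι ∘ ![qq Q o (t 0) / qq Q o k, qq Q o (t 1) / qq Q o k]) = fun i => η (t i) := by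
    funext l
    fin_cases l <;> rfl
  rw [h3]
  exact ht

/-- A point of the octic with ratios of transcendence degree two is generic. -/
theorem GenW.of_ratios (hirr : Irreducible (octic Q)) {o : Fin 4 → N} (h0 : st (qq Q o) = 0)
    (k : Fin 4) (u : Fin 2 → N) (hu : AlgebraicIndependent ℂ u)
    (hmem : ∀ i, u i ∈ IntermediateField.adjoin ℂ (Set.range fun j => o j / o k)) :
    GenW Q o := by
  have hk : o k ≠ 0 := by
    intro hk
    have h1 : IntermediateField.adjoin ℂ (Set.range fun j => o j / o k) = ⊥ := by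
      rw [IntermediateField.adjoin_eq_bot_iff]
      rintro _ ⟨j, rfl⟩
      change o j / o k ∈ _
      rw [hk, div_zero]
      exact zero_mem _
    have h2 := hmem 0
    rw [h1, IntermediateField.mem_bot] at h2
    obtain ⟨c, hc⟩ := h2
    have h3 := hu.transcendental 0
    rw [← hc] at h3
    exact h3 (isAlgebraic_algebraMap c)
  obtain ⟨t, ht⟩ := exists_indep _ u hu hmem
  -- the first coordinate does not vanish
  let x : Fin 4 → N := fun j => o j / o k
  have hx : st (qq Q x) = 0 := by
    have h1 : x = (o k)⁻¹ • o := by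
      funext j
      exact div_eq_inv_mul _ _
    rw [h1, qq_smul, st_smul, h0, mul_zero]
  let y : Fin 4 → N[X] := fun j => X * C (x j)
  have hy : ∀ {e : ℕ} {g : MvPolynomial (Fin 4) ℂ}, g.IsHomogeneous e →
      MvPolynomial.aeval x g = 0 → MvPolynomial.aeval y g = 0 := by
    intro e g hg h1
    rw [aeval_smul_homog hg]
    have h2 : MvPolynomial.aeval (fun k => C (x k) : Fin 4 → N[X]) g =
        (IsScalarTower.toAlgHom ℂ N N[X]) (MvPolynomial.aeval x g) := by
      rw [MvPolynomial.comp_aeval_apply]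
      rfl
    rw [h2, h1, map_zero, mul_zero]
  have hcone : AlgebraicIndependent ℂ ![X, C (x (t 0)) * X, C (x (t 1)) * X] := by
    refine indep_cone ?_
    convert ht using 1
    funext l
    fin_cases l <;> rfl
  have ho0 : o 0 ≠ 0 := by
    intro h1
    have h2 := (dvd_of_generic (octic Q) hirr y (hy (octic_homogeneous Q) (by
      rw [aeval_octic, hx])) ![k, t 0, t 1] (by
      convert hcone using 1
      funext l
      fin_cases l
      · change X * C (o k / o k) = X
        rw [div_self hk, C_1, mul_one]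
      · change X * C (x (t 0)) = C (x (t 0)) * X
        rw [mul_comm]
      · change X * C (x (t 1)) = C (x (t 1)) * X
        rw [mul_comm]) (MvPolynomial.X 0)).1 (by
      rw [MvPolynomial.aeval_X]
      change X * C (o 0 / o k) = 0
      rw [h1, zero_div, C_0, mul_zero])
    obtain ⟨g, hg⟩ := h2
    have hgne : g ≠ 0 := by
      rintro rfl
      rw [mul_zero] at hg
      exact MvPolynomial.X_ne_zero (R := ℂ) (0 : Fin 4) hg
    have h3 := congrArg MvPolynomial.totalDegree hg
    rw [MvPolynomial.totalDegree_mul_of_isDomain hirr.ne_zero hgne, MvPolynomial.totalDegree_X,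
      (octic_homogeneous Q).totalDegree hirr.ne_zero] at h3
    omega
  refine GenW.of_trdeg h0 ho0 u hu fun i => ?_
  have h1 : IntermediateField.adjoin ℂ (Set.range fun j => o j / o k) ≤
      IntermediateField.adjoin ℂ (Set.range fun j => o j / o 0) := by
    rw [IntermediateField.adjoin_le_iff]
    rintro _ ⟨j, rfl⟩
    have h2 : o j / o k = (o j / o 0) / (o k / o 0) := by
      field_simp
    change o j / o k ∈ _
    rw [h2]
    exact div_mem (IntermediateField.subset_adjoin _ _ ⟨j, rfl⟩)
      (IntermediateField.subset_adjoin _ _ ⟨k, rfl⟩)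
  exact h1 (hmem i)

/-- The value of the quadrics at a generic point is not zero. -/
theorem GenW.qq_ne_zero (hfin : ∀ o : Fin 4 → ℂ, qq Q o = 0 → o = 0)
    {o : Fin 4 → N} (ho : GenW Q o) : qq Q o ≠ 0 := by
  intro h0
  obtain ⟨i, j, hij⟩ := ho.ind
  have h1 : ∀ k, IsAlgebraic ℂ (o k) := by
    intro k
    have h2 := web_integral hfin o k
    have h3 : Algebra.adjoin ℂ (Set.range (qq Q o)) = ⊥ := by
      rw [h0, eq_bot_iff, Algebra.adjoin_le_iff]
      rintro _ ⟨j, rfl⟩
      exact zero_mem _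
    rw [h3] at h2
    have h4 : IsIntegral ℂ (o k) := by
      refine IsIntegral.map_of_comp_eq (Algebra.botEquiv ℂ N : (⊥ : Subalgebra ℂ N) →+* ℂ)
        (RingHom.id N) ?_ h2
      ext z
      obtain ⟨c, rfl⟩ := (Algebra.botEquiv ℂ N).symm.surjective z
      change algebraMap ℂ N ((Algebra.botEquiv ℂ N) ((Algebra.botEquiv ℂ N).symm c)) =
        (((Algebra.botEquiv ℂ N).symm c : (⊥ : Subalgebra ℂ N)) : N)
      rw [AlgEquiv.apply_symm_apply]
      rfl
    exact h4.isAlgebraic
  refine hij.transcendental 0 ?_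
  change IsAlgebraic ℂ (o i / o 0)
  rw [div_eq_mul_inv]
  exact IsAlgebraic.mul (h1 i) (IsAlgebraic.inv (h1 0))

/-- A point with proportional values of the quadrics is generic. -/
theorem GenW.of_qq (hfin : ∀ o : Fin 4 → ℂ, qq Q o = 0 → o = 0) (hirr : Irreducible (octic Q))
    {o o' : Fin 4 → N} (ho : GenW Q o) {c : N} (hc : c ≠ 0) (h : qq Q o' = c • qq Q o) :
    GenW Q o' := by
  have h0 : st (qq Q o') = 0 := by rw [h, st_smul, ho.zero, mul_zero]
  obtain ⟨k, hk⟩ : ∃ k, qq Q o k ≠ 0 := by
    by_contra hne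
    push Not at hne
    exact ho.qq_ne_zero hfin (funext hne)
  obtain ⟨i, j, hij⟩ := ho.indep_qq hfin hk
  have hne : o' ≠ 0 := by
    rintro rfl
    have h1 := congrFun h k
    have h2 : qq Q (0 : Fin 4 → N) k = 0 := by
      rw [qq_apply]
      simp
    rw [h2] at h1
    exact mul_ne_zero hc hk h1.symm
  obtain ⟨l, hl⟩ : ∃ l, o' l ≠ 0 := by
    by_contra hne'
    push Not at hne'
    exact hne (funext hne')
  have hmem : ∀ i, qq Q o i / qq Q o k ∈
      IntermediateField.adjoin ℂ (Set.range fun j => o' j / o' l) := by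
    intro i
    have h1 : qq Q o i / qq Q o k =
        qq Q (fun j => o' j / o' l) i / qq Q (fun j => o' j / o' l) k := by
      have h2 : (fun j => o' j / o' l) = (o' l)⁻¹ • o' := funext fun j => div_eq_inv_mul _ _
      rw [h2, qq_smul, h, smul_smul]
      simp only [Pi.smul_apply, smul_eq_mul]
      rw [mul_div_mul_left]
      exact mul_ne_zero (pow_ne_zero _ (inv_ne_zero hl)) hc
    have h3 : ∀ i, qq Q (fun j => o' j / o' l) i ∈
        IntermediateField.adjoin ℂ (Set.range fun j => o' j / o' l) := by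
      intro i
      rw [qq_apply]
      refine sum_mem fun a _ => sum_mem fun b _ => ?_
      refine mul_mem (IntermediateField.algebraMap_mem _ _) (mul_mem ?_ ?_)
      · exact IntermediateField.subset_adjoin _ _ ⟨a, rfl⟩
      · exact IntermediateField.subset_adjoin _ _ ⟨b, rfl⟩
    rw [h1]
    exact div_mem (h3 i) (h3 k)
  refine GenW.of_ratios hirr h0 l _ hij fun a => ?_
  fin_cases a
  · exact hmem i
  · exact hmem j

/-- The quadrics of a symmetric web without base points are not zero. -/
theorem qq_X_ne_zero (hQ : ∀ i, (Q i).IsSymm) (hfin : ∀ o : Fin 4 → ℂ, qq Q o = 0 → o = 0)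
    (i : Fin 4) : qq Q (MvPolynomial.X : Fin 4 → MvPolynomial (Fin 4) ℂ) i ≠ 0 := by
  intro h0
  have h1 : ∀ z : Fin 4 → ℂ, qq Q z i = 0 := by
    intro z
    have h2 := map_qq Q (MvPolynomial.aeval z : MvPolynomial (Fin 4) ℂ →ₐ[ℂ] ℂ)
      MvPolynomial.X i
    rw [h0, map_zero] at h2
    simp only [MvPolynomial.aeval_X] at h2
    exact h2.symm
  have h2 : ∀ z z' : Fin 4 → ℂ, qb Q z z' i = 0 := by
    intro z z'
    have h3 := congrFun (qq_add hQ z z') i
    simp only [Pi.add_apply, Pi.smul_apply, smul_eq_mul, h1, zero_add, add_zero] at h3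
    exact (mul_eq_zero.1 h3.symm).resolve_left two_ne_zero
  have h4 : ∀ a b, Q i a b = 0 := by
    intro a b
    have h5 := h2 (Pi.single a 1) (Pi.single b 1)
    rw [qb_apply] at h5
    simpa [Pi.single_apply, Finset.sum_ite_eq, ite_and] using h5
  refine jacP_ne_zero hQ hfin ?_
  rw [jacP]
  refine Matrix.det_eq_zero_of_row_eq_zero i fun a => ?_
  rw [jac, Matrix.of_apply]
  exact Finset.sum_eq_zero fun b _ => by rw [h4, map_zero, zero_mul]

/-- The values of the quadrics at a generic point are not zero. -/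
theorem GenW.qq_ne (hQ : ∀ i, (Q i).IsSymm) (hfin : ∀ o : Fin 4 → ℂ, qq Q o = 0 → o = 0)
    (hirr : Irreducible (octic Q)) {o : Fin 4 → N} (ho : GenW Q o) (i : Fin 4) :
    qq Q o i ≠ 0 := by
  have h1 := ho.aeval_ne_zero hirr (qq_X_homogeneous Q i) (by norm_num) (qq_X_ne_zero hQ hfin i)
  rw [map_qq] at h1
  simpa only [MvPolynomial.aeval_X] using h1

theorem GenW.vy_ne (hQ : ∀ i, (Q i).IsSymm) (hfin : ∀ o : Fin 4 → ℂ, qq Q o = 0 → o = 0)
    (hirr : Irreducible (octic Q)) {o : Fin 4 → N} (ho : GenW Q o) (i : Fin 3) :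
    vy (qq Q o) i ≠ 0 := by
  have h := ho.qq_ne hQ hfin hirr
  fin_cases i
  · exact mul_ne_zero (h 2) (h 3)
  · exact mul_ne_zero (h 1) (h 3)
  · exact mul_ne_zero (h 1) (h 2)

/-- The point of the plane over a generic point of the octic is generic. -/
theorem GenW.indep_vy (hQ : ∀ i, (Q i).IsSymm) (hfin : ∀ o : Fin 4 → ℂ, qq Q o = 0 → o = 0)
    (hirr : Irreducible (octic Q)) {o : Fin 4 → N} (ho : GenW Q o) :
    AlgebraicIndependent ℂ
      ![vy (qq Q o) 0 / vy (qq Q o) 2, vy (qq Q o) 1 / vy (qq Q o) 2] := by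
  have h := ho.qq_ne hQ hfin hirr
  have hst := ho.zero
  obtain ⟨i, j, hij⟩ := ho.indep_qq hfin (h 3)
  generalize qq Q o = y at h hst hij ⊢
  let w : Fin 2 → N := ![vy y 0 / vy y 2, vy y 1 / vy y 2]
  have h1 := h 1
  have h2 := h 2
  have h3 := h 3
  have hw0 : w 0 = y 3 / y 1 := by
    change vy y 0 / vy y 2 = _
    rw [vy_zero, vy_two]
    field_simp
  have hw1 : w 1 = y 3 / y 2 := by
    change vy y 1 / vy y 2 = _
    rw [vy_one, vy_two]
    field_simp
  have hE0 : y 3 / y 1 ∈ IntermediateField.adjoin ℂ (Set.range w) := by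
    rw [← hw0]
    exact IntermediateField.subset_adjoin _ _ ⟨0, rfl⟩
  have hE1 : y 3 / y 2 ∈ IntermediateField.adjoin ℂ (Set.range w) := by
    rw [← hw1]
    exact IntermediateField.subset_adjoin _ _ ⟨1, rfl⟩
  have hmem : ∀ l, y l / y 3 ∈ IntermediateField.adjoin ℂ (Set.range w) := by
    have m1 : y 1 / y 3 ∈ IntermediateField.adjoin ℂ (Set.range w) := by
      rw [← inv_div]
      exact inv_mem hE0
    have m2 : y 2 / y 3 ∈ IntermediateField.adjoin ℂ (Set.range w) := by
      rw [← inv_div]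
      exact inv_mem hE1
    intro l
    fin_cases l
    · have h4 : y 0 / y 3 = ((y 2 / y 3) ^ 2 + (y 1 / y 3) ^ 2 + (y 1 / y 3) ^ 2 * (y 2 / y 3) ^ 2) /
          (2 * ((y 1 / y 3) * (y 2 / y 3))) := by
        haveI : CharZero N := charZero_of_injective_algebraMap (algebraMap ℂ N).injective
        simp only [st] at hst
        field_simp
        linear_combination (-1) * hst
      change y 0 / y 3 ∈ _
      rw [h4]
      exact div_mem (add_mem (add_mem (pow_mem m2 2) (pow_mem m1 2))
        (mul_mem (pow_mem m1 2) (pow_mem m2 2))) (mul_mem (ofNat_mem _ 2) (mul_mem m1 m2))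
    · exact m1
    · exact m2
    · change y 3 / y 3 ∈ _
      rw [div_self h3]
      exact one_mem _
  obtain ⟨s, hs⟩ := exists_indep w _ hij (by
    intro l
    fin_cases l
    · exact hmem i
    · exact hmem j)
  have hsinj : Function.Injective s := fun i j hij => hs.injective (congrArg w hij)
  let e : Fin 2 ≃ Fin 2 := Equiv.ofBijective s (Finite.injective_iff_bijective.1 hsinj)
  exact (algebraicIndependent_equiv' e (by
    funext i
    rfl)).1 hs

/-- The Steiner surface is parametrised. -/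
theorem exists_ee [IsAlgClosed N] {y : Fin 4 → N} (h : st y = 0) (hy : y 1 * y 2 * y 3 ≠ 0) :
    ∃ c : N, c ^ 2 = 2 * (y 1 * y 2 * y 3) ∧ c ≠ 0 ∧ ee (c⁻¹ • vy y) = y := by
  haveI : CharZero N := charZero_of_injective_algebraMap (algebraMap ℂ N).injective
  obtain ⟨c, hc⟩ := IsAlgClosed.exists_pow_nat_eq (2 * (y 1 * y 2 * y 3)) (n := 2) (by norm_num)
  have hc0 : c ≠ 0 := by
    rintro rfl
    rw [zero_pow (by norm_num)] at hc
    exact mul_ne_zero two_ne_zero hy hc.symm
  refine ⟨c, hc, hc0, ?_⟩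
  rw [ee_smul, ee_vy h, smul_smul, ← hc, inv_pow, inv_mul_cancel₀ (pow_ne_zero _ hc0), one_smul]

end Vale.Agent.P297.C8
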