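import Vale.Agent.P297.H777.GenFacts
import Mathlib.RingTheory.Polynomial.GaussLemma
import Mathlib.FieldTheory.Separable
import Mathlib.Analysis.Complex.Polynomial.Basic

/-!
A complex line which meets the octic in eight different points.
-/

set_option linter.unusedSectionVars false
set_option linter.style.haveILetI false
set_option linter.unusedSimpArgs false

open IntermediateField Polynomial

namespace Vale.Agent.P297.C8

open Vale.Agent.P297.H777

section shift

variable {σ : Type}

/-- The translation `X ↦ X + t B` of the polynomial ring. -/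
noncomputable def shiftHom (B : σ → ℂ) :
    (MvPolynomial σ ℂ)[X] →ₐ[ℂ] (MvPolynomial σ ℂ)[X] :=
  Polynomial.eval₂AlgHom
    (MvPolynomial.aeval (fun j => C (MvPolynomial.X j) + X * C (MvPolynomial.C (B j))) :
      MvPolynomial σ ℂ →ₐ[ℂ] (MvPolynomial σ ℂ)[X]) X (fun _ => Commute.all _ _)

theorem shiftHom_X (B : σ → ℂ) : shiftHom B X = X := Polynomial.eval₂_X _ _

theorem shiftHom_C (B : σ → ℂ) (f : MvPolynomial σ ℂ) :
    shiftHom B (C f) = lineP f MvPolynomial.X (fun j => MvPolynomial.C (B j)) :=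
  Polynomial.eval₂_C _ _

theorem shiftHom_CX (B : σ → ℂ) (j : σ) :
    shiftHom B (C (MvPolynomial.X j)) =
      C (MvPolynomial.X j) + X * C (MvPolynomial.C (B j)) := by
  rw [shiftHom_C, lineP, MvPolynomial.aeval_X]

theorem shiftHom_CC (B : σ → ℂ) (c : ℂ) :
    shiftHom B (C (MvPolynomial.C c)) = C (MvPolynomial.C c) :=
  (shiftHom B).commutes c

theorem shiftHom_comp {B B' : σ → ℂ} (h : ∀ j, B' j + B j = 0) :
    (shiftHom B').comp (shiftHom B) = AlgHom.id ℂ _ := by
  apply Polynomial.algHom_ext'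
  · apply MvPolynomial.algHom_ext
    intro j
    change shiftHom B' (shiftHom B (C (MvPolynomial.X j))) = C (MvPolynomial.X j)
    rw [shiftHom_CX, map_add, map_mul, shiftHom_CX, shiftHom_X, shiftHom_CC, add_assoc, ← mul_add,
      ← C_add, ← MvPolynomial.C_add, h, MvPolynomial.C_0, C_0, mul_zero, add_zero]
  · change shiftHom B' (shiftHom B X) = X
    rw [shiftHom_X, shiftHom_X]

/-- The translation as an automorphism. -/
noncomputable def shiftEquiv (B : σ → ℂ) :
    (MvPolynomial σ ℂ)[X] ≃ₐ[ℂ] (MvPolynomial σ ℂ)[X] :=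
  AlgEquiv.ofAlgHom (shiftHom B) (shiftHom fun j => -B j)
    (shiftHom_comp fun j => by ring) (shiftHom_comp fun j => by ring)

end shift

theorem exists_ne_zero {f : MvPolynomial (Fin 4) ℂ} (hf : f ≠ 0) :
    ∃ A : Fin 4 → ℂ, MvPolynomial.aeval A f ≠ 0 := by
  by_contra hcon
  push Not at hcon
  apply hf
  apply MvPolynomial.funext
  intro A
  rw [map_zero]
  exact hcon A

theorem exists_cline {Q : Web} (hirr : Irreducible (octic Q)) :
    ∃ A B : Fin 4 → ℂ, st (qq Q B) ≠ 0 ∧ ∃ t : Fin 8 → ℂ, Function.Injective t ∧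
      ∀ i, st (qq Q (A + t i • B)) = 0 := by
  classical
  obtain ⟨B, hB⟩ := exists_ne_zero hirr.ne_zero
  rw [aeval_octic] at hB
  let R := MvPolynomial (Fin 4) ℂ
  let G : R[X] := lineP (octic Q) MvPolynomial.X (fun j => MvPolynomial.C (B j))
  have h8 : (octic Q).totalDegree ≤ 8 := (octic_homogeneous Q).totalDegree_le
  have hG8 : G.coeff 8 = MvPolynomial.C (st (qq Q B)) := by
    rw [coeff_lineP (octic_homogeneous Q), aeval_octic]
    have h1 := map_st_qq Q (Algebra.ofId ℂ R) B
    exact h1.symm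
  have hGirr : Irreducible G := by
    have h1 : Irreducible (C (octic Q) : R[X]) := by
      have h2 : Prime (C (octic Q) : R[X]) := Polynomial.prime_C_iff.2 hirr.prime
      exact h2.irreducible
    have h3 : shiftEquiv B (C (octic Q)) = G := shiftHom_C B _
    rw [← h3]
    exact (MulEquiv.irreducible_iff (shiftEquiv B)).2 h1
  -- the monic multiple
  let c : ℂ := st (qq Q B)
  let G' : R[X] := C (MvPolynomial.C c⁻¹) * G
  have hG'irr : Irreducible G' := by
    have hu : IsUnit (C (MvPolynomial.C c⁻¹) : R[X]) := by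
      refine IsUnit.map C (IsUnit.map MvPolynomial.C ?_)
      exact (inv_ne_zero hB).isUnit
    exact (irreducible_isUnit_mul hu).2 hGirr
  have hG'm : G'.Monic := by
    apply Polynomial.monic_of_natDegree_le_of_coeff_eq_one 8
    · exact (Polynomial.natDegree_C_mul_le _ _).trans (natDegree_lineP_le _ _ _ h8)
    · rw [Polynomial.coeff_C_mul, hG8, ← MvPolynomial.C_mul, inv_mul_cancel₀ hB, MvPolynomial.C_1]
  let L := FractionRing R
  haveI : CharZero L := charZero_of_injective_algebraMap
    ((IsFractionRing.injective R L).comp (MvPolynomial.C_injective (Fin 4) ℂ) :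
      Function.Injective ((algebraMap R L).comp (MvPolynomial.C : ℂ →+* R)))
  have hsep : (G'.map (algebraMap R L)).Separable :=
    (hG'm.irreducible_iff_irreducible_map_fraction_map.1 hG'irr).separable
  obtain ⟨a, b, hab⟩ := hsep
  obtain ⟨s₁, hs₁m, hs₁⟩ := IsLocalization.integerNormalization_spec (nonZeroDivisors R) a
  obtain ⟨s₂, hs₂m, hs₂⟩ := IsLocalization.integerNormalization_spec (nonZeroDivisors R) b
  generalize IsLocalization.integerNormalization (nonZeroDivisors R) a = a' at hs₁
  generalize IsLocalization.integerNormalization (nonZeroDivisors R) b = b' at hs₂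
  have hrel : C s₂ * a' * G' + C s₁ * b' * derivative G' = C (s₁ * s₂) := by
    apply Polynomial.map_injective (algebraMap R L) (IsFractionRing.injective R L)
    simp only [Polynomial.map_add, Polynomial.map_mul, Polynomial.map_C, hs₁, hs₂]
    have e1 : s₁ • a = C (algebraMap R L s₁) * a := by
      rw [← Polynomial.smul_eq_C_mul, algebraMap_smul]
    have e2 : s₂ • b = C (algebraMap R L s₂) * b := by
      rw [← Polynomial.smul_eq_C_mul, algebraMap_smul]
    rw [e1, e2, ← Polynomial.derivative_map]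
    have e3 : C (algebraMap R L (s₁ * s₂)) = C (algebraMap R L s₁) * C (algebraMap R L s₂) := by
      rw [map_mul, C_mul]
    rw [e3]
    linear_combination (C (algebraMap R L s₁) * C (algebraMap R L s₂)) * hab
  have hd : s₁ * s₂ ≠ 0 :=
    mul_ne_zero (nonZeroDivisors.ne_zero hs₁m) (nonZeroDivisors.ne_zero hs₂m)
  obtain ⟨A, hA⟩ := exists_ne_zero hd
  let ev : R →ₐ[ℂ] ℂ := MvPolynomial.aeval A
  let g : ℂ[X] := G'.map ev.toRingHom
  have hgsep : g.Separable := by
    have h1 := congrArg (Polynomial.map ev.toRingHom) hrel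
    simp only [Polynomial.map_add, Polynomial.map_mul, Polynomial.map_C] at h1
    rw [← Polynomial.derivative_map] at h1
    refine ⟨C (ev (s₁ * s₂))⁻¹ * (C (ev s₂) * a'.map ev.toRingHom),
      C (ev (s₁ * s₂))⁻¹ * (C (ev s₁) * b'.map ev.toRingHom), ?_⟩
    have h2 : C (ev (s₁ * s₂))⁻¹ * C (ev (s₁ * s₂)) = (1 : ℂ[X]) := by
      rw [← C_mul, inv_mul_cancel₀ hA, C_1]
    rw [← h2]
    have h3 : C (ev.toRingHom (s₁ * s₂)) = C (ev (s₁ * s₂)) := rfl
    rw [h3] at h1
    rw [← h1]
    change C (ev (s₁ * s₂))⁻¹ * (C (ev s₂) * a'.map ev.toRingHom) * g +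
      C (ev (s₁ * s₂))⁻¹ * (C (ev s₁) * b'.map ev.toRingHom) * derivative g =
      C (ev (s₁ * s₂))⁻¹ * (C (ev s₂) * a'.map ev.toRingHom * g +
        C (ev s₁) * b'.map ev.toRingHom * derivative g)
    ring
  have hgm : g.Monic := hG'm.map _
  have hG'8 : G'.natDegree = 8 := by
    refine le_antisymm ((Polynomial.natDegree_C_mul_le _ _).trans
      (natDegree_lineP_le _ _ _ h8)) (Polynomial.le_natDegree_of_ne_zero ?_)
    rw [Polynomial.coeff_C_mul, hG8, ← MvPolynomial.C_mul, inv_mul_cancel₀ hB, MvPolynomial.C_1]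
    exact one_ne_zero
  have hg8 : g.natDegree = 8 := by
    rw [← hG'8]
    exact hG'm.natDegree_map _
  have hcard : g.roots.toFinset.card = 8 := by
    rw [Multiset.toFinset_card_of_nodup (Polynomial.nodup_roots hgsep),
      ← (IsAlgClosed.splits g).natDegree_eq_card_roots, hg8]
  let e := (Finset.equivFinOfCardEq hcard).symm
  refine ⟨A, B, hB, fun i => (e i : ℂ), fun i j hij => e.injective (Subtype.ext hij), fun i => ?_⟩
  have h1 : (e i : ℂ) ∈ g.roots := Multiset.mem_toFinset.1 (e i).2
  have h2 : g.eval (e i : ℂ) = 0 := (Polynomial.mem_roots hgm.ne_zero).1 h1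
  change st (qq Q fun j => A j + (e i : ℂ) * B j) = 0
  generalize (e i : ℂ) = τ at h2 ⊢
  have h3 : g = C c⁻¹ * lineP (octic Q) A B := by
    change (C (MvPolynomial.C c⁻¹) * G).map ev.toRingHom = _
    rw [Polynomial.map_mul, Polynomial.map_C]
    have h4 : G.map ev.toRingHom = lineP (octic Q) A B := by
      have h5 := lineP_map (octic Q) (MvPolynomial.X : Fin 4 → R)
        (fun j => MvPolynomial.C (B j)) ev
      rw [h5]
      congr 1
      · funext j
        exact MvPolynomial.aeval_X _ _
      · funext j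
        exact MvPolynomial.aeval_C _ _
    rw [h4]
    congr 2
    exact MvPolynomial.aeval_C _ _
  rw [h3, Polynomial.eval_mul, Polynomial.eval_C] at h2
  have h4 := (mul_eq_zero.1 h2).resolve_left (inv_ne_zero hB)
  have h5 := lineP_eval₂ (octic Q) A B (AlgHom.id ℂ ℂ) τ
  have h6 : (lineP (octic Q) A B).eval₂ (AlgHom.id ℂ ℂ).toRingHom τ =
      (lineP (octic Q) A B).eval τ := rfl
  rw [h6, h4, aeval_octic] at h5
  exact h5.symm

end Vale.Agent.P297.C8
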