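import Vale.Agent.P297.H777.GenFacts
import Vale.Agent.P297.H212.Camp.Pair
import Vale.Agent.P297.H72.OctA

/-!
Transfer of the conditions on a web to extensions of the field of complex numbers.
-/

set_option linter.unusedSectionVars false
set_option linter.style.haveILetI false
set_option linter.unusedSimpArgs false

open IntermediateField

namespace Vale.Agent.P297.C8

open Vale.Agent.P297.H777 Vale.Agent.P297.H212.Camp Vale.Agent.P297.Z3

/-- A point of a finite-dimensional space over an algebra has a complex specialisation. -/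
theorem exists_cpoint {ι : Type} [Finite ι] {B : Type} [CommRing B] [Algebra ℂ B] [Nontrivial B]
    (w : ι → B) : ∃ z : ι → ℂ,
      ∀ f : MvPolynomial ι ℂ, MvPolynomial.aeval w f = 0 → MvPolynomial.aeval z f = 0 := by
  obtain ⟨z, -, hz⟩ := no_zero_ext (κ := Empty) (fun e => e.elim) w (fun e => e.elim)
  exact ⟨z, hz⟩

variable {N : Type} [Field N] [Algebra ℂ N] {Q : Web}

/-- The rank condition over an extension. -/
theorem rk_of (h3 : ∀ x u v : Fin 4 → ℂ, x ≠ 0 → qb Q x u = 0 → qb Q x v = 0 → u ≠ 0 →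
    ∃ c : ℂ, v = c • u) (p u v : Fin 4 → N) (hp : p ≠ 0) (hu : qb Q p u = 0) (hv : qb Q p v = 0)
    (hu0 : u ≠ 0) : ∃ c : N, v = c • u := by
  classical
  by_contra hcon
  obtain ⟨k, hk⟩ : ∃ k, p k ≠ 0 := by
    by_contra hne
    push Not at hne
    exact hp (funext hne)
  obtain ⟨a, ha⟩ : ∃ a, u a ≠ 0 := by
    by_contra hne
    push Not at hne
    exact hu0 (funext hne)
  obtain ⟨b, hb⟩ : ∃ b, u a * v b - u b * v a ≠ 0 := by
    by_contra hne
    push Not at hne
    refine hcon ⟨v a / u a, funext fun b => ?_⟩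
    have h1 := hne b
    simp only [Pi.smul_apply, smul_eq_mul]
    field_simp
    linear_combination h1
  let w : Option (Fin 3 × Fin 4) → N := fun i => i.elim (u a * v b - u b * v a)⁻¹
    (fun q => (![fun j => p j / p k, u, v] : Fin 3 → Fin 4 → N) q.1 q.2)
  obtain ⟨z, hz⟩ := exists_cpoint w
  let V : Fin 3 → Fin 4 → MvPolynomial (Option (Fin 3 × Fin 4)) ℂ :=
    fun l j => MvPolynomial.X (some (l, j))
  have hV : ∀ {A : Type} [CommRing A] [Algebra ℂ A] (y : Option (Fin 3 × Fin 4) → A) (l j),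
      MvPolynomial.aeval y (V l j) = y (some (l, j)) := fun y l j => MvPolynomial.aeval_X _ _
  let x' : Fin 4 → ℂ := fun j => z (some (0, j))
  let u' : Fin 4 → ℂ := fun j => z (some (1, j))
  let v' : Fin 4 → ℂ := fun j => z (some (2, j))
  have hp' : (fun j => p j / p k) = (p k)⁻¹ • p := funext fun j => div_eq_inv_mul _ _
  have e1 : qb Q x' u' = 0 := by
    funext i
    have h1 := hz (qb Q (V 0) (V 1) i) (by
      rw [map_qb]
      simp only [hV]
      change qb Q (fun j => p j / p k) u i = 0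
      rw [hp', qb_smul_left, hu]
      simp)
    rw [map_qb] at h1
    simp only [hV] at h1
    exact h1
  have e2 : qb Q x' v' = 0 := by
    funext i
    have h1 := hz (qb Q (V 0) (V 2) i) (by
      rw [map_qb]
      simp only [hV]
      change qb Q (fun j => p j / p k) v i = 0
      rw [hp', qb_smul_left, hv]
      simp)
    rw [map_qb] at h1
    simp only [hV] at h1
    exact h1
  have e3 : x' k = 1 := by
    have h1 := hz (V 0 k - 1) (by
      rw [map_sub, map_one, hV]
      change p k / p k - 1 = 0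
      rw [div_self hk, sub_self])
    rw [map_sub, map_one, hV] at h1
    exact sub_eq_zero.1 h1
  have e4 : z none * (u' a * v' b - u' b * v' a) = 1 := by
    have h1 := hz (MvPolynomial.X none * (V 1 a * V 2 b - V 1 b * V 2 a) - 1) (by
      simp only [map_sub, map_mul, map_one, hV, MvPolynomial.aeval_X]
      change (u a * v b - u b * v a)⁻¹ * (u a * v b - u b * v a) - 1 = 0
      rw [inv_mul_cancel₀ hb, sub_self])
    simp only [map_sub, map_mul, map_one, hV, MvPolynomial.aeval_X] at h1
    exact sub_eq_zero.1 h1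
  have hx'0 : x' ≠ 0 := by
    intro h0
    rw [h0] at e3
    exact zero_ne_one e3
  have hu'0 : u' ≠ 0 := by
    intro h0
    rw [h0] at e4
    simp at e4
  obtain ⟨c, hc⟩ := h3 x' u' v' hx'0 e1 e2 hu'0
  rw [hc] at e4
  simp only [Pi.smul_apply, smul_eq_mul] at e4
  have h5 : z none * (u' a * (c * u' b) - u' b * (c * u' a)) = 0 := by ring
  rw [h5] at e4
  exact zero_ne_one e4

/-- Transfer of the conditions on a web. -/
theorem webN_of (hQ : ∀ i, (Q i).IsSymm) (hfin : NoBase Q) (hirr : Irreducible (octic Q))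
    (h3 : ∀ x u v : Fin 4 → ℂ, x ≠ 0 → qb Q x u = 0 → qb Q x v = 0 → u ≠ 0 →
      ∃ c : ℂ, v = c • u) : WebN Q N where
  symm := hQ
  zero := by
    intro p hp
    by_contra hne
    obtain ⟨k, hk⟩ : ∃ k, p k ≠ 0 := by
      by_contra hne'
      push Not at hne'
      exact hne (funext hne')
    let w : Fin 4 → N := fun j => p j / p k
    obtain ⟨z, hz⟩ := exists_cpoint w
    have h1 : qq Q z = 0 := by
      funext i
      have h1 := hz (qq Q (MvPolynomial.X : Fin 4 → MvPolynomial (Fin 4) ℂ) i) (by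
        rw [map_qq]
        simp only [MvPolynomial.aeval_X]
        have h2 : w = (p k)⁻¹ • p := funext fun j => div_eq_inv_mul _ _
        change qq Q w i = 0
        rw [h2, qq_smul, hp]
        simp)
      rw [map_qq] at h1
      simp only [MvPolynomial.aeval_X] at h1
      exact h1
    have h2 := hz (MvPolynomial.X k - 1) (by
      rw [map_sub, map_one, MvPolynomial.aeval_X]
      change p k / p k - 1 = 0
      rw [div_self hk, sub_self])
    rw [map_sub, map_one, MvPolynomial.aeval_X, hfin z h1] at h2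
    simp at h2
  int := by
    intro E hE p hp j
    refine hE _ ?_
    have h1 := web_integral hfin p j
    have hle : ∀ z : Algebra.adjoin ℂ (Set.range (qq Q p)), (z : N) ∈ E := by
      intro z
      have h2 : Algebra.adjoin ℂ (Set.range (qq Q p)) ≤ E.toSubalgebra := by
        rw [Algebra.adjoin_le_iff]
        rintro _ ⟨i, rfl⟩
        exact hp i
      exact h2 z.2
    let φ : Algebra.adjoin ℂ (Set.range (qq Q p)) →+* E :=
      (Algebra.adjoin ℂ (Set.range (qq Q p))).val.toRingHom.codRestrict E hle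
    exact (IsIntegral.map_of_comp_eq φ (RingHom.id N) rfl h1).isAlgebraic
  rk := fun p u v _ hp hu hv hu0 => Or.inl (rk_of h3 p u v hp hu hv hu0)
  jac := fun p u hp hu => hp.qb_eq_zero hQ hfin hirr hu

/-- Transfer of the condition that the quadrics over the lines have rank at least three. -/
theorem rank3_of (h5 : ∀ m : Fin 3 → ℂ, (∀ i, m i ≠ 0) → ∀ l l' : Fin 4 → ℂ,
      (∀ a b, ∑ i, lm m i * Q i a b = l a * l' b + l' a * l b) → False)
    (m : Fin 3 → N) (hm : ∀ i, m i ≠ 0) (l l' : Fin 4 → N)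
    (h : ∀ a b, ∑ i, lm m i * algebraMap ℂ N (Q i a b) = l a * l' b + l' a * l b) : False := by
  classical
  let w : Option (Fin 3 ⊕ (Fin 4 ⊕ Fin 4)) → N := fun i => i.elim (m 0 * m 1 * m 2)⁻¹
    (Sum.elim m (Sum.elim l l'))
  obtain ⟨z, hz⟩ := exists_cpoint w
  let Pm : Fin 3 → MvPolynomial (Option (Fin 3 ⊕ (Fin 4 ⊕ Fin 4))) ℂ :=
    fun j => MvPolynomial.X (some (Sum.inl j))
  let Pl : Fin 4 → MvPolynomial (Option (Fin 3 ⊕ (Fin 4 ⊕ Fin 4))) ℂ :=
    fun j => MvPolynomial.X (some (Sum.inr (Sum.inl j)))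
  let Pl' : Fin 4 → MvPolynomial (Option (Fin 3 ⊕ (Fin 4 ⊕ Fin 4))) ℂ :=
    fun j => MvPolynomial.X (some (Sum.inr (Sum.inr j)))
  let m' : Fin 3 → ℂ := fun j => z (some (Sum.inl j))
  let u : Fin 4 → ℂ := fun j => z (some (Sum.inr (Sum.inl j)))
  let u' : Fin 4 → ℂ := fun j => z (some (Sum.inr (Sum.inr j)))
  have map_lm : ∀ {A : Type} [CommRing A] [Algebra ℂ A]
      (y : Option (Fin 3 ⊕ (Fin 4 ⊕ Fin 4)) → A) (i : Fin 4),
      MvPolynomial.aeval y (lm Pm i) = lm (fun j => y (some (Sum.inl j))) i := by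
    intro A _ _ y i
    fin_cases i <;>
    · simp [lm, Pm]
  have e1 : z none * (m' 0 * m' 1 * m' 2) = 1 := by
    have h1 := hz (MvPolynomial.X none * (Pm 0 * Pm 1 * Pm 2) - 1) (by
      simp only [map_sub, map_mul, map_one, MvPolynomial.aeval_X, Pm]
      change (m 0 * m 1 * m 2)⁻¹ * (m 0 * m 1 * m 2) - 1 = 0
      rw [inv_mul_cancel₀ (mul_ne_zero (mul_ne_zero (hm 0) (hm 1)) (hm 2)), sub_self])
    simp only [map_sub, map_mul, map_one, MvPolynomial.aeval_X, Pm] at h1
    exact sub_eq_zero.1 h1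
  have e2 : ∀ a b, ∑ i, lm m' i * Q i a b = u a * u' b + u' a * u b := by
    intro a b
    have h1 := hz (∑ i, lm Pm i * MvPolynomial.C (Q i a b) - (Pl a * Pl' b + Pl' a * Pl b)) (by
      simp only [map_sub, map_add, map_mul, map_sum, map_lm, MvPolynomial.aeval_X, Pl, Pl',
        MvPolynomial.aeval_C]
      exact sub_eq_zero.2 (h a b))
    simp only [map_sub, map_add, map_mul, map_sum, map_lm, MvPolynomial.aeval_X, Pl, Pl',
      MvPolynomial.aeval_C] at h1
    exact sub_eq_zero.1 h1
  refine h5 m' (fun i h0 => ?_) u u' e2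
  have h6 : m' 0 * m' 1 * m' 2 = 0 := by
    fin_cases i
    · change m' 0 = 0 at h0
      rw [h0, zero_mul, zero_mul]
    · change m' 1 = 0 at h0
      rw [h0, mul_zero, zero_mul]
    · change m' 2 = 0 at h0
      rw [h0, mul_zero]
  rw [h6, mul_zero] at e1
  exact zero_ne_one e1

end Vale.Agent.P297.C8
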