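import Vale.Agent.P297.H288.Z3Pts
import Vale.Agent.P297.H80.Z3.Dict
import Vale.Agent.P297.H946.NDeg

/-!
General `ℤ/3` Godeaux surfaces: freeness of the action on the canonical model, and its consequences
for the plane cubics over the `δ`-line.
-/

set_option linter.style.longLine false

open Polynomial

namespace Vale.Agent.P297.H288

open Vale.Agent.P297.H80 Vale.Agent.P297.H946

/-- The action of `ℤ/3` is free: `A₀, B₀` have no common root, and `A₂, B₂` have no common root. -/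
def FreeS (P : Par) : Prop :=
  (∀ c : ℂ, ¬ (A0 P c = 0 ∧ B0 P c = 0)) ∧ (∀ c : ℂ, ¬ (A2 P c = 0 ∧ B2 P c = 0))

/-- The coefficients of the monic cubic polynomial `B₀(D) + δ A₀(D)` of `D`. -/
def cf0 {R : Type} [CommRing R] [Algebra ℂ R] (P : Par) (δ : R) : Fin 3 → R :=
  ![-(algebraMap ℂ R (P.t 1) + algebraMap ℂ R (P.z 1) * δ),
    -(algebraMap ℂ R (P.t 3) + algebraMap ℂ R (P.z 3) * δ), 3 * δ]

/-- The coefficients of the monic cubic polynomial `B₂(B) + δ A₂(B)` of `B`. -/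
def cf2 {R : Type} [CommRing R] [Algebra ℂ R] (P : Par) (δ : R) : Fin 3 → R :=
  ![-(algebraMap ℂ R (P.t 0) + algebraMap ℂ R (P.z 0) * δ),
    -(algebraMap ℂ R (P.t 2) + algebraMap ℂ R (P.z 2) * δ), 3 * δ]

section

variable {R R' : Type} [CommRing R] [Algebra ℂ R] [CommRing R'] [Algebra ℂ R'] (f : R →ₐ[ℂ] R')
  (P : Par)

theorem map_cf0 (δ : R) (i : Fin 3) : f (cf0 P δ i) = cf0 P (f δ) i := by
  have h3 : f 3 = 3 := map_ofNat f 3
  fin_cases i <;> simp [cf0, h3]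

theorem map_cf2 (δ : R) (i : Fin 3) : f (cf2 P δ i) = cf2 P (f δ) i := by
  have h3 : f 3 = 3 := map_ofNat f 3
  fin_cases i <;> simp [cf2, h3]

theorem map_disc_cf0 (δ : R) : f (disc3 (cf0 P δ)) = disc3 (cf0 P (f δ)) := by
  simp only [disc3, map_sub, map_add, map_mul, map_pow, map_ofNat, map_cf0]

theorem map_disc_cf2 (δ : R) : f (disc3 (cf2 P δ)) = disc3 (cf2 P (f δ)) := by
  simp only [disc3, map_sub, map_add, map_mul, map_pow, map_ofNat, map_cf2]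

end

/-- The general statement behind `D ≠ 0`: the pencil `v³ - t₃ v - t₁ + δ (3 v² - ζ₃ v - ζ₁)` has
constant discriminant zero only if both polynomials have a common root. -/
theorem common_of_disc {ζ₁ ζ₃ t₁ t₃ : ℂ}
    (h : ∀ d : ℂ, disc3 (![-(t₁ + ζ₁ * d), -(t₃ + ζ₃ * d), 3 * d] : Fin 3 → ℂ) = 0) :
    ∃ c : ℂ, 3 * c ^ 2 - ζ₃ * c - ζ₁ = 0 ∧ c ^ 3 - t₃ * c - t₁ = 0 := by
  obtain ⟨c, rfl, rfl, rfl, rfl⟩ := disc_eq_zero (ζ₁ := ζ₁) (ζ₃ := ζ₃) (t₁ := t₁) (t₃ := t₃)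
    (fun d => by
      have h1 := h d
      simp only [disc3, Matrix.cons_val_zero, Matrix.cons_val_one, Matrix.cons_val] at h1
      linear_combination h1)
  exact ⟨c, by ring, by ring⟩

/-- **`D ≠ 0`**, the discriminant of `B₀ + δ A₀`. -/
theorem disc_cf0_ne {P : Par} (h : FreeS P) : ∃ d : ℂ, disc3 (cf0 P d) ≠ 0 := by
  by_contra hcon
  push Not at hcon
  obtain ⟨c, h1, h2⟩ := common_of_disc (ζ₁ := P.z 1) (ζ₃ := P.z 3) (t₁ := P.t 1) (t₃ := P.t 3)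
    (fun d => hcon d)
  refine h.1 c ⟨?_, ?_⟩
  · unfold A0
    exact h1
  · unfold B0
    exact h2

/-- **`D ≠ 0`**, the discriminant of `B₂ + δ A₂`. -/
theorem disc_cf2_ne {P : Par} (h : FreeS P) : ∃ d : ℂ, disc3 (cf2 P d) ≠ 0 := by
  by_contra hcon
  push Not at hcon
  obtain ⟨c, h1, h2⟩ := common_of_disc (ζ₁ := P.z 0) (ζ₃ := P.z 2) (t₁ := P.t 0) (t₃ := P.t 2)
    (fun d => hcon d)
  refine h.2 c ⟨?_, ?_⟩
  · unfold A2
    exact h1
  · unfold B2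
    exact h2

/-- The discriminant as a polynomial. -/
theorem discX_cf0_ne {P : Par} (h : FreeS P) : disc3 (cf0 P (X : ℂ[X])) ≠ 0 := by
  obtain ⟨d, hd⟩ := disc_cf0_ne h
  intro h0
  apply hd
  have h1 := map_disc_cf0 (aeval d : ℂ[X] →ₐ[ℂ] ℂ) P X
  rw [h0, map_zero, aeval_X] at h1
  exact h1.symm

theorem discX_cf2_ne {P : Par} (h : FreeS P) : disc3 (cf2 P (X : ℂ[X])) ≠ 0 := by
  obtain ⟨d, hd⟩ := disc_cf2_ne h
  intro h0
  apply hd
  have h1 := map_disc_cf2 (aeval d : ℂ[X] →ₐ[ℂ] ℂ) P X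
  rw [h0, map_zero, aeval_X] at h1
  exact h1.symm

end Vale.Agent.P297.H288
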