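import Vale.Agent.P297.H777.Line
import Mathlib.RingTheory.AlgebraicIndependent.TranscendenceBasis
import Mathlib.RingTheory.MvPolynomial.Homogeneous
import Mathlib.RingTheory.Polynomial.UniqueFactorization
import Mathlib.FieldTheory.RatFunc.AsPolynomial

/-!
Generic points of hypersurfaces and embeddings of function fields.
-/

set_option linter.unusedSectionVars false
set_option linter.style.haveILetI false
set_option linter.unusedSimpArgs false

open IntermediateField

namespace Vale.Agent.P297.H777

/-- A homomorphism which is injective on the polynomial ring of a transcendence basis is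
injective. -/
theorem inj_of_basis {k A B ι : Type} [Field k] [CommRing A] [IsDomain A] [Algebra k A]
    [CommRing B] [Algebra k B] (π : A →ₐ[k] B) (a : ι → A)
    (hind : AlgebraicIndependent k (fun i => π (a i)))
    (halg : Algebra.IsAlgebraic (Algebra.adjoin k (Set.range a)) A) :
    Function.Injective π := by
  rw [injective_iff_map_eq_zero]
  intro z hz
  by_contra hne
  obtain ⟨r, hr, hd⟩ := (halg.isAlgebraic z).exists_nonzero_dvd (mem_nonZeroDivisors_of_ne_zero hne)
  have h1 : π (r : A) = 0 := by
    obtain ⟨w, hw⟩ := hd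
    have h2 : (r : A) = z * w := hw
    rw [h2, map_mul, hz, zero_mul]
  obtain ⟨p, hp⟩ : (r : A) ∈ (MvPolynomial.aeval a : MvPolynomial ι k →ₐ[k] A).range := by
    have h3 : (r : A) ∈ Algebra.adjoin k (Set.range a) := r.2
    exact (Algebra.adjoin_range_eq_range_aeval k a) ▸ h3
  have h4 : MvPolynomial.aeval (fun i => π (a i)) p = 0 := by
    have h5 := MvPolynomial.comp_aeval_apply (f := a) π p
    rw [← h5]
    have h6 : MvPolynomial.aeval a p = (r : A) := hp
    rw [h6, h1]
  have h7 : p = 0 := by
    exact (injective_iff_map_eq_zero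
      (MvPolynomial.aeval (fun i => π (a i)) : MvPolynomial ι k →ₐ[k] B)).1 hind p h4
  apply hr
  have h8 : (r : A) = 0 := by
    have h6 : MvPolynomial.aeval a p = (r : A) := hp
    rw [← h6, h7, map_zero]
  exact Subtype.ext h8

/-- A generic point of an irreducible hypersurface: only the multiples of the equation vanish. -/
theorem dvd_of_generic {n : ℕ} (h : MvPolynomial (Fin (n + 1)) ℂ) (hirr : Irreducible h)
    {B : Type} [CommRing B] [IsDomain B] [Algebra ℂ B] (y : Fin (n + 1) → B)
    (hy : MvPolynomial.aeval y h = 0) (s : Fin n → Fin (n + 1))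
    (hs : AlgebraicIndependent ℂ (fun i => y (s i))) (f : MvPolynomial (Fin (n + 1)) ℂ) :
    MvPolynomial.aeval y f = 0 ↔ h ∣ f := by
  constructor
  swap
  · rintro ⟨g, rfl⟩
    rw [map_mul, hy, zero_mul]
  intro hf
  have hprime : Prime h := hirr.prime
  let I : Ideal (MvPolynomial (Fin (n + 1)) ℂ) := Ideal.span {h}
  haveI hI : I.IsPrime := (Ideal.span_singleton_prime hirr.ne_zero).2 hprime
  let A := MvPolynomial (Fin (n + 1)) ℂ ⧸ I
  let q : MvPolynomial (Fin (n + 1)) ℂ →ₐ[ℂ] A := Ideal.Quotient.mkₐ ℂ I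
  let a : Fin (n + 1) → A := fun j => q (MvPolynomial.X j)
  let π : A →ₐ[ℂ] B := Ideal.Quotient.liftₐ I (MvPolynomial.aeval y) (by
    intro b hb
    obtain ⟨c, rfl⟩ := Ideal.mem_span_singleton.1 hb
    rw [map_mul, hy, zero_mul])
  have hπ : ∀ b, π (q b) = MvPolynomial.aeval y b := fun b => rfl
  have hqa : ∀ b, q b = MvPolynomial.aeval a b := by
    intro b
    have h1 := MvPolynomial.comp_aeval_apply (f := (MvPolynomial.X : Fin (n + 1) → _)) q b
    rw [MvPolynomial.aeval_X_left_apply] at h1
    exact h1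
  have htop : Algebra.adjoin ℂ (Set.range a) = ⊤ := by
    rw [Algebra.adjoin_range_eq_range_aeval, eq_top_iff]
    intro z _
    obtain ⟨b, rfl⟩ := Ideal.Quotient.mkₐ_surjective ℂ I z
    exact ⟨b, (hqa b).symm⟩
  haveI halg0 : Algebra.IsAlgebraic (Algebra.adjoin ℂ (Set.range a)) A := by
    constructor
    intro z
    have hz : z ∈ Algebra.adjoin ℂ (Set.range a) := by rw [htop]; trivial
    exact isAlgebraic_algebraMap (⟨z, hz⟩ : Algebra.adjoin ℂ (Set.range a))
  have htr : Algebra.trdeg ℂ A ≤ n := by
    by_contra hlt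
    rw [not_le] at hlt
    have h1 : Cardinal.mk (Fin (n + 1)) ≤ Algebra.trdeg ℂ A := by
      rw [Cardinal.mk_fin, Nat.cast_succ, ← Cardinal.succ_natCast]
      exact Order.succ_le_of_lt hlt
    have h2 := Algebra.IsAlgebraic.isTranscendenceBasis_of_le_trdeg_of_finite ℂ a h1
    have h3 : MvPolynomial.aeval a h = 0 := by
      rw [← hqa]
      exact Ideal.Quotient.eq_zero_iff_mem.2 (Ideal.mem_span_singleton_self h)
    exact hirr.ne_zero ((injective_iff_map_eq_zero
      (MvPolynomial.aeval a : MvPolynomial (Fin (n + 1)) ℂ →ₐ[ℂ] A)).1 h2.1 h h3)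
  have hπa : ∀ i, π (a i) = y i := by
    intro i
    rw [hπ, MvPolynomial.aeval_X]
  have hb : AlgebraicIndependent ℂ (fun i => a (s i)) := by
    refine AlgebraicIndependent.of_comp π ?_
    have h1 : (π ∘ fun i => a (s i)) = fun i => y (s i) := funext fun i => hπa _
    rw [h1]
    exact hs
  have hbt : IsTranscendenceBasis ℂ (fun i => a (s i)) :=
    hb.isTranscendenceBasis_of_trdeg_le_of_finite (by
      rw [Cardinal.mk_fin]
      exact htr)
  have hinj := inj_of_basis π (fun i => a (s i)) (by simpa only [hπa] using hs) hbt.isAlgebraic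
  have h1 : q f = 0 := hinj (by rw [hπ, hf, map_zero])
  exact Ideal.mem_span_singleton.1 (Ideal.Quotient.eq_zero_iff_mem.1 h1)

/-- Embeddings of a function field from algebraically independent polynomials in the values of the
generators. -/
theorem exists_emb {σ K N : Type} [Field K] [Algebra ℂ K] [Field N] [Algebra ℂ N]
    (x : σ → K) (hx : IntermediateField.adjoin ℂ (Set.range x) = ⊤) {n : ℕ}
    (htr : Algebra.trdeg ℂ K = n) (y : σ → N)
    (h0 : ∀ f : MvPolynomial σ ℂ, MvPolynomial.aeval x f = 0 → MvPolynomial.aeval y f = 0)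
    (s : Fin n → MvPolynomial σ ℂ)
    (hs : AlgebraicIndependent ℂ (fun i => MvPolynomial.aeval y (s i))) :
    ∃ φ : K →ₐ[ℂ] N, ∀ j, φ (x j) = y j := by
  refine exists_point x hx y h0 fun f hf => ?_
  let A : Subalgebra ℂ K := (MvPolynomial.aeval x : MvPolynomial σ ℂ →ₐ[ℂ] K).range
  let r : MvPolynomial σ ℂ →ₐ[ℂ] A :=
    (MvPolynomial.aeval x : MvPolynomial σ ℂ →ₐ[ℂ] K).rangeRestrict
  have hr : Function.Surjective r := AlgHom.rangeRestrict_surjective _
  have hrv : ∀ f, ((r f : A) : K) = MvPolynomial.aeval x f := fun _ => rfl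
  let l : A →ₐ[ℂ] N := AlgHom.liftOfSurjective r hr (MvPolynomial.aeval y) (by
    intro f hf
    have hf' : r f = 0 := hf
    refine h0 f ?_
    rw [← hrv, hf']
    rfl)
  have hl : ∀ f, l (r f) = MvPolynomial.aeval y f := fun f =>
    AlgHom.liftOfSurjective_apply _ _ _ _ _
  have htrA : Algebra.trdeg ℂ A ≤ n := by
    rw [← htr]
    exact trdeg_le_of_injective A.val Subtype.val_injective
  have hb : AlgebraicIndependent ℂ (fun i => r (s i)) := by
    refine AlgebraicIndependent.of_comp l ?_
    have h1 : (l ∘ fun i => r (s i)) = fun i => MvPolynomial.aeval y (s i) :=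
      funext fun i => hl _
    rw [h1]
    exact hs
  have hbt : IsTranscendenceBasis ℂ (fun i => r (s i)) :=
    hb.isTranscendenceBasis_of_trdeg_le_of_finite (by
      rw [Cardinal.mk_fin]
      exact htrA)
  have hinj := inj_of_basis l (fun i => r (s i)) (by simpa only [hl] using hs) hbt.isAlgebraic
  rw [isUnit_iff_ne_zero, ← hl]
  intro h1
  apply hf
  have h2 : r f = 0 := hinj (by rw [h1, map_zero])
  rw [← hrv, h2]
  rfl

open scoped IntermediateField.algebraAdjoinAdjoin in
/-- Algebraically independent elements among generators. -/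
theorem exists_indep {N ι : Type} [Field N] [Algebra ℂ N] (o : ι → N) {n : ℕ} (u : Fin n → N)
    (hu : AlgebraicIndependent ℂ u)
    (hmem : ∀ i, u i ∈ IntermediateField.adjoin ℂ (Set.range o)) :
    ∃ s : Fin n → ι, AlgebraicIndependent ℂ (fun i => o (s i)) := by
  classical
  let A := Algebra.adjoin ℂ (Set.range o)
  let E := IntermediateField.adjoin ℂ (Set.range o)
  have h1 : Algebra.trdeg ℂ A + Algebra.trdeg A E = Algebra.trdeg ℂ E :=
    trdeg_add_eq ℂ A
  have h2 : Algebra.trdeg A E = 0 := trdeg_eq_zero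
  rw [h2, add_zero] at h1
  have h3 : (n : Cardinal) ≤ Algebra.trdeg ℂ E := by
    have h4 : AlgebraicIndependent ℂ (fun i => (⟨u i, hmem i⟩ : E)) :=
      AlgebraicIndependent.of_comp E.val hu
    have h5 := h4.cardinalMk_le_trdeg
    rwa [Cardinal.mk_fin] at h5
  rw [← h1] at h3
  let o' : ι → A := fun i => ⟨o i, Algebra.subset_adjoin ⟨i, rfl⟩⟩
  have htop : Algebra.adjoin ℂ (Set.range o') = ⊤ := by
    have h4 := Algebra.adjoin_adjoin_coe_preimage (R := ℂ) (s := Set.range o)
    rw [← h4]
    congr 1
    ext ⟨z, hz⟩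
    constructor
    · rintro ⟨i, hi⟩
      exact ⟨i, congrArg Subtype.val hi⟩
    · rintro ⟨i, hi⟩
      exact ⟨i, Subtype.ext hi⟩
  haveI halg0 : Algebra.IsAlgebraic (Algebra.adjoin ℂ (Set.range o')) A := by
    constructor
    intro z
    have hz : z ∈ Algebra.adjoin ℂ (Set.range o') := by rw [htop]; trivial
    exact isAlgebraic_algebraMap (⟨z, hz⟩ : Algebra.adjoin ℂ (Set.range o'))
  obtain ⟨t, hts, ht⟩ := exists_isTranscendenceBasis_subset (R := ℂ) (Set.range o')
  have h6 : (n : Cardinal) ≤ Cardinal.mk t := by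
    rw [ht.cardinalMk_eq_trdeg]
    exact h3
  rw [← Cardinal.mk_fin, Cardinal.le_def] at h6
  obtain ⟨e⟩ := h6
  choose s hs using fun i => hts (e i).2
  refine ⟨s, ?_⟩
  have h7 : AlgebraicIndependent ℂ (fun i => ((e i : t) : A)) := ht.1.comp e e.injective
  have h8 := h7.map' (f := A.val) Subtype.val_injective
  have h9 : (A.val ∘ fun i => ((e i : t) : A)) = fun i => o (s i) := by
    funext i
    have := congrArg Subtype.val (hs i)
    exact this.symm
  rwa [h9] at h8

theorem aeval_smul_homog {σ R : Type} [CommRing R] [Algebra ℂ R] {f : MvPolynomial σ ℂ} {d : ℕ}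
    (hf : f.IsHomogeneous d) (c : R) (y : σ → R) :
    MvPolynomial.aeval (fun j => c * y j) f = c ^ d * MvPolynomial.aeval y f := by
  rw [MvPolynomial.aeval_def, MvPolynomial.aeval_def, MvPolynomial.eval₂_eq, MvPolynomial.eval₂_eq,
    Finset.mul_sum]
  refine Finset.sum_congr rfl fun m hm => ?_
  have h1 : ∏ i ∈ m.support, (c * y i) ^ m i = c ^ d * ∏ i ∈ m.support, y i ^ m i := by
    simp only [mul_pow, Finset.prod_mul_distrib, Finset.prod_pow_eq_pow_sum]
    congr 2
    rw [hf.degree_eq_sum_deg_support hm]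
  rw [h1]
  ring

theorem indep_cone {K : Type} [Field K] [Algebra ℂ K] {a b : K}
    (h : AlgebraicIndependent ℂ ![a, b]) :
    AlgebraicIndependent ℂ (![Polynomial.X, Polynomial.C a * Polynomial.X,
      Polynomial.C b * Polynomial.X] : Fin 3 → Polynomial K) := by
  let N := RatFunc K
  let T : N := RatFunc.X
  have hT : T ≠ 0 := RatFunc.X_ne_zero
  have h1 : AlgebraicIndependent K (![T] : Fin 1 → N) :=
    algebraicIndependent_unique_type_iff.2 RatFunc.transcendental_X
  have h2 := h.sumElim_comp h1
  have h3 : AlgebraicIndependent ℂ (![T, algebraMap K N a, algebraMap K N b] : Fin 3 → N) := by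
    refine (algebraicIndependent_equiv' (finSumFinEquiv (m := 1) (n := 2)) ?_).1 h2
    funext k
    rcases k with k | k
    · fin_cases k
      rfl
    · fin_cases k
      · rfl
      · rfl
  let o : Fin 3 → N := ![T, algebraMap K N a * T, algebraMap K N b * T]
  have hT1 : T ∈ IntermediateField.adjoin ℂ (Set.range o) :=
    IntermediateField.subset_adjoin _ _ ⟨0, rfl⟩
  obtain ⟨s, hs⟩ := exists_indep o _ h3 (by
    intro i
    fin_cases i
    · exact hT1
    · have h4 : algebraMap K N a = (algebraMap K N a * T) / T := by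
        rw [mul_div_assoc, div_self hT, mul_one]
      change algebraMap K N a ∈ _
      rw [h4]
      exact div_mem (IntermediateField.subset_adjoin _ _ ⟨1, rfl⟩) hT1
    · have h4 : algebraMap K N b = (algebraMap K N b * T) / T := by
        rw [mul_div_assoc, div_self hT, mul_one]
      change algebraMap K N b ∈ _
      rw [h4]
      exact div_mem (IntermediateField.subset_adjoin _ _ ⟨2, rfl⟩) hT1)
  have hsinj : Function.Injective s := fun i j hij => hs.injective (congrArg o hij)
  let e : Fin 3 ≃ Fin 3 := Equiv.ofBijective s (Finite.injective_iff_bijective.1 hsinj)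
  have h5 : AlgebraicIndependent ℂ o := (algebraicIndependent_equiv' e (by
    funext i
    rfl)).1 hs
  refine AlgebraicIndependent.of_comp (IsScalarTower.toAlgHom ℂ (Polynomial K) N) ?_
  convert h5 using 1
  funext i
  fin_cases i
  · exact RatFunc.algebraMap_X
  · change algebraMap (Polynomial K) N (Polynomial.C a * Polynomial.X) = algebraMap K N a * T
    rw [map_mul, RatFunc.algebraMap_X]
    rfl
  · change algebraMap (Polynomial K) N (Polynomial.C b * Polynomial.X) = algebraMap K N b * T
    rw [map_mul, RatFunc.algebraMap_X]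
    rfl

end Vale.Agent.P297.H777
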