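import Vale.Agent.P297.H72.Rel
import Mathlib.FieldTheory.IntermediateField.Adjoin.Algebra

/-!
All the points of a hypersurface on a line.
-/

set_option linter.unusedSectionVars false
set_option linter.style.haveILetI false

open CategoryTheory AlgebraicGeometry IntermediateField Polynomial

namespace Vale.Agent.P297.H777

open Vale.Agent.P297 Vale.Agent.P297.H729 Vale.Agent.P297.H516 Vale.Agent.P297.H839
open Vale.Agent.P297.H72

section

variable {σ K : Type} [Field K] [Algebra ℂ K]

/-- A point of a field with values in a ring, given by the values of generators. -/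
theorem exists_point (x : σ → K) (hx : IntermediateField.adjoin ℂ (Set.range x) = ⊤)
    {B : Type} [CommRing B] [Algebra ℂ B] (y : σ → B)
    (h0 : ∀ f : MvPolynomial σ ℂ, MvPolynomial.aeval x f = 0 → MvPolynomial.aeval y f = 0)
    (h1 : ∀ f : MvPolynomial σ ℂ, MvPolynomial.aeval x f ≠ 0 →
      IsUnit (MvPolynomial.aeval y f)) :
    ∃ θ : K →ₐ[ℂ] B, ∀ j, θ (x j) = y j := by
  let A : Subalgebra ℂ K := (MvPolynomial.aeval x : MvPolynomial σ ℂ →ₐ[ℂ] K).range
  let r : MvPolynomial σ ℂ →ₐ[ℂ] A := (MvPolynomial.aeval x : MvPolynomial σ ℂ →ₐ[ℂ] K).rangeRestrict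
  have hr : Function.Surjective r := AlgHom.rangeRestrict_surjective _
  have hrv : ∀ f, ((r f : A) : K) = MvPolynomial.aeval x f := fun _ => rfl
  let l : A →ₐ[ℂ] B := AlgHom.liftOfSurjective r hr (MvPolynomial.aeval y) (by
    intro f hf
    have hf' : r f = 0 := hf
    refine h0 f ?_
    rw [← hrv, hf']
    rfl)
  have hl : ∀ f, l (r f) = MvPolynomial.aeval y f := fun f =>
    AlgHom.liftOfSurjective_apply _ _ _ _ _
  haveI : IsFractionRing A K := by
    refine IsFractionRing.of_field A K fun z => ?_
    have hz : z ∈ IntermediateField.adjoin ℂ (Set.range x) := by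
      rw [hx]
      trivial
    rw [IntermediateField.mem_adjoin_range_iff] at hz
    obtain ⟨a, b, hab⟩ := hz
    exact ⟨r a, r b, hab⟩
  let θ : K →ₐ[ℂ] B := IsLocalization.liftAlgHom (M := nonZeroDivisors A) (f := l) (fun v => by
    obtain ⟨f, hf⟩ := hr v.1
    rw [← hf, hl]
    refine h1 f ?_
    rw [← hrv, hf]
    intro h2
    exact nonZeroDivisors.ne_zero v.2 (Subtype.ext h2))
  refine ⟨θ, fun j => ?_⟩
  have h2 : (algebraMap A K) (r (MvPolynomial.X j)) = x j := by
    change MvPolynomial.aeval x (MvPolynomial.X j) = x j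
    rw [MvPolynomial.aeval_X]
  have h3 : θ ((algebraMap A K) (r (MvPolynomial.X j))) = l (r (MvPolynomial.X j)) :=
    IsLocalization.lift_eq _ _
  rw [h2, hl, MvPolynomial.aeval_X] at h3
  exact h3

end

section

variable {σ : Type} {R A : Type} [CommRing R] [CommRing A] [Algebra ℂ R] [Algebra ℂ A]

/-- The restriction of a polynomial to the line `P + t Q`. -/
noncomputable def lineP (h : MvPolynomial σ ℂ) (P Q : σ → R) : R[X] :=
  MvPolynomial.aeval (fun j => C (P j) + X * C (Q j)) h

theorem lineP_map (h : MvPolynomial σ ℂ) (P Q : σ → R) (g : R →ₐ[ℂ] A) :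
    (lineP h P Q).map g.toRingHom = lineP h (fun j => g (P j)) (fun j => g (Q j)) := by
  have h1 : (lineP h P Q).map g.toRingHom = (Polynomial.mapAlgHom g) (lineP h P Q) := rfl
  rw [h1]
  unfold lineP
  rw [MvPolynomial.comp_aeval_apply]
  congr 2
  funext j
  simp [Polynomial.coe_mapAlgHom]

theorem lineP_eval₂ (h : MvPolynomial σ ℂ) (P Q : σ → R) (g : R →ₐ[ℂ] A) (t : A) :
    (lineP h P Q).eval₂ g.toRingHom t =
      MvPolynomial.aeval (fun j => g (P j) + t * g (Q j)) h := by
  let e : R[X] →ₐ[ℂ] A := Polynomial.eval₂AlgHom g t (fun _ => Commute.all _ _)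
  have h1 : (lineP h P Q).eval₂ g.toRingHom t = e (lineP h P Q) := rfl
  rw [h1]
  unfold lineP
  rw [MvPolynomial.comp_aeval_apply]
  congr 2
  funext j
  change e (C (P j) + X * C (Q j)) = _
  rw [map_add, map_mul]
  congr 1
  · exact Polynomial.eval₂_C _ _
  · congr 1
    · exact Polynomial.eval₂_X _ _
    · exact Polynomial.eval₂_C _ _

theorem natDegree_lineP_le (h : MvPolynomial σ ℂ) (P Q : σ → R) {n : ℕ} (hn : h.totalDegree ≤ n) :
    (lineP h P Q).natDegree ≤ n := by
  classical
  unfold lineP
  rw [MvPolynomial.aeval_def, MvPolynomial.eval₂_eq]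
  refine Polynomial.natDegree_sum_le_of_forall_le _ _ fun d hd => ?_
  have h1 : ∀ j, (C (P j) + X * C (Q j) : R[X]).natDegree ≤ 1 := by
    intro j
    refine (Polynomial.natDegree_add_le _ _).trans ?_
    rw [Polynomial.natDegree_C]
    refine max_le (by norm_num) ?_
    refine (Polynomial.natDegree_mul_le).trans ?_
    rw [Polynomial.natDegree_C, add_zero]
    exact Polynomial.natDegree_X_le
  refine (Polynomial.natDegree_mul_le).trans ?_
  have h2 : (algebraMap ℂ R[X] (MvPolynomial.coeff d h)).natDegree = 0 := by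
    rw [Polynomial.algebraMap_apply, Polynomial.natDegree_C]
  rw [h2, zero_add]
  refine (Polynomial.natDegree_prod_le _ _).trans ?_
  refine le_trans (Finset.sum_le_sum fun j _ => (Polynomial.natDegree_pow_le).trans
    (Nat.mul_le_mul_left _ (h1 j))) ?_
  simp only [mul_one]
  exact (MvPolynomial.le_totalDegree hd).trans hn

end

section

variable {σ K N : Type} [Finite σ] [Field K] [Algebra ℂ K] [Field N] [Algebra ℂ N] {m : ℤ}

open Classical in
/-- **All the points on a line.** Let `K` be the function field of the hypersurface `h = 0`, of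
degree `n`. The sum of the `n` points on an `N`-line is constant. -/
theorem line_sum (x : σ → K) (hx : IntermediateField.adjoin ℂ (Set.range x) = ⊤)
    (h : MvPolynomial σ ℂ) {n : ℕ} (hn : h.totalDegree ≤ n)
    (hh : ∀ f : MvPolynomial σ ℂ, MvPolynomial.aeval x f = 0 ↔ h ∣ f)
    (P Q : σ → N) (hdeg : (lineP h P Q).natDegree = n) (t : Fin n → N)
    (ht : Function.Injective t) (φ : Fin n → (K →ₐ[ℂ] N))
    (hφ : ∀ i j, φ i (x j) = P j + t i * Q j) :
    ∑ i, Finsupp.single (φ i) (1 : ℤ) ∈ Rel m K N := by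
  intro S f _ Ch _ _ _ j hj ι R hR _
  let g : MvPolynomial (σ ⊕ σ) ℂ →ₐ[ℂ] N := MvPolynomial.aeval (Sum.elim P Q)
  let a : σ ⊕ σ → Loc g := fun s => algebraMap (MvPolynomial (σ ⊕ σ) ℂ) (Loc g) (MvPolynomial.X s)
  have ha : ∀ s, toN g (a s) = Sum.elim P Q s := by
    intro s
    rw [toN_algebraMap]
    exact MvPolynomial.aeval_X _ _
  let F₀ : (Loc g)[X] := lineP h (fun s => a (Sum.inl s)) (fun s => a (Sum.inr s))
  have hF₀map : F₀.map (toN g).toRingHom = lineP h P Q := by
    rw [lineP_map]
    congr 1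
    · funext s
      exact ha _
    · funext s
      exact ha _
  have hF₀deg : F₀.natDegree ≤ n := natDegree_lineP_le h _ _ hn
  have hN : ∀ i, (lineP h P Q).eval (t i) = 0 := by
    intro i
    have h1 := lineP_eval₂ h P Q (AlgHom.id ℂ N) (t i)
    have h2 : (lineP h P Q).eval₂ (AlgHom.id ℂ N).toRingHom (t i) = (lineP h P Q).eval (t i) := rfl
    rw [h2] at h1
    rw [h1]
    have h3 : (fun s => (AlgHom.id ℂ N) (P s) + t i * (AlgHom.id ℂ N) (Q s)) =
        fun s => φ i (x s) := by
      funext s
      exact (hφ i s).symm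
    rw [h3]
    have h6 : MvPolynomial.aeval x h = 0 := (hh h).2 dvd_rfl
    rw [← MvPolynomial.comp_aeval_apply, h6, map_zero]
  by_cases hl : lineP h P Q = 0
  · have hn0 : n = 0 := by
      rw [← hdeg, hl, Polynomial.natDegree_zero]
    subst hn0
    rw [Finset.univ_eq_empty, Finset.sum_empty, Finsupp.mapDomain_zero]
    exact AddSubgroup.zero_mem _
  have hlc : (toN g) (F₀.coeff n) = (lineP h P Q).leadingCoeff := by
    have h1 := congrArg (fun p => p.coeff n) hF₀map
    simp only [Polynomial.coeff_map] at h1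
    rw [Polynomial.leadingCoeff, hdeg]
    exact h1
  have hlc0 : (toN g) (F₀.coeff n) ≠ 0 := by
    rw [hlc]
    exact Polynomial.leadingCoeff_ne_zero.2 hl
  obtain ⟨e, he⟩ := isUnit_loc hlc0
  let F : (Loc g)[X] := C ((e⁻¹ : (Loc g)ˣ) : Loc g) * F₀
  have hFm : F.Monic := by
    apply Polynomial.monic_of_natDegree_le_of_coeff_eq_one n
    · refine (Polynomial.natDegree_C_mul_le _ _).trans hF₀deg
    · rw [Polynomial.coeff_C_mul, ← he, Units.inv_mul]
  have hFF₀ : F₀ = C (F₀.coeff n) * F := by
    change F₀ = C (F₀.coeff n) * (C ((e⁻¹ : (Loc g)ˣ) : Loc g) * F₀)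
    rw [← mul_assoc, ← C_mul, ← he, Units.mul_inv, C_1, one_mul]
  have hFn : F.natDegree = n := by
    have h1 := congrArg (Polynomial.map (toN g).toRingHom) hFF₀
    rw [hF₀map, Polynomial.map_mul, Polynomial.map_C] at h1
    have h2 : (F.map (toN g).toRingHom).natDegree = n := by
      rw [← hdeg, h1]
      exact (Polynomial.natDegree_C_mul
        (a := (toN g).toRingHom (F₀.coeff n)) hlc0).symm
    rw [hFm.natDegree_map] at h2
    exact h2
  have hprod : F.map (toN g).toRingHom = ∏ i, (X - Polynomial.C (t i)) := by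
    have hmon : (F.map (toN g).toRingHom).Monic := hFm.map _
    have hdvd : (∏ i, (X - Polynomial.C (t i))) ∣ F.map (toN g).toRingHom := by
      apply Finset.prod_dvd_of_coprime
      · intro i _ i' _ hne
        exact Polynomial.pairwise_coprime_X_sub_C ht hne
      · intro i _
        rw [Polynomial.dvd_iff_isRoot, Polynomial.IsRoot]
        have h1 := congrArg (Polynomial.map (toN g).toRingHom) hFF₀
        rw [hF₀map, Polynomial.map_mul, Polynomial.map_C] at h1
        have h2 := hN i
        rw [h1, Polynomial.eval_mul, Polynomial.eval_C] at h2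
        exact (mul_eq_zero.1 h2).resolve_left hlc0
    refine Polynomial.eq_of_monic_of_dvd_of_natDegree_le
      (Polynomial.monic_prod_of_monic _ _ fun i _ => Polynomial.monic_X_sub_C _) hmon hdvd ?_
    rw [hFm.natDegree_map, hFn, Polynomial.natDegree_prod_of_monic _ _
      (fun i _ => Polynomial.monic_X_sub_C _)]
    simp
  -- evaluation maps
  have hroot : ∀ i, F.eval₂ (toN g).toRingHom (t i) = 0 := by
    intro i
    rw [← Polynomial.eval_map, hprod, Polynomial.eval_prod]
    apply Finset.prod_eq_zero (Finset.mem_univ i)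
    simp
  let ev : Fin n → (AdjoinRoot F →ₐ[ℂ] N) := fun i =>
    AdjoinRoot.liftAlgHom F (toN g) (t i) (hroot i)
  have hevmk : ∀ i G, ev i (AdjoinRoot.mk F G) = G.eval₂ (toN g).toRingHom (t i) := fun i G =>
    AdjoinRoot.liftAlgHom_mk _ _ _ _ _
  -- the generic point of the line
  let y : σ → AdjoinRoot F := fun s =>
    AdjoinRoot.mk F (C (a (Sum.inl s)) + X * C (a (Sum.inr s)))
  have hy : ∀ q : MvPolynomial σ ℂ, MvPolynomial.aeval y q =
      AdjoinRoot.mk F (lineP q (fun s => a (Sum.inl s)) (fun s => a (Sum.inr s))) := by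
    intro q
    let mk' : (Loc g)[X] →ₐ[ℂ] AdjoinRoot F :=
      { AdjoinRoot.mk F with commutes' := fun _ => rfl }
    have h1 : (AdjoinRoot.mk F (lineP q (fun s => a (Sum.inl s)) (fun s => a (Sum.inr s)))) =
        mk' (lineP q (fun s => a (Sum.inl s)) (fun s => a (Sum.inr s))) := rfl
    rw [h1]
    unfold lineP
    rw [MvPolynomial.comp_aeval_apply]
    rfl
  have hyev : ∀ i (q : MvPolynomial σ ℂ), ev i (MvPolynomial.aeval y q) =
      φ i (MvPolynomial.aeval x q) := by
    intro i q
    rw [hy, hevmk, lineP_eval₂, MvPolynomial.comp_aeval_apply]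
    congr 2
    funext s
    change toN g (a (Sum.inl s)) + t i * toN g (a (Sum.inr s)) = φ i (x s)
    rw [ha, ha, hφ]
    rfl
  obtain ⟨θ, hθ⟩ := exists_point x hx y (by
    intro q hq
    obtain ⟨q', rfl⟩ := (hh q).1 hq
    rw [map_mul, hy h]
    change AdjoinRoot.mk F F₀ * _ = 0
    rw [hFF₀, map_mul, AdjoinRoot.mk_self, mul_zero, zero_mul]) (by
    intro q hq
    rw [hy]
    refine isUnit_adjoinRoot hFm t hprod _ fun i => ?_
    rw [← hevmk, ← hy, hyev]
    intro h0
    exact hq ((φ i).toRingHom.injective (by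
      rw [map_zero]
      exact h0)))
  have hcomp : ∀ i, (ev i).comp (θ.comp ι) = (φ i).comp ι := by
    intro i
    have h1 : (ev i).comp θ = φ i := by
      apply AlgHom.ext
      intro z
      have hz : z ∈ IntermediateField.adjoin ℂ (Set.range x) := by
        rw [hx]
        trivial
      rw [IntermediateField.mem_adjoin_range_iff] at hz
      obtain ⟨b, c, hbc⟩ := hz
      have hθq : ∀ q : MvPolynomial σ ℂ, ((ev i).comp θ) (MvPolynomial.aeval x q) =
          φ i (MvPolynomial.aeval x q) := by
        intro q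
        have h2 : θ (MvPolynomial.aeval x q) = MvPolynomial.aeval y q := by
          rw [MvPolynomial.comp_aeval_apply]
          congr 2
          funext s
          exact hθ s
        change ev i (θ _) = _
        rw [h2, hyev]
      by_cases hc : MvPolynomial.aeval x c = 0
      · rw [hbc, hc, div_zero, map_zero, map_zero]
      · have h3 : z * MvPolynomial.aeval x c = MvPolynomial.aeval x b := by
          rw [hbc, div_mul_cancel₀ _ hc]
        have h4 := congrArg ((ev i).comp θ) h3
        have h5 := congrArg (φ i) h3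
        rw [map_mul, hθq, hθq] at h4
        rw [map_mul] at h5
        have h6 : φ i (MvPolynomial.aeval x c) ≠ 0 := by
          intro h0
          exact hc ((φ i).toRingHom.injective (by
            rw [map_zero]
            exact h0))
        exact mul_right_cancel₀ h6 (h4.trans h5.symm)
    rw [← h1]
    rfl
  have hfin := good_roots (f := f) (j := j) (hj := hj) F hFm t ht hprod (θ.comp ι) ev
    (by
      intro i r
      rw [← AdjoinRoot.mk_C, hevmk, eval₂_C]
      rfl) (by
      intro i
      rw [← AdjoinRoot.mk_X, hevmk, eval₂_X])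
  simp only [hcomp] at hfin
  rw [Finsupp.mapDomain_finsetSum]
  simp only [Finsupp.mapDomain_single]
  exact Good.mono hR hfin

end

end Vale.Agent.P297.H777
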