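import Mathlib

/-!
The discriminant of a family of elliptic curves over the line: one condition that implies both
non-degeneracy conditions.
-/

open Polynomial

namespace Vale.Agent.P297.H777

/-- The discriminant `4 p³ + 27 q²` is not a constant multiple (possibly zero) of the twelfth power
of a polynomial of degree at most one. -/
def NDisc (p q : ℂ[X]) : Prop :=
  ∀ c a b : ℂ, 4 * p ^ 3 + 27 * q ^ 2 ≠ C c * (C a * X + C b) ^ 12

theorem NDisc.disc {p q : ℂ[X]} (h : NDisc p q) : 4 * p ^ 3 + 27 * q ^ 2 ≠ 0 := by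
  have h1 := h 0 0 0
  rwa [C_0, zero_mul] at h1

theorem NDisc.nt {p q : ℂ[X]} (h : NDisc p q) (α β a b : ℂ) :
    ¬ (p = C α * (C a * X + C b) ^ 4 ∧ q = C β * (C a * X + C b) ^ 6) := by
  rintro ⟨hp, hq⟩
  refine h (4 * α ^ 3 + 27 * β ^ 2) a b ?_
  rw [hp, hq]
  simp only [map_add, map_mul, map_pow, map_ofNat]
  ring

/-- A sufficient condition: the discriminant is not zero, and it has two different roots. -/
theorem ndisc_of_roots {p q : ℂ[X]} {x y : ℂ} (h0 : 4 * p ^ 3 + 27 * q ^ 2 ≠ 0)
    (hx : (4 * p ^ 3 + 27 * q ^ 2).eval x = 0) (hy : (4 * p ^ 3 + 27 * q ^ 2).eval y = 0)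
    (hxy : x ≠ y) : NDisc p q := by
  intro c a b hcon
  have h1 : c * (a * x + b) ^ 12 = 0 := by
    rw [hcon] at hx
    simpa using hx
  have h2 : c * (a * y + b) ^ 12 = 0 := by
    rw [hcon] at hy
    simpa using hy
  have hc : c ≠ 0 := by
    rintro rfl
    rw [C_0, zero_mul] at hcon
    exact h0 hcon
  have h3 : a * x + b = 0 := by
    rcases mul_eq_zero.1 h1 with h | h
    · exact absurd h hc
    · exact pow_eq_zero_iff (by norm_num) |>.1 h
  have h4 : a * y + b = 0 := by
    rcases mul_eq_zero.1 h2 with h | h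
    · exact absurd h hc
    · exact pow_eq_zero_iff (by norm_num) |>.1 h
  have h5 : a * (x - y) = 0 := by linear_combination h3 - h4
  have ha : a = 0 := (mul_eq_zero.1 h5).resolve_right (sub_ne_zero.2 hxy)
  have hb : b = 0 := by rw [ha] at h3; simpa using h3
  rw [ha, hb] at hcon
  simp at hcon
  exact h0 hcon

/-- A sufficient condition in terms of values: the discriminant `Δ` is not a twelfth power up to a
constant as soon as it violates the obvious differential relation:
`12 Δ Δ'' ≠ 11 Δ'²` at some point. -/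
theorem ndisc_of_deriv {p q : ℂ[X]} {x : ℂ}
    (h : 12 * (4 * p ^ 3 + 27 * q ^ 2).eval x *
      (derivative (derivative (4 * p ^ 3 + 27 * q ^ 2))).eval x ≠
      11 * ((derivative (4 * p ^ 3 + 27 * q ^ 2)).eval x) ^ 2) : NDisc p q := by
  intro c a b hcon
  apply h
  rw [hcon]
  simp only [derivative_mul, derivative_C, zero_mul, zero_add, derivative_pow, derivative_add,
    derivative_X, mul_one, add_zero, Nat.cast_ofNat, eval_mul, eval_C, eval_pow, eval_add, eval_X,
    derivative_ofNat, eval_ofNat, eval_zero, map_ofNat]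
  norm_num
  ring

end Vale.Agent.P297.H777
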