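import Vale.Agent.P297.H777.Gen

/-!
The octic `St(Q(o)) = 0` of a web of quadrics, its generic points and the points on a line.
-/

set_option linter.unusedSectionVars false
set_option linter.style.haveILetI false
set_option linter.unusedSimpArgs false

open CategoryTheory AlgebraicGeometry IntermediateField Polynomial

namespace Vale.Agent.P297.C8

open Vale.Agent.P297 Vale.Agent.P297.H729 Vale.Agent.P297.H516 Vale.Agent.P297.H839
open Vale.Agent.P297.H72 Vale.Agent.P297.H777

/-- Four square matrices of size four. -/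
abbrev Web := Fin 4 → Matrix (Fin 4) (Fin 4) ℂ

section defs

variable {R A : Type} [CommRing R] [Algebra ℂ R] [CommRing A] [Algebra ℂ A]

/-- The bilinear map of a web. -/
noncomputable def qb (Q : Web) (o o' : Fin 4 → R) : Fin 4 → R :=
  fun i => ∑ a, ∑ b, algebraMap ℂ R (Q i a b) * (o a * o' b)

/-- The quadratic map of a web. -/
noncomputable def qq (Q : Web) (o : Fin 4 → R) : Fin 4 → R := qb Q o o

/-- The bilinear map of the Steiner surface. -/
def eb (v v' : Fin 3 → R) : Fin 4 → R :=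
  ![v 0 * v' 0 + v 1 * v' 1 + v 2 * v' 2, v 1 * v' 2 + v 2 * v' 1, v 0 * v' 2 + v 2 * v' 0,
    v 0 * v' 1 + v 1 * v' 0]

/-- The quadratic map of the Steiner surface. -/
def ee (v : Fin 3 → R) : Fin 4 → R := eb v v

/-- The equation of the Steiner surface. -/
def st (y : Fin 4 → R) : R :=
  y 2 ^ 2 * y 3 ^ 2 + y 1 ^ 2 * y 3 ^ 2 + y 1 ^ 2 * y 2 ^ 2 - 2 * (y 0 * y 1 * y 2 * y 3)

/-- The inverse of the parametrisation of the Steiner surface. -/
def vy (y : Fin 4 → R) : Fin 3 → R := ![y 2 * y 3, y 1 * y 3, y 1 * y 2]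

@[simp] theorem qb_apply (Q : Web) (o o' : Fin 4 → R) (i : Fin 4) :
    qb Q o o' i = ∑ a, ∑ b, algebraMap ℂ R (Q i a b) * (o a * o' b) := rfl

theorem qq_apply (Q : Web) (o : Fin 4 → R) (i : Fin 4) :
    qq Q o i = ∑ a, ∑ b, algebraMap ℂ R (Q i a b) * (o a * o b) := rfl

@[simp] theorem ee_zero (v : Fin 3 → R) : ee v 0 = v 0 ^ 2 + v 1 ^ 2 + v 2 ^ 2 := by
  simp [ee, eb]; ring

@[simp] theorem ee_one (v : Fin 3 → R) : ee v 1 = 2 * (v 1 * v 2) := by
  simp [ee, eb]; ring

@[simp] theorem ee_two (v : Fin 3 → R) : ee v 2 = 2 * (v 0 * v 2) := by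
  simp [ee, eb]; ring

@[simp] theorem ee_three (v : Fin 3 → R) : ee v 3 = 2 * (v 0 * v 1) := by
  simp [ee, eb]; ring

@[simp] theorem vy_zero (y : Fin 4 → R) : vy y 0 = y 2 * y 3 := rfl
@[simp] theorem vy_one (y : Fin 4 → R) : vy y 1 = y 1 * y 3 := rfl
@[simp] theorem vy_two (y : Fin 4 → R) : vy y 2 = y 1 * y 2 := rfl

theorem st_ee (v : Fin 3 → R) : st (ee v) = 0 := by
  simp only [st, ee_zero, ee_one, ee_two, ee_three]
  ring

theorem ee_vy {y : Fin 4 → R} (hy : st y = 0) : ee (vy y) = (2 * (y 1 * y 2 * y 3)) • y := by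
  simp only [st] at hy
  funext i
  fin_cases i
  · simp only [Fin.zero_eta, ee_zero, vy_zero, vy_one, vy_two, Pi.smul_apply, smul_eq_mul]
    linear_combination hy
  · simp only [Fin.mk_one, ee_one, vy_zero, vy_one, vy_two, Pi.smul_apply, smul_eq_mul]
    ring
  · simp only [Fin.reduceFinMk, ee_two, vy_zero, vy_one, vy_two, Pi.smul_apply, smul_eq_mul]
    ring
  · simp only [Fin.reduceFinMk, ee_three, vy_zero, vy_one, vy_two, Pi.smul_apply, smul_eq_mul]
    ring

theorem vy_ee (v : Fin 3 → R) : vy (ee v) = (4 * (v 0 * v 1 * v 2)) • v := by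
  funext i
  fin_cases i
  · simp only [Fin.zero_eta, ee_one, ee_two, ee_three, vy_zero, vy_one, vy_two, Pi.smul_apply,
      smul_eq_mul]
    ring
  · simp only [Fin.mk_one, ee_one, ee_two, ee_three, vy_zero, vy_one, vy_two, Pi.smul_apply,
      smul_eq_mul]
    ring
  · simp only [Fin.reduceFinMk, ee_one, ee_two, ee_three, vy_zero, vy_one, vy_two, Pi.smul_apply,
      smul_eq_mul]
    ring

theorem st_smul (c : R) (y : Fin 4 → R) : st (c • y) = c ^ 4 * st y := by
  simp only [st, Pi.smul_apply, smul_eq_mul]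
  ring

theorem vy_smul (c : R) (y : Fin 4 → R) : vy (c • y) = c ^ 2 • vy y := by
  funext i
  fin_cases i <;>
  · simp [vy]
    ring

theorem ee_smul (c : R) (v : Fin 3 → R) : ee (c • v) = c ^ 2 • ee v := by
  funext i
  fin_cases i <;>
  · simp [ee, eb]
    ring

theorem qb_smul_left (Q : Web) (c : R) (o o' : Fin 4 → R) : qb Q (c • o) o' = c • qb Q o o' := by
  funext i
  simp only [qb_apply, Pi.smul_apply, smul_eq_mul, Finset.mul_sum]
  exact Finset.sum_congr rfl fun a _ => Finset.sum_congr rfl fun b _ => by ring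

theorem qb_smul_right (Q : Web) (c : R) (o o' : Fin 4 → R) : qb Q o (c • o') = c • qb Q o o' := by
  funext i
  simp only [qb_apply, Pi.smul_apply, smul_eq_mul, Finset.mul_sum]
  exact Finset.sum_congr rfl fun a _ => Finset.sum_congr rfl fun b _ => by ring

theorem qb_add_left (Q : Web) (o p o' : Fin 4 → R) :
    qb Q (o + p) o' = qb Q o o' + qb Q p o' := by
  funext i
  simp only [qb_apply, Pi.add_apply, ← Finset.sum_add_distrib]
  exact Finset.sum_congr rfl fun a _ => Finset.sum_congr rfl fun b _ => by ring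

theorem qb_add_right (Q : Web) (o o' p : Fin 4 → R) :
    qb Q o (o' + p) = qb Q o o' + qb Q o p := by
  funext i
  simp only [qb_apply, Pi.add_apply, ← Finset.sum_add_distrib]
  exact Finset.sum_congr rfl fun a _ => Finset.sum_congr rfl fun b _ => by ring

theorem qb_comm {Q : Web} (hQ : ∀ i, (Q i).IsSymm) (o o' : Fin 4 → R) :
    qb Q o o' = qb Q o' o := by
  funext i
  rw [qb_apply, qb_apply, Finset.sum_comm]
  refine Finset.sum_congr rfl fun a _ => Finset.sum_congr rfl fun b _ => ?_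
  rw [(hQ i).apply a b]
  ring

theorem qq_smul (Q : Web) (c : R) (o : Fin 4 → R) : qq Q (c • o) = c ^ 2 • qq Q o := by
  rw [qq, qb_smul_left, qb_smul_right, smul_smul, ← sq]
  rfl

theorem qq_add {Q : Web} (hQ : ∀ i, (Q i).IsSymm) (o o' : Fin 4 → R) :
    qq Q (o + o') = qq Q o + (2 : R) • qb Q o o' + qq Q o' := by
  rw [qq, qb_add_left, qb_add_right, qb_add_right, qb_comm hQ o' o]
  funext i
  simp only [qq, Pi.add_apply, Pi.smul_apply, smul_eq_mul]
  ring

theorem map_qb (Q : Web) (g : R →ₐ[ℂ] A) (o o' : Fin 4 → R) (i : Fin 4) :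
    g (qb Q o o' i) = qb Q (fun j => g (o j)) (fun j => g (o' j)) i := by
  simp only [qb_apply, map_sum, map_mul, AlgHom.commutes]

theorem map_qq (Q : Web) (g : R →ₐ[ℂ] A) (o : Fin 4 → R) (i : Fin 4) :
    g (qq Q o i) = qq Q (fun j => g (o j)) i := map_qb Q g o o i

theorem map_qq' (Q : Web) (g : R →ₐ[ℂ] A) (o : Fin 4 → R) :
    (fun i => g (qq Q o i)) = qq Q (fun j => g (o j)) := funext fun i => map_qq Q g o i

theorem map_st (g : R →ₐ[ℂ] A) (y : Fin 4 → R) : g (st y) = st (fun j => g (y j)) := by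
  simp only [st, map_sub, map_add, map_mul, map_pow, map_ofNat]

theorem map_st_qq (Q : Web) (g : R →ₐ[ℂ] A) (o : Fin 4 → R) :
    g (st (qq Q o)) = st (qq Q (fun j => g (o j))) := by
  rw [map_st, map_qq']

theorem map_eb (g : R →ₐ[ℂ] A) (v v' : Fin 3 → R) (i : Fin 4) :
    g (eb v v' i) = eb (fun j => g (v j)) (fun j => g (v' j)) i := by
  fin_cases i <;> simp [eb]

theorem map_ee (g : R →ₐ[ℂ] A) (v : Fin 3 → R) (i : Fin 4) :
    g (ee v i) = ee (fun j => g (v j)) i := map_eb g v v i

theorem map_vy (g : R →ₐ[ℂ] A) (y : Fin 4 → R) (i : Fin 3) :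
    g (vy y i) = vy (fun j => g (y j)) i := by
  fin_cases i <;> simp [vy]

end defs

section octic

/-- The octic of a web. -/
noncomputable def octic (Q : Web) : MvPolynomial (Fin 4) ℂ := st (qq Q MvPolynomial.X)

theorem aeval_octic {R : Type} [CommRing R] [Algebra ℂ R] (Q : Web) (o : Fin 4 → R) :
    MvPolynomial.aeval o (octic Q) = st (qq Q o) := by
  rw [octic, map_st_qq]
  simp only [MvPolynomial.aeval_X]

theorem qq_X_homogeneous (Q : Web) (i : Fin 4) :
    (qq Q (MvPolynomial.X : Fin 4 → MvPolynomial (Fin 4) ℂ) i).IsHomogeneous 2 := by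
  rw [qq_apply]
  refine MvPolynomial.IsHomogeneous.sum _ _ _ fun a _ =>
    MvPolynomial.IsHomogeneous.sum _ _ _ fun b _ => ?_
  have h := (MvPolynomial.isHomogeneous_C (Fin 4) (Q i a b)).mul
    ((MvPolynomial.isHomogeneous_X ℂ a).mul (MvPolynomial.isHomogeneous_X ℂ b))
  exact h

theorem octic_homogeneous (Q : Web) : (octic Q).IsHomogeneous 8 := by
  have h := qq_X_homogeneous Q
  unfold octic st
  refine ((MvPolynomial.IsHomogeneous.add ?_ ?_).add ?_).sub ?_
  · exact ((h 2).pow 2).mul ((h 3).pow 2)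
  · exact ((h 1).pow 2).mul ((h 3).pow 2)
  · exact ((h 1).pow 2).mul ((h 2).pow 2)
  · have h1 := (MvPolynomial.isHomogeneous_C (Fin 4) (2 : ℂ)).mul
      ((((h 0).mul (h 1)).mul (h 2)).mul (h 3))
    exact h1

end octic

section structures

/-- `x` is a system of affine coordinates of the function field of the octic surface of `Q`. -/
structure IsFF {K : Type} [Field K] [Algebra ℂ K] (Q : Web) (x : Fin 4 → K) : Prop where
  one : x 0 = 1
  top : IntermediateField.adjoin ℂ (Set.range x) = ⊤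
  zero : st (qq Q x) = 0
  trdeg : Algebra.trdeg ℂ K = 2
  irr : Irreducible (octic Q)

/-- `o` is (the vector of homogeneous coordinates of) a generic point of the octic of `Q`. -/
structure GenW {N : Type} [Field N] [Algebra ℂ N] (Q : Web) (o : Fin 4 → N) : Prop where
  zero : st (qq Q o) = 0
  ne : o 0 ≠ 0
  ind : ∃ i j, AlgebraicIndependent ℂ ![o i / o 0, o j / o 0]

open Classical in
/-- The point of the function field with coordinates `o`. -/
noncomputable def pt {K N : Type} [Field K] [Algebra ℂ K] [Field N] [Algebra ℂ N]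
    (x : Fin 4 → K) (o : Fin 4 → N) : (K →ₐ[ℂ] N) →₀ ℤ :=
  if h : ∃ φ : K →ₐ[ℂ] N, ∀ j, φ (x j) = o j / o 0 then Finsupp.single h.choose 1 else 0

end structures

section simple

variable {N N' : Type} [Field N] [Algebra ℂ N] [Field N'] [Algebra ℂ N'] {Q : Web}

theorem GenW.smul {o : Fin 4 → N} (h : GenW Q o) {c : N} (hc : c ≠ 0) : GenW Q (c • o) where
  zero := by rw [qq_smul, st_smul, h.zero, mul_zero]
  ne := mul_ne_zero hc h.ne
  ind := by
    obtain ⟨i, j, hij⟩ := h.ind
    refine ⟨i, j, ?_⟩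
    have h1 : ∀ k, (c • o) k / (c • o) 0 = o k / o 0 := fun k => by
      simp only [Pi.smul_apply, smul_eq_mul]
      rw [mul_div_mul_left _ _ hc]
    rw [h1, h1]
    exact hij

theorem GenW.of_smul {o : Fin 4 → N} {c : N} (hc : c ≠ 0) (h : GenW Q (c • o)) : GenW Q o := by
  have h1 := h.smul (inv_ne_zero hc)
  rwa [smul_smul, inv_mul_cancel₀ hc, one_smul] at h1

theorem GenW.map {o : Fin 4 → N} (h : GenW Q o) (σ : N →ₐ[ℂ] N') :
    GenW Q (fun j => σ (o j)) where
  zero := by rw [← map_st_qq, h.zero, map_zero]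
  ne := by
    intro h0
    exact h.ne (σ.toRingHom.injective (by
      rw [map_zero]
      exact h0))
  ind := by
    obtain ⟨i, j, hij⟩ := h.ind
    refine ⟨i, j, ?_⟩
    have h1 := hij.map' (f := σ) σ.toRingHom.injective
    have h2 : (σ ∘ ![o i / o 0, o j / o 0]) = ![σ (o i) / σ (o 0), σ (o j) / σ (o 0)] := by
      funext k
      fin_cases k
      · exact map_div₀ σ _ _
      · exact map_div₀ σ _ _
    rwa [h2] at h1

end simple

section ff

variable {K N N' : Type} [Field K] [Algebra ℂ K] [Field N] [Algebra ℂ N] [Field N'] [Algebra ℂ N']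
  {Q : Web} {x : Fin 4 → K}

theorem IsFF.ind (hx : IsFF Q x) : ∃ i j, AlgebraicIndependent ℂ ![x i, x j] := by
  obtain ⟨t, ht⟩ := exists_isTranscendenceBasis' ℂ (A := K)
  obtain ⟨u, hu⟩ := ht
  have h1 : Cardinal.mk (Fin 2) = Cardinal.mk t := by
    rw [hu.cardinalMk_eq_trdeg, hx.trdeg, Cardinal.mk_fin]
    rfl
  obtain ⟨e⟩ := Cardinal.eq.1 h1
  obtain ⟨s, hs⟩ := exists_indep x (fun i => u (e i)) (hu.1.comp e e.injective) (by
    intro i
    rw [hx.top]
    trivial)
  refine ⟨s 0, s 1, ?_⟩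
  convert hs using 1
  funext i
  fin_cases i <;> rfl

/-- Only multiples of the octic vanish at the generic point. -/
theorem IsFF.dvd (hx : IsFF Q x) {f : MvPolynomial (Fin 4) ℂ} {d : ℕ} (hf : f.IsHomogeneous d)
    (h0 : MvPolynomial.aeval x f = 0) : octic Q ∣ f := by
  obtain ⟨i, j, hij⟩ := hx.ind
  let y : Fin 4 → K[X] := fun k => X * C (x k)
  have hy : ∀ {e : ℕ} {g : MvPolynomial (Fin 4) ℂ}, g.IsHomogeneous e →
      MvPolynomial.aeval x g = 0 → MvPolynomial.aeval y g = 0 := by
    intro e g hg h1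
    rw [aeval_smul_homog hg]
    have h2 : MvPolynomial.aeval (fun k => C (x k) : Fin 4 → K[X]) g =
        (IsScalarTower.toAlgHom ℂ K K[X]) (MvPolynomial.aeval x g) := by
      rw [MvPolynomial.comp_aeval_apply]
      rfl
    rw [h2, h1, map_zero, mul_zero]
  refine (dvd_of_generic (octic Q) hx.irr y (hy (octic_homogeneous Q) ?_) ![0, i, j] ?_ f).1
    (hy hf h0)
  · rw [aeval_octic, hx.zero]
  · convert indep_cone hij using 1
    funext k
    fin_cases k
    · change X * C (x 0) = X
      rw [hx.one, C_1, mul_one]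
    · change X * C (x i) = C (x i) * X
      rw [mul_comm]
    · change X * C (x j) = C (x j) * X
      rw [mul_comm]

/-- Forms of degree less than eight do not vanish at the generic point. -/
theorem IsFF.aeval_ne_zero (hx : IsFF Q x) {f : MvPolynomial (Fin 4) ℂ} {d : ℕ}
    (hf : f.IsHomogeneous d) (hd : d < 8) (h : f ≠ 0) : MvPolynomial.aeval x f ≠ 0 := by
  intro h0
  obtain ⟨g, hg⟩ := hx.dvd hf h0
  have hgne : g ≠ 0 := by
    rintro rfl
    exact h (by rw [hg, mul_zero])
  have h1 : f.totalDegree = (octic Q).totalDegree + g.totalDegree := by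
    rw [hg, MvPolynomial.totalDegree_mul_of_isDomain hx.irr.ne_zero hgne]
  rw [hf.totalDegree h, (octic_homogeneous Q).totalDegree hx.irr.ne_zero] at h1
  omega

/-- Polynomials vanishing at the generic point vanish at every point of the octic with first
coordinate one. -/
theorem IsFF.aeval_eq_zero (hx : IsFF Q x) {f : MvPolynomial (Fin 4) ℂ}
    (h0 : MvPolynomial.aeval x f = 0) {B : Type} [CommRing B] [Algebra ℂ B] {y : Fin 4 → B}
    (h1 : y 0 = 1) (hy : st (qq Q y) = 0) : MvPolynomial.aeval y f = 0 := by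
  let d := f.totalDegree
  let g : MvPolynomial (Fin 4) ℂ := ∑ k ∈ Finset.range (d + 1),
    MvPolynomial.X 0 ^ (d - k) * MvPolynomial.homogeneousComponent k f
  have hg : g.IsHomogeneous d := by
    refine MvPolynomial.IsHomogeneous.sum _ _ _ fun k hk => ?_
    have h2 := (MvPolynomial.isHomogeneous_X_pow (R := ℂ) (0 : Fin 4) (d - k)).mul
      (MvPolynomial.homogeneousComponent_isHomogeneous k f)
    have h3 : d - k + k = d := Nat.sub_add_cancel (Nat.lt_succ_iff.1 (Finset.mem_range.1 hk))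
    rwa [h3] at h2
  have hgf : ∀ {B : Type} [CommRing B] [Algebra ℂ B] {z : Fin 4 → B}, z 0 = 1 →
      MvPolynomial.aeval z g = MvPolynomial.aeval z f := by
    intro B _ _ z hz
    conv_rhs => rw [← MvPolynomial.sum_homogeneousComponent f]
    rw [map_sum, map_sum]
    refine Finset.sum_congr rfl fun k _ => ?_
    rw [map_mul, map_pow, MvPolynomial.aeval_X, hz, one_pow, one_mul]
  obtain ⟨q, hq⟩ := hx.dvd hg (by rw [hgf hx.one, h0])
  rw [← hgf h1, hq, map_mul, aeval_octic, hy, zero_mul]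

/-- Generic points are embeddings of the function field. -/
theorem GenW.exists_phi (hx : IsFF Q x) {o : Fin 4 → N} (ho : GenW Q o) :
    ∃ φ : K →ₐ[ℂ] N, ∀ j, φ (x j) = o j / o 0 := by
  obtain ⟨i, j, hij⟩ := ho.ind
  have h1 : (fun j => o j / o 0) = (o 0)⁻¹ • o := by
    funext k
    simp only [Pi.smul_apply, smul_eq_mul]
    rw [div_eq_inv_mul]
  refine exists_emb x hx.top (n := 2) hx.trdeg (fun j => o j / o 0) (fun f hf => ?_)
    ![MvPolynomial.X i, MvPolynomial.X j] ?_
  · refine hx.aeval_eq_zero hf (div_self ho.ne) ?_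
    rw [h1, qq_smul, st_smul, ho.zero, mul_zero]
  · convert hij using 1
    funext k
    fin_cases k
    · exact MvPolynomial.aeval_X _ _
    · exact MvPolynomial.aeval_X _ _

theorem GenW.of_phi (hx : IsFF Q x) (φ : K →ₐ[ℂ] N) : GenW Q (fun j => φ (x j)) := by
  refine GenW.map (o := x) ⟨hx.zero, ?_, ?_⟩ φ
  · rw [hx.one]
    exact one_ne_zero
  · obtain ⟨i, j, hij⟩ := hx.ind
    refine ⟨i, j, ?_⟩
    rw [hx.one, div_one, div_one]
    exact hij

theorem GenW.of_trdeg {o : Fin 4 → N} (h0 : st (qq Q o) = 0) (h1 : o 0 ≠ 0) (u : Fin 2 → N)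
    (hu : AlgebraicIndependent ℂ u)
    (hmem : ∀ i, u i ∈ IntermediateField.adjoin ℂ (Set.range fun j => o j / o 0)) :
    GenW Q o where
  zero := h0
  ne := h1
  ind := by
    obtain ⟨s, hs⟩ := exists_indep _ u hu hmem
    refine ⟨s 0, s 1, ?_⟩
    convert hs using 1
    funext i
    fin_cases i <;> rfl

theorem phi_ext (hx : IsFF Q x) {φ ψ : K →ₐ[ℂ] N} (h : ∀ j, φ (x j) = ψ (x j)) : φ = ψ := by
  apply AlgHom.ext
  intro z
  have hz : z ∈ IntermediateField.adjoin ℂ (Set.range x) := by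
    rw [hx.top]
    trivial
  have hp : ∀ q : MvPolynomial (Fin 4) ℂ, φ (MvPolynomial.aeval x q) =
      ψ (MvPolynomial.aeval x q) := by
    intro q
    rw [MvPolynomial.comp_aeval_apply, MvPolynomial.comp_aeval_apply]
    congr 2
    funext s
    exact h s
  rw [IntermediateField.mem_adjoin_range_iff] at hz
  obtain ⟨b, c, hbc⟩ := hz
  rw [hbc, map_div₀, map_div₀, hp, hp]

theorem pt_eq (hx : IsFF Q x) {o : Fin 4 → N} {φ : K →ₐ[ℂ] N} (h : ∀ j, φ (x j) = o j / o 0) :
    pt x o = Finsupp.single φ 1 := by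
  have h1 : ∃ φ : K →ₐ[ℂ] N, ∀ j, φ (x j) = o j / o 0 := ⟨φ, h⟩
  unfold pt
  rw [dif_pos h1]
  congr 1
  exact phi_ext hx fun j => (h1.choose_spec j).trans (h j).symm

theorem pt_phi (hx : IsFF Q x) (φ : K →ₐ[ℂ] N) :
    pt x (fun j => φ (x j)) = Finsupp.single φ 1 := by
  refine pt_eq hx fun j => ?_
  rw [hx.one, map_one, div_one]

open Classical in
theorem pt_congr {o o' : Fin 4 → N} (h : ∀ j, o j / o 0 = o' j / o' 0) : pt x o = pt x o' := by
  have h1 : (fun j => o j / o 0) = (fun j => o' j / o' 0) := funext h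
  exact congrArg (fun w : Fin 4 → N => if h : ∃ φ : K →ₐ[ℂ] N, ∀ j, φ (x j) = w j then
    Finsupp.single h.choose (1 : ℤ) else 0) h1

theorem pt_smul {o : Fin 4 → N} {c : N} (hc : c ≠ 0) : pt x (c • o) = pt x o :=
  pt_congr fun k => by
    simp only [Pi.smul_apply, smul_eq_mul]
    rw [mul_div_mul_left _ _ hc]

/-- The point in terms of `exists_phi`. -/
theorem GenW.exists_pt (hx : IsFF Q x) {o : Fin 4 → N} (ho : GenW Q o) :
    ∃ φ : K →ₐ[ℂ] N, (∀ j, φ (x j) = o j / o 0) ∧ pt x o = Finsupp.single φ 1 := by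
  obtain ⟨φ, hφ⟩ := ho.exists_phi hx
  exact ⟨φ, hφ, pt_eq hx hφ⟩

/-- Change of the field of values. -/
theorem map_pt (hx : IsFF Q x) {o : Fin 4 → N} (ho : GenW Q o) (σ : N →ₐ[ℂ] N') :
    Finsupp.mapDomain (fun φ : K →ₐ[ℂ] N => σ.comp φ) (pt x o) = pt x (fun j => σ (o j)) := by
  obtain ⟨φ, hφ, hp⟩ := ho.exists_pt hx
  rw [hp, Finsupp.mapDomain_single]
  refine (pt_eq hx fun j => ?_).symm
  change σ (φ (x j)) = _
  rw [hφ, map_div₀]

end ff

section line

theorem octic_lineP {R : Type} [CommRing R] [Algebra ℂ R] (Q : Web) (P D : Fin 4 → R) :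
    lineP (octic Q) P D = st (qq Q (fun j => C (P j) + X * C (D j) : Fin 4 → R[X])) := by
  unfold lineP
  exact aeval_octic Q _

/-- The coefficient of degree `n` of a form of degree `n` on a line. -/
theorem coeff_lineP {σ R : Type} [CommRing R] [Algebra ℂ R] {f : MvPolynomial σ ℂ} {n : ℕ}
    (hf : f.IsHomogeneous n) (P D : σ → R) :
    (lineP f P D).coeff n = MvPolynomial.aeval D f := by
  unfold lineP
  rw [MvPolynomial.aeval_def, MvPolynomial.aeval_def, MvPolynomial.eval₂_eq, MvPolynomial.eval₂_eq,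
    Polynomial.finsetSum_coeff]
  refine Finset.sum_congr rfl fun m hm => ?_
  have h1 : algebraMap ℂ R[X] (MvPolynomial.coeff m f) =
      C (algebraMap ℂ R (MvPolynomial.coeff m f)) := rfl
  rw [h1, Polynomial.coeff_C_mul]
  congr 1
  have h2 : n = ∑ i ∈ m.support, m i := hf.degree_eq_sum_deg_support hm
  rw [h2]
  have h3 : ∀ s : Finset σ, (∏ i ∈ s, (C (P i) + X * C (D i)) ^ m i : R[X]).coeff
      (∑ i ∈ s, m i) = ∏ i ∈ s, D i ^ m i := by
    intro s
    have hle : ∀ i, ((C (P i) + X * C (D i)) ^ m i : R[X]).natDegree ≤ m i := by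
      intro i
      have h4 : (C (P i) + X * C (D i) : R[X]).natDegree ≤ 1 := by
        refine (Polynomial.natDegree_add_le _ _).trans ?_
        rw [Polynomial.natDegree_C]
        refine max_le (by norm_num) ?_
        refine (Polynomial.natDegree_mul_le).trans ?_
        rw [Polynomial.natDegree_C, add_zero]
        exact Polynomial.natDegree_X_le
      refine (Polynomial.natDegree_pow_le).trans ?_
      calc m i * _ ≤ m i * 1 := Nat.mul_le_mul_left _ h4
        _ = m i := mul_one _
    have hc : ∀ i, ((C (P i) + X * C (D i)) ^ m i : R[X]).coeff (m i) = D i ^ m i := by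
      intro i
      have h4 : (C (P i) + X * C (D i) : R[X]).natDegree ≤ 1 := by
        refine (Polynomial.natDegree_add_le _ _).trans ?_
        rw [Polynomial.natDegree_C]
        refine max_le (by norm_num) ?_
        refine (Polynomial.natDegree_mul_le).trans ?_
        rw [Polynomial.natDegree_C, add_zero]
        exact Polynomial.natDegree_X_le
      have h5 := Polynomial.coeff_pow_of_natDegree_le (m := m i) h4
      rw [mul_one] at h5
      rw [h5]
      congr 1
      simp [Polynomial.coeff_C]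
    classical
    induction s using Finset.induction_on with
    | empty => simp
    | insert a s ha ih =>
      have h6 : (∏ i ∈ s, (C (P i) + X * C (D i)) ^ m i : R[X]).natDegree ≤ ∑ i ∈ s, m i :=
        (Polynomial.natDegree_prod_le _ _).trans (Finset.sum_le_sum fun i _ => hle i)
      rw [Finset.prod_insert ha, Finset.sum_insert ha, Finset.prod_insert ha,
        Polynomial.coeff_mul_add_eq_of_natDegree_le (hle a) h6, hc, ih]
  exact h3 _

variable {K N : Type} [Field K] [Algebra ℂ K] [Field N] [Algebra ℂ N] {Q : Web} {x : Fin 4 → K}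
  {m : ℤ}

open Classical in
/-- **All the points on a line.** The sum of the eight points of the octic on an `N`-line is
constant. -/
theorem line8 (hx : IsFF Q x) (P D : Fin 4 → N) (hD : st (qq Q D) ≠ 0) (t : Fin 8 → N)
    (ht : Function.Injective t) (hg : ∀ i, GenW Q (fun j => P j + t i * D j)) :
    ∑ i, pt x (fun j => P j + t i * D j) ∈ Rel m K N := by
  choose φ hφ hpt using fun i => (hg i).exists_pt hx
  simp only [hpt]
  let h := octic Q
  have hh8 : h.IsHomogeneous 8 := octic_homogeneous Q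
  intro S f _ Ch _ _ _ j hj ι R hR _
  let g : MvPolynomial (Fin 4 ⊕ Fin 4) ℂ →ₐ[ℂ] N := MvPolynomial.aeval (Sum.elim P D)
  let a : Fin 4 ⊕ Fin 4 → Loc g := fun s =>
    algebraMap (MvPolynomial (Fin 4 ⊕ Fin 4) ℂ) (Loc g) (MvPolynomial.X s)
  have ha : ∀ s, toN g (a s) = Sum.elim P D s := by
    intro s
    rw [toN_algebraMap]
    exact MvPolynomial.aeval_X _ _
  let F₀ : (Loc g)[X] := lineP h (fun s => a (Sum.inl s)) (fun s => a (Sum.inr s))
  have hF₀map : F₀.map (toN g).toRingHom = lineP h P D := by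
    rw [lineP_map]
    congr 1
    · funext s
      exact ha _
    · funext s
      exact ha _
  have hF₀deg : F₀.natDegree ≤ 8 := natDegree_lineP_le h _ _ hh8.totalDegree_le
  have hcN : (lineP h P D).coeff 8 ≠ 0 := by
    rw [coeff_lineP hh8, aeval_octic]
    exact hD
  have hdeg : (lineP h P D).natDegree = 8 :=
    le_antisymm (natDegree_lineP_le h _ _ hh8.totalDegree_le) (Polynomial.le_natDegree_of_ne_zero hcN)
  have hN : ∀ i, (lineP h P D).eval (t i) = 0 := by
    intro i
    have h1 := lineP_eval₂ h P D (AlgHom.id ℂ N) (t i)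
    have h2 : (lineP h P D).eval₂ (AlgHom.id ℂ N).toRingHom (t i) = (lineP h P D).eval (t i) := rfl
    rw [h2] at h1
    rw [h1]
    have h3 : (fun s => (AlgHom.id ℂ N) (P s) + t i * (AlgHom.id ℂ N) (D s)) =
        fun s => P s + t i * D s := rfl
    rw [h3, aeval_octic]
    exact (hg i).zero
  have hlc0 : (toN g) (F₀.coeff 8) ≠ 0 := by
    have h1 := congrArg (fun p => p.coeff 8) hF₀map
    simp only [Polynomial.coeff_map] at h1
    intro h2
    apply hcN
    rw [← h1]
    exact h2
  obtain ⟨e, he⟩ := isUnit_loc hlc0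
  let F : (Loc g)[X] := C ((e⁻¹ : (Loc g)ˣ) : Loc g) * F₀
  have hFm : F.Monic := by
    apply Polynomial.monic_of_natDegree_le_of_coeff_eq_one 8
    · refine (Polynomial.natDegree_C_mul_le _ _).trans hF₀deg
    · rw [Polynomial.coeff_C_mul, ← he, Units.inv_mul]
  have hFF₀ : F₀ = C (F₀.coeff 8) * F := by
    change F₀ = C (F₀.coeff 8) * (C ((e⁻¹ : (Loc g)ˣ) : Loc g) * F₀)
    rw [← mul_assoc, ← C_mul, ← he, Units.mul_inv, C_1, one_mul]
  have hFn : F.natDegree = 8 := by
    have h1 := congrArg (Polynomial.map (toN g).toRingHom) hFF₀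
    rw [hF₀map, Polynomial.map_mul, Polynomial.map_C] at h1
    have h2 : (F.map (toN g).toRingHom).natDegree = 8 := by
      rw [← hdeg, h1]
      exact (Polynomial.natDegree_C_mul
        (a := (toN g).toRingHom (F₀.coeff 8)) hlc0).symm
    rw [hFm.natDegree_map] at h2
    exact h2
  have hprod : F.map (toN g).toRingHom = ∏ i, (X - Polynomial.C (t i)) := by
    have hmon : (F.map (toN g).toRingHom).Monic := hFm.map _
    have hdvd : (∏ i, (X - Polynomial.C (t i))) ∣ F.map (toN g).toRingHom := by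
      apply Finset.prod_dvd_of_coprime
      · intro i _ i' _ hne
        exact Polynomial.pairwise_coprime_X_sub_C ht hne
      · intro i _
        rw [Polynomial.dvd_iff_isRoot, Polynomial.IsRoot]
        have h1 := congrArg (Polynomial.map (toN g).toRingHom) hFF₀
        rw [hF₀map, Polynomial.map_mul, Polynomial.map_C] at h1
        have h2 := hN i
        rw [h1, Polynomial.eval_mul, Polynomial.eval_C] at h2
        exact (mul_eq_zero.1 h2).resolve_left hlc0
    refine Polynomial.eq_of_monic_of_dvd_of_natDegree_le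
      (Polynomial.monic_prod_of_monic _ _ fun i _ => Polynomial.monic_X_sub_C _) hmon hdvd ?_
    rw [hFm.natDegree_map, hFn, Polynomial.natDegree_prod_of_monic _ _
      (fun i _ => Polynomial.monic_X_sub_C _)]
    simp
  -- evaluation maps
  have hroot : ∀ i, F.eval₂ (toN g).toRingHom (t i) = 0 := by
    intro i
    rw [← Polynomial.eval_map, hprod, Polynomial.eval_prod]
    apply Finset.prod_eq_zero (Finset.mem_univ i)
    simp
  let ev : Fin 8 → (AdjoinRoot F →ₐ[ℂ] N) := fun i =>
    AdjoinRoot.liftAlgHom F (toN g) (t i) (hroot i)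
  have hevmk : ∀ i G, ev i (AdjoinRoot.mk F G) = G.eval₂ (toN g).toRingHom (t i) := fun i G =>
    AdjoinRoot.liftAlgHom_mk _ _ _ _ _
  have hunit : ∀ z : AdjoinRoot F, (∀ i, ev i z ≠ 0) → IsUnit z := by
    intro z hz
    obtain ⟨G, rfl⟩ := AdjoinRoot.mk_surjective z
    refine isUnit_adjoinRoot hFm t hprod _ fun i => ?_
    rw [← hevmk]
    exact hz i
  -- the generic point of the line
  let y : Fin 4 → AdjoinRoot F := fun s =>
    AdjoinRoot.mk F (C (a (Sum.inl s)) + X * C (a (Sum.inr s)))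
  have hevy : ∀ i s, ev i (y s) = P s + t i * D s := by
    intro i s
    rw [hevmk, eval₂_add, eval₂_mul, eval₂_C, eval₂_C, eval₂_X]
    change toN g (a (Sum.inl s)) + t i * toN g (a (Sum.inr s)) = _
    rw [ha, ha]
    rfl
  let mk' : (Loc g)[X] →ₐ[ℂ] AdjoinRoot F :=
    { AdjoinRoot.mk F with commutes' := fun _ => rfl }
  have hy0 : st (qq Q y) = 0 := by
    have h1 : st (qq Q y) = mk' F₀ := by
      have h2 := octic_lineP Q (fun s => a (Sum.inl s)) (fun s => a (Sum.inr s))
      change _ = mk' (lineP (octic Q) _ _)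
      rw [h2, map_st_qq]
      rfl
    rw [h1]
    change AdjoinRoot.mk F F₀ = 0
    rw [hFF₀, map_mul, AdjoinRoot.mk_self, mul_zero]
  obtain ⟨u, hu⟩ := hunit (y 0) (fun i => by
    rw [hevy]
    exact (hg i).ne)
  let y' : Fin 4 → AdjoinRoot F := ((u⁻¹ : (AdjoinRoot F)ˣ) : AdjoinRoot F) • y
  have hy'1 : y' 0 = 1 := by
    change ((u⁻¹ : (AdjoinRoot F)ˣ) : AdjoinRoot F) * y 0 = 1
    rw [← hu, Units.inv_mul]
  have hy'0 : st (qq Q y') = 0 := by
    change st (qq Q (((u⁻¹ : (AdjoinRoot F)ˣ) : AdjoinRoot F) • y)) = 0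
    rw [qq_smul, st_smul, hy0, mul_zero]
  have hevy' : ∀ i s, ev i (y' s) = φ i (x s) := by
    intro i s
    have h1 : ev i (y 0) * ev i (y' s) = ev i (y s) := by
      rw [← map_mul]
      congr 1
      change y 0 * (((u⁻¹ : (AdjoinRoot F)ˣ) : AdjoinRoot F) * y s) = y s
      rw [← hu, ← mul_assoc, Units.mul_inv, one_mul]
    rw [hφ, eq_div_iff (hg i).ne, mul_comm, ← hevy i s, ← h1, hevy i 0]
  have hyev : ∀ i (q : MvPolynomial (Fin 4) ℂ), ev i (MvPolynomial.aeval y' q) =
      φ i (MvPolynomial.aeval x q) := by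
    intro i q
    rw [MvPolynomial.comp_aeval_apply, MvPolynomial.comp_aeval_apply]
    congr 2
    funext s
    exact hevy' i s
  obtain ⟨θ, hθ⟩ := exists_point x hx.top y' (fun q hq => hx.aeval_eq_zero hq hy'1 hy'0) (by
    intro q hq
    refine hunit _ fun i => ?_
    rw [hyev]
    intro h0
    exact hq ((φ i).toRingHom.injective (by
      rw [map_zero]
      exact h0)))
  have hcomp : ∀ i, (ev i).comp (θ.comp ι) = (φ i).comp ι := by
    intro i
    have h1 : (ev i).comp θ = φ i := by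
      refine phi_ext hx fun s => ?_
      change ev i (θ (x s)) = _
      rw [hθ, hevy']
    rw [← h1]
    rfl
  have hfin := good_roots (f := f) (j := j) (hj := hj) F hFm t ht hprod (θ.comp ι) ev
    (by
      intro i r
      rw [← AdjoinRoot.mk_C, hevmk, eval₂_C]
      rfl) (by
      intro i
      rw [← AdjoinRoot.mk_X, hevmk, eval₂_X])
  simp only [hcomp] at hfin
  rw [Finsupp.mapDomain_finsetSum]
  simp only [Finsupp.mapDomain_single]
  exact Good.mono hR hfin

end line

end Vale.Agent.P297.C8
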