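import Vale.Agent.P297.H777.Dbl
import Vale.Agent.P297.H777.WebN

/-!
Smoothness of the surface `Q(o) = e(v)` and ranks of the quadrics of the web.
-/

set_option linter.unusedSectionVars false
set_option linter.style.haveILetI false
set_option linter.unusedSimpArgs false

open IntermediateField Polynomial

namespace Vale.Agent.P297.C8

open Vale.Agent.P297.H777 Vale.Agent.P297.H212.Camp Vale.Agent.P297.Z3

/-- The surface `Q(o) = e(v)` in the projective space of dimension six is smooth. -/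
def SmoothX (Q : Web) : Prop :=
  ∀ (o : Fin 4 → ℂ) (v : Fin 3 → ℂ), qq Q o = ee v → (o ≠ 0 ∨ v ≠ 0) →
    ∀ l : Fin 4 → ℂ, (∀ u : Fin 4 → ℂ, ∑ i, l i * qb Q o u i = 0) →
      (∀ u : Fin 3 → ℂ, ∑ i, l i * eb v u i = 0) → l = 0

section EE

variable {R : Type} [CommRing R]

/-- The conic `l` applied to `v`. -/
def EE (l : Fin 4 → R) (v : Fin 3 → R) : Fin 3 → R :=
  ![l 0 * v 0 + l 3 * v 1 + l 2 * v 2, l 3 * v 0 + l 0 * v 1 + l 1 * v 2,
    l 2 * v 0 + l 1 * v 1 + l 0 * v 2]

theorem EE_dot (l : Fin 4 → R) (v u : Fin 3 → R) :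
    ∑ i, l i * eb v u i = ∑ k, u k * EE l v k := by
  simp only [Fin.sum_univ_four, Fin.sum_univ_three, eb, EE, Matrix.cons_val_zero,
    Matrix.cons_val_one, Matrix.cons_val_two, Matrix.cons_val_three, Matrix.head_cons,
    Matrix.tail_cons, Matrix.cons_val]
  ring

theorem EE_self (l : Fin 4 → R) (v : Fin 3 → R) :
    ∑ i, l i * ee v i = ∑ k, v k * EE l v k := EE_dot l v v

theorem EE_add (l l' : Fin 4 → R) (v : Fin 3 → R) : EE (l + l') v = EE l v + EE l' v := by
  funext k
  fin_cases k <;>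
  · simp [EE]
    ring

theorem EE_smul (c : R) (l : Fin 4 → R) (v : Fin 3 → R) : EE (c • l) v = c • EE l v := by
  funext k
  fin_cases k <;>
  · simp [EE]
    ring

theorem EE_smul_right (c : R) (l : Fin 4 → R) (v : Fin 3 → R) : EE l (c • v) = c • EE l v := by
  funext k
  fin_cases k <;>
  · simp [EE]
    ring

theorem map_EE {A : Type} [CommRing A] (g : R →+* A) (l : Fin 4 → R) (v : Fin 3 → R) (k : Fin 3) :
    g (EE l v k) = EE (fun j => g (l j)) (fun j => g (v j)) k := by
  fin_cases k <;> simp [EE]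

end EE

section ext

variable {N : Type} [Field N] [Algebra ℂ N] {Q : Web}

theorem exists_coord_ne {n : ℕ} {R : Type} [Zero R] {u : Fin n → R} (h : u ≠ 0) :
    ∃ k, u k ≠ 0 := by
  by_contra hne
  push Not at hne
  exact h (funext hne)

/-- Smoothness over an extension. -/
theorem SmoothX.ext (h : SmoothX Q) (o : Fin 4 → N) (v : Fin 3 → N) (hov : qq Q o = ee v)
    (hne : o ≠ 0 ∨ v ≠ 0) (l : Fin 4 → N) (h1 : ∀ u : Fin 4 → N, ∑ i, l i * qb Q o u i = 0)
    (h2 : EE l v = 0) : l = 0 := by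
  classical
  by_contra hl
  obtain ⟨c, hc⟩ := exists_coord_ne hl
  -- the scaling
  obtain ⟨s, hs, hs1⟩ : ∃ s : N, s ≠ 0 ∧ ((∃ k, o k = s) ∨ ∃ k, v k = s) := by
    rcases hne with h3 | h3
    · obtain ⟨k, hk⟩ := exists_coord_ne h3
      exact ⟨o k, hk, Or.inl ⟨k, rfl⟩⟩
    · obtain ⟨k, hk⟩ := exists_coord_ne h3
      exact ⟨v k, hk, Or.inr ⟨k, rfl⟩⟩
  let w : Fin 4 ⊕ (Fin 3 ⊕ Fin 4) → N :=
    Sum.elim (s⁻¹ • o) (Sum.elim (s⁻¹ • v) ((l c)⁻¹ • l))
  obtain ⟨z, hz⟩ := exists_cpoint w
  let Po : Fin 4 → MvPolynomial (Fin 4 ⊕ (Fin 3 ⊕ Fin 4)) ℂ := fun j => MvPolynomial.X (Sum.inl j)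
  let Pv : Fin 3 → MvPolynomial (Fin 4 ⊕ (Fin 3 ⊕ Fin 4)) ℂ :=
    fun j => MvPolynomial.X (Sum.inr (Sum.inl j))
  let Pl : Fin 4 → MvPolynomial (Fin 4 ⊕ (Fin 3 ⊕ Fin 4)) ℂ :=
    fun j => MvPolynomial.X (Sum.inr (Sum.inr j))
  let o' : Fin 4 → ℂ := fun j => z (Sum.inl j)
  let v' : Fin 3 → ℂ := fun j => z (Sum.inr (Sum.inl j))
  let l' : Fin 4 → ℂ := fun j => z (Sum.inr (Sum.inr j))
  have e1 : qq Q o' = ee v' := by
    funext i
    have h3 := hz (qq Q Po i - ee Pv i) (by
      rw [map_sub, map_qq, map_ee]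
      simp only [Po, Pv, MvPolynomial.aeval_X]
      change qq Q (s⁻¹ • o) i - ee (s⁻¹ • v) i = 0
      rw [qq_smul, ee_smul, hov, sub_self])
    rw [map_sub, map_qq, map_ee] at h3
    simp only [Po, Pv, MvPolynomial.aeval_X] at h3
    exact sub_eq_zero.1 h3
  have e2 : o' ≠ 0 ∨ v' ≠ 0 := by
    rcases hs1 with ⟨k, hk⟩ | ⟨k, hk⟩
    · left
      have h3 := hz (Po k - 1) (by
        simp only [map_sub, map_one, Po, MvPolynomial.aeval_X]
        change s⁻¹ * o k - 1 = 0
        rw [hk, inv_mul_cancel₀ hs, sub_self])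
      simp only [map_sub, map_one, Po, MvPolynomial.aeval_X] at h3
      intro h4
      have h5 : o' k = 1 := sub_eq_zero.1 h3
      rw [h4] at h5
      exact zero_ne_one h5
    · right
      have h3 := hz (Pv k - 1) (by
        simp only [map_sub, map_one, Pv, MvPolynomial.aeval_X]
        change s⁻¹ * v k - 1 = 0
        rw [hk, inv_mul_cancel₀ hs, sub_self])
      simp only [map_sub, map_one, Pv, MvPolynomial.aeval_X] at h3
      intro h4
      have h5 : v' k = 1 := sub_eq_zero.1 h3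
      rw [h4] at h5
      exact zero_ne_one h5
  have e3 : ∀ u : Fin 4 → ℂ, ∑ i, l' i * qb Q o' u i = 0 := by
    intro u
    have h3 := hz (∑ i, Pl i * qb Q Po (fun j => MvPolynomial.C (u j)) i) (by
      simp only [map_sum, map_mul, map_qb, Po, Pl, MvPolynomial.aeval_X, MvPolynomial.aeval_C]
      change ∑ i, ((l c)⁻¹ * l i) * qb Q (s⁻¹ • o) (fun j => algebraMap ℂ N (u j)) i = 0
      have h4 := h1 (fun j => algebraMap ℂ N (u j))
      rw [qb_smul_left]
      have h5 : ∑ i, ((l c)⁻¹ * l i) * (s⁻¹ • qb Q o fun j => algebraMap ℂ N (u j)) i =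
          ((l c)⁻¹ * s⁻¹) * ∑ i, l i * qb Q o (fun j => algebraMap ℂ N (u j)) i := by
        rw [Finset.mul_sum]
        refine Finset.sum_congr rfl fun i _ => ?_
        simp only [Pi.smul_apply, smul_eq_mul]
        ring
      rw [h5, h4, mul_zero])
    simp only [map_sum, map_mul, map_qb, Po, Pl, MvPolynomial.aeval_X, MvPolynomial.aeval_C] at h3
    exact h3
  have e4 : EE l' v' = 0 := by
    funext k
    have h3 := hz (EE Pl Pv k) (by
      have h4 := map_EE (MvPolynomial.aeval w : MvPolynomial _ ℂ →ₐ[ℂ] N).toRingHom Pl Pv k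
      refine h4.trans ?_
      have h5 : (fun j => (MvPolynomial.aeval w : MvPolynomial _ ℂ →ₐ[ℂ] N).toRingHom (Pl j)) =
          (l c)⁻¹ • l := funext fun j => MvPolynomial.aeval_X _ _
      have h6 : (fun j => (MvPolynomial.aeval w : MvPolynomial _ ℂ →ₐ[ℂ] N).toRingHom (Pv j)) =
          s⁻¹ • v := funext fun j => MvPolynomial.aeval_X _ _
      rw [h5, h6, EE_smul, EE_smul_right, h2]
      simp)
    have h4 := map_EE (MvPolynomial.aeval z : MvPolynomial _ ℂ →ₐ[ℂ] ℂ).toRingHom Pl Pv k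
    have h5 : (fun j => (MvPolynomial.aeval z : MvPolynomial _ ℂ →ₐ[ℂ] ℂ).toRingHom (Pl j)) = l' :=
      funext fun j => MvPolynomial.aeval_X _ _
    have h6 : (fun j => (MvPolynomial.aeval z : MvPolynomial _ ℂ →ₐ[ℂ] ℂ).toRingHom (Pv j)) = v' :=
      funext fun j => MvPolynomial.aeval_X _ _
    rw [h5, h6] at h4
    exact h4.symm.trans h3
  have e5 : l' c = 1 := by
    have h3 := hz (Pl c - 1) (by
      simp only [map_sub, map_one, Pl, MvPolynomial.aeval_X]
      change (l c)⁻¹ * l c - 1 = 0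
      rw [inv_mul_cancel₀ hc, sub_self])
    simp only [map_sub, map_one, Pl, MvPolynomial.aeval_X] at h3
    exact sub_eq_zero.1 h3
  have h6 := h o' v' e1 e2 l' e3 (fun u => by
    rw [EE_dot, e4]
    simp)
  rw [h6] at e5
  exact zero_ne_one e5

end ext

section val

variable {N : Type} [Field N] [Algebra ℂ N] {Q : Web}

/-- An element of all the valuation rings over the complex numbers is a complex number. -/
theorem complex_of_val (z : N)
    (h : ∀ V : ValuationSubring N, (∀ c : ℂ, algebraMap ℂ N c ∈ V) → z ∈ V) :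
    ∃ c : ℂ, algebraMap ℂ N c = z := by
  have h1 : z ∈ (integralClosure (Subring.closure (Set.range (algebraMap ℂ N))) N).toSubring := by
    rw [← iInf_valuationSubring_superset, Subring.mem_iInf]
    rintro ⟨V, hV⟩
    exact h V fun c => hV ⟨c, rfl⟩
  have h2 : IsIntegral (Subring.closure (Set.range (algebraMap ℂ N))) z := h1
  have h3 : Subring.closure (Set.range (algebraMap ℂ N)) = (algebraMap ℂ N).range := by
    rw [← RingHom.coe_range, Subring.closure_eq]
  rw [h3] at h2
  have h4 : IsIntegral ℂ z := by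
    let e : ℂ ≃+* (algebraMap ℂ N).range :=
      RingEquiv.ofBijective (algebraMap ℂ N).rangeRestrict
        ⟨fun a b hab => (algebraMap ℂ N).injective (congrArg Subtype.val hab),
          (algebraMap ℂ N).rangeRestrict_surjective⟩
    refine IsIntegral.map_of_comp_eq (e.symm : (algebraMap ℂ N).range →+* ℂ) (RingHom.id N) ?_ h2
    ext y
    obtain ⟨c, rfl⟩ := e.surjective y
    change algebraMap ℂ N (e.symm (e c)) = ((e c : (algebraMap ℂ N).range) : N)
    rw [e.symm_apply_apply]
    rfl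
  have h5 := minpoly.irreducible h4
  have h6 := IsAlgClosed.degree_eq_one_of_irreducible ℂ h5
  exact minpoly.mem_range_of_degree_eq_one ℂ z h6

theorem cr_01 {R : Type} [CommRing R] {A B v : Fin 3 → R} (hA : ∑ k, v k * A k = 0)
    (hB : ∑ k, v k * B k = 0) (i j : Fin 3) : cr A B i * v j = cr A B j * v i := by
  rw [Fin.sum_univ_three] at hA hB
  have h01 : cr A B 0 * v 1 = cr A B 1 * v 0 := by
    rw [cr_zero, cr_one]
    linear_combination (B 2) * hA - (A 2) * hB
  have h12 : cr A B 1 * v 2 = cr A B 2 * v 1 := by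
    rw [cr_one, cr_two]
    linear_combination (B 0) * hA - (A 0) * hB
  have h02 : cr A B 0 * v 2 = cr A B 2 * v 0 := by
    rw [cr_zero, cr_two]
    linear_combination (A 1) * hB - (B 1) * hA
  fin_cases i <;> fin_cases j
  · rfl
  · exact h01
  · exact h02
  · exact h01.symm
  · rfl
  · exact h12
  · exact h02.symm
  · exact h12.symm
  · rfl

theorem dep_of_cr {k : Type} [Field k] {A B : Fin 3 → k} (h : cr A B = 0) :
    ∃ α β : k, (α ≠ 0 ∨ β ≠ 0) ∧ α • A + β • B = 0 := by
  by_cases hA : A = 0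
  · exact ⟨1, 0, Or.inl one_ne_zero, by rw [hA]; simp⟩
  obtain ⟨c, hc⟩ := exists_coord_ne hA
  refine ⟨B c, -A c, Or.inr (neg_ne_zero.2 hc), ?_⟩
  have h0 := congrFun h 0
  have h1 := congrFun h 1
  have h2 := congrFun h 2
  rw [cr_zero, Pi.zero_apply] at h0
  rw [cr_one, Pi.zero_apply] at h1
  rw [cr_two, Pi.zero_apply] at h2
  funext i
  simp only [Pi.add_apply, Pi.smul_apply, smul_eq_mul, Pi.zero_apply]
  fin_cases c <;> fin_cases i
  · change B 0 * A 0 + -A 0 * B 0 = 0
    ring
  · change B 0 * A 1 + -A 0 * B 1 = 0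
    linear_combination (-1) * h2
  · change B 0 * A 2 + -A 0 * B 2 = 0
    linear_combination h1
  · change B 1 * A 0 + -A 1 * B 0 = 0
    linear_combination h2
  · change B 1 * A 1 + -A 1 * B 1 = 0
    ring
  · change B 1 * A 2 + -A 1 * B 2 = 0
    linear_combination (-1) * h0
  · change B 2 * A 0 + -A 2 * B 0 = 0
    linear_combination (-1) * h1
  · change B 2 * A 1 + -A 2 * B 1 = 0
    linear_combination h0
  · change B 2 * A 2 + -A 2 * B 2 = 0
    ring

/-- The local computation at a valuation ring. -/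
theorem tau_unit (h : SmoothX Q) (hfin : NoBase Q) (V : ValuationSubring N)
    (hV : ∀ c : ℂ, algebraMap ℂ N c ∈ V) {p : Fin 4 → N} {v : Fin 3 → N} (hpv : qq Q p = ee v)
    {j : Fin 3} (hj : v j ≠ 0) (hvm : ∀ i, v i / v j ∈ V) {l m : Fin 4 → N} {a b : Fin 4}
    (hab : l a * m b - l b * m a ≠ 0)
    (hlm : ∀ c d, (l c * m d - l d * m c) / (l a * m b - l b * m a) ∈ V)
    (hl : ∀ u : Fin 4 → N, ∑ i, l i * qb Q p u i = 0)
    (hm : ∀ u : Fin 4 → N, ∑ i, m i * qb Q p u i = 0) :
    (cr (EE l v) (EE m v) j / (v j ^ 2 * (l a * m b - l b * m a)))⁻¹ ∈ V ∧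
      cr (EE l v) (EE m v) j / (v j ^ 2 * (l a * m b - l b * m a)) ≠ 0 := by
  classical
  let VA : Subalgebra ℂ N := { V.toSubring with algebraMap_mem' := hV }
  letI algV : Algebra ℂ V := VA.algebra
  let incl : V →ₐ[ℂ] N := VA.val
  have hinc : Function.Injective incl := Subtype.val_injective
  let κ := IsLocalRing.ResidueField V
  letI algk : Algebra ℂ κ := ((IsLocalRing.residue V).comp (algebraMap ℂ V)).toAlgebra
  let res : V →ₐ[ℂ] κ := { IsLocalRing.residue V with commutes' := fun _ => rfl }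
  have hres : Function.Surjective res := IsLocalRing.residue_surjective
  set δ : N := l a * m b - l b * m a with hδ
  let p' : Fin 4 → N := (v j)⁻¹ • p
  let v' : Fin 3 → N := (v j)⁻¹ • v
  have hpv' : qq Q p' = ee v' := by rw [qq_smul, ee_smul, hpv]
  have hv'V : ∀ i, v' i ∈ V := fun i => by
    have h1 := hvm i
    rwa [div_eq_inv_mul] at h1
  have hee : ∀ i, ee v' i ∈ V := by
    intro i
    have h2 : (2 : N) ∈ V := ofNat_mem V 2
    fin_cases i
    · change ee v' 0 ∈ V
      rw [ee_zero]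
      exact add_mem (add_mem (pow_mem (hv'V 0) 2) (pow_mem (hv'V 1) 2)) (pow_mem (hv'V 2) 2)
    · change ee v' 1 ∈ V
      rw [ee_one]
      exact mul_mem h2 (mul_mem (hv'V 1) (hv'V 2))
    · change ee v' 2 ∈ V
      rw [ee_two]
      exact mul_mem h2 (mul_mem (hv'V 0) (hv'V 2))
    · change ee v' 3 ∈ V
      rw [ee_three]
      exact mul_mem h2 (mul_mem (hv'V 0) (hv'V 1))
  have hp'V : ∀ i, p' i ∈ V := fin_of_val hfin V hV p' (fun i => by
    rw [hpv']
    exact hee i)
  let l' : Fin 4 → N := δ⁻¹ • (m b • l - l b • m)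
  let m' : Fin 4 → N := δ⁻¹ • (l a • m - m a • l)
  have hl'V : ∀ i, l' i ∈ V := fun i => by
    have h1 := hlm i b
    rw [div_eq_inv_mul] at h1
    have e : l' i = δ⁻¹ * (l i * m b - l b * m i) := by
      change δ⁻¹ * (m b * l i - l b * m i) = _
      ring
    rw [e]
    exact h1
  have hm'V : ∀ i, m' i ∈ V := fun i => by
    have h1 := hlm a i
    rw [div_eq_inv_mul] at h1
    have e : m' i = δ⁻¹ * (l a * m i - l i * m a) := by
      change δ⁻¹ * (l a * m i - m a * l i) = _
      ring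
    rw [e]
    exact h1
  let pV : Fin 4 → V := fun i => ⟨p' i, hp'V i⟩
  let vV : Fin 3 → V := fun i => ⟨v' i, hv'V i⟩
  let lV : Fin 4 → V := fun i => ⟨l' i, hl'V i⟩
  let mV : Fin 4 → V := fun i => ⟨m' i, hm'V i⟩
  have R1 : qq Q pV = ee vV := by
    funext i
    apply hinc
    rw [map_qq, map_ee]
    exact congrFun hpv' i
  have hl' : ∀ u : Fin 4 → N, ∑ i, l' i * qb Q p' u i = 0 := by
    intro u
    have h1 := hl u
    have h2 := hm u
    have h3 : ∑ i, l' i * qb Q p' u i = δ⁻¹ * (v j)⁻¹ *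
        (m b * ∑ i, l i * qb Q p u i - l b * ∑ i, m i * qb Q p u i) := by
      rw [show p' = (v j)⁻¹ • p from rfl, qb_smul_left, Finset.mul_sum, Finset.mul_sum,
        ← Finset.sum_sub_distrib, Finset.mul_sum]
      refine Finset.sum_congr rfl fun i _ => ?_
      simp only [l', Pi.sub_apply, Pi.smul_apply, smul_eq_mul]
      ring
    rw [h3, h1, h2]
    ring
  have hm' : ∀ u : Fin 4 → N, ∑ i, m' i * qb Q p' u i = 0 := by
    intro u
    have h1 := hl u
    have h2 := hm u
    have h3 : ∑ i, m' i * qb Q p' u i = δ⁻¹ * (v j)⁻¹ *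
        (l a * ∑ i, m i * qb Q p u i - m a * ∑ i, l i * qb Q p u i) := by
      rw [show p' = (v j)⁻¹ • p from rfl, qb_smul_left, Finset.mul_sum, Finset.mul_sum,
        ← Finset.sum_sub_distrib, Finset.mul_sum]
      refine Finset.sum_congr rfl fun i _ => ?_
      simp only [m', Pi.sub_apply, Pi.smul_apply, smul_eq_mul]
      ring
    rw [h3, h1, h2]
    ring
  have R2 : ∀ u : Fin 4 → V, ∑ i, lV i * qb Q pV u i = 0 := by
    intro u
    apply hinc
    rw [map_sum, map_zero, ← hl' (fun i => (u i : N))]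
    refine Finset.sum_congr rfl fun i _ => ?_
    rw [map_mul, map_qb]
    rfl
  have R3 : ∀ u : Fin 4 → V, ∑ i, mV i * qb Q pV u i = 0 := by
    intro u
    apply hinc
    rw [map_sum, map_zero, ← hm' (fun i => (u i : N))]
    refine Finset.sum_congr rfl fun i _ => ?_
    rw [map_mul, map_qb]
    rfl
  let τV : V := cr (EE lV vV) (EE mV vV) j
  have hτ : (τV : N) = cr (EE l v) (EE m v) j / (v j ^ 2 * δ) := by
    have e1 : (τV : N) = cr (EE l' v') (EE m' v') j := by
      change incl (cr (EE lV vV) (EE mV vV) j) = _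
      fin_cases j <;> simp [cr, map_EE, EE, incl, lV, mV, vV, VA] <;> rfl
    have e2 : cr (EE l' v') (EE m' v') j = (δ⁻¹ * (v j)⁻¹) ^ 2 * (m b * l a - l b * m a) *
        cr (EE l v) (EE m v) j := by
      have e3 : EE l' v' = (δ⁻¹ * (v j)⁻¹) • (m b • EE l v - l b • EE m v) := by
        funext i
        fin_cases i <;> simp [EE, l', v'] <;> ring
      have e4 : EE m' v' = (δ⁻¹ * (v j)⁻¹) • (l a • EE m v - m a • EE l v) := by
        funext i
        fin_cases i <;> simp [EE, m', v'] <;> ring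
      rw [e3, e4]
      fin_cases j <;> simp [cr] <;> ring
    rw [e1, e2]
    have e5 : m b * l a - l b * m a = δ := by rw [hδ]; ring
    rw [e5]
    field_simp
  -- the residue of `τ` is not zero
  have hunit : IsUnit τV := by
    by_contra hnu
    have hz : res τV = 0 := (IsLocalRing.residue_eq_zero_iff _).2
      ((IsLocalRing.mem_maximalIdeal _).2 hnu)
    let p₀ : Fin 4 → κ := fun i => res (pV i)
    let v₀ : Fin 3 → κ := fun i => res (vV i)
    let l₀ : Fin 4 → κ := fun i => res (lV i)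
    let m₀ : Fin 4 → κ := fun i => res (mV i)
    have S1 : qq Q p₀ = ee v₀ := by
      funext i
      have h1 := congrArg res (congrFun R1 i)
      rwa [map_qq, map_ee] at h1
    have S2 : ∀ u : Fin 4 → κ, ∑ i, l₀ i * qb Q p₀ u i = 0 := by
      intro u
      choose u' hu' using fun i => hres (u i)
      have h1 := congrArg res (R2 u')
      simp only [map_sum, map_mul, map_qb, map_zero, hu'] at h1
      exact h1
    have S3 : ∀ u : Fin 4 → κ, ∑ i, m₀ i * qb Q p₀ u i = 0 := by
      intro u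
      choose u' hu' using fun i => hres (u i)
      have h1 := congrArg res (R3 u')
      simp only [map_sum, map_mul, map_qb, map_zero, hu'] at h1
      exact h1
    have T2 : ∑ k, v₀ k * EE l₀ v₀ k = 0 := by
      rw [← EE_self, ← S1]
      exact S2 p₀
    have T3 : ∑ k, v₀ k * EE m₀ v₀ k = 0 := by
      rw [← EE_self, ← S1]
      exact S3 p₀
    have hvj : v₀ j = 1 := by
      have h1 : vV j = 1 := Subtype.ext (inv_mul_cancel₀ hj)
      change res (vV j) = 1
      rw [h1, map_one]
    have hcj : cr (EE l₀ v₀) (EE m₀ v₀) j = 0 := by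
      rw [← hz]
      change _ = res (cr (EE lV vV) (EE mV vV) j)
      have h1 : ∀ k, EE l₀ v₀ k = res (EE lV vV k) := fun k =>
        (map_EE res.toRingHom lV vV k).symm
      have h2 : ∀ k, EE m₀ v₀ k = res (EE mV vV k) := fun k =>
        (map_EE res.toRingHom mV vV k).symm
      fin_cases j <;> simp [cr, h1, h2]
    have hc0 : cr (EE l₀ v₀) (EE m₀ v₀) = 0 := by
      funext i
      have h1 := cr_01 T2 T3 i j
      rw [hvj, hcj, mul_one, zero_mul] at h1
      exact h1
    obtain ⟨α, β, hαβ, hdep⟩ := dep_of_cr hc0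
    have hv₀ : v₀ ≠ 0 := by
      intro h1
      rw [h1] at hvj
      exact zero_ne_one hvj
    have hfinal := h.ext p₀ v₀ S1 (Or.inr hv₀) (α • l₀ + β • m₀) (fun u => by
      have h1 : ∑ i, (α • l₀ + β • m₀) i * qb Q p₀ u i =
          α * ∑ i, l₀ i * qb Q p₀ u i + β * ∑ i, m₀ i * qb Q p₀ u i := by
        rw [Finset.mul_sum, Finset.mul_sum, ← Finset.sum_add_distrib]
        refine Finset.sum_congr rfl fun i _ => ?_
        simp only [Pi.add_apply, Pi.smul_apply, smul_eq_mul]
        ring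
      rw [h1, S2, S3]
      ring) (by rw [EE_add, EE_smul, EE_smul, hdep])
    have hla : l₀ a = 1 := by
      have h1 : lV a = 1 := Subtype.ext (by
        change δ⁻¹ * (m b * l a - l b * m a) = 1
        rw [show m b * l a - l b * m a = δ by rw [hδ]; ring, inv_mul_cancel₀ hab])
      change res (lV a) = 1
      rw [h1, map_one]
    have hma : m₀ a = 0 := by
      have h1 : mV a = 0 := Subtype.ext (by
        change δ⁻¹ * (l a * m a - m a * l a) = 0
        ring)
      change res (mV a) = 0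
      rw [h1, map_zero]
    have hlb : l₀ b = 0 := by
      have h1 : lV b = 0 := Subtype.ext (by
        change δ⁻¹ * (m b * l b - l b * m b) = 0
        ring)
      change res (lV b) = 0
      rw [h1, map_zero]
    have hmb : m₀ b = 1 := by
      have h1 : mV b = 1 := Subtype.ext (by
        change δ⁻¹ * (l a * m b - m a * l b) = 1
        rw [show l a * m b - m a * l b = δ by rw [hδ]; ring, inv_mul_cancel₀ hab])
      change res (mV b) = 1
      rw [h1, map_one]
    have ha0 := congrFun hfinal a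
    have hb0 := congrFun hfinal b
    simp only [Pi.add_apply, Pi.smul_apply, smul_eq_mul, hla, hma, hlb, hmb, mul_one, mul_zero,
      add_zero, zero_add, Pi.zero_apply] at ha0 hb0
    rcases hαβ with h1 | h1
    · exact h1 ha0
    · exact h1 hb0
  constructor
  · obtain ⟨u, hu⟩ := hunit
    have h1 : (τV : N) * ((u⁻¹ : Vˣ) : V) = 1 := by
      rw [← hu]
      exact congrArg Subtype.val (Units.mul_inv u)
    rw [← hτ, inv_eq_of_mul_eq_one_right h1]
    exact ((u⁻¹ : Vˣ) : V).2
  · rw [← hτ]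
    intro h0
    exact hunit.ne_zero (Subtype.ext h0)

theorem zero_of_noBase (hfin : NoBase Q) {p : Fin 4 → N} (hp : qq Q p = 0) : p = 0 := by
  by_contra hne
  obtain ⟨k, hk⟩ := exists_coord_ne hne
  let w : Fin 4 → N := fun j => p j / p k
  obtain ⟨z, hz⟩ := exists_cpoint w
  have h1 : qq Q z = 0 := by
    funext i
    have h1 := hz (qq Q (MvPolynomial.X : Fin 4 → MvPolynomial (Fin 4) ℂ) i) (by
      rw [map_qq]
      simp only [MvPolynomial.aeval_X]
      have h2 : w = (p k)⁻¹ • p := funext fun j => div_eq_inv_mul _ _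
      change qq Q w i = 0
      rw [h2, qq_smul, hp]
      simp)
    rw [map_qq] at h1
    simp only [MvPolynomial.aeval_X] at h1
    exact h1
  have h2 := hz (MvPolynomial.X k - 1) (by
    rw [map_sub, map_one, MvPolynomial.aeval_X]
    change p k / p k - 1 = 0
    rw [div_self hk, sub_self])
  rw [map_sub, map_one, MvPolynomial.aeval_X, hfin z h1] at h2
  simp at h2

/-- **Rank two.** A point of the smooth surface where the quadrics of the web have a pencil of
singular members is a complex point. -/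
theorem point_of_smooth (h : SmoothX Q) (hfin : NoBase Q) {p : Fin 4 → N} {v : Fin 3 → N}
    (hpv : qq Q p = ee v) (hv : v ≠ 0) {l m : Fin 4 → N} {a b : Fin 4}
    (hab : l a * m b - l b * m a ≠ 0)
    (hl : ∀ u : Fin 4 → N, ∑ i, l i * qb Q p u i = 0)
    (hm : ∀ u : Fin 4 → N, ∑ i, m i * qb Q p u i = 0) :
    ∃ (c : N) (x : Fin 4 → ℂ) (z : Fin 3 → ℂ), c ≠ 0 ∧
      p = c • (fun j => algebraMap ℂ N (x j)) ∧ v = c • (fun j => algebraMap ℂ N (z j)) := by
  classical
  obtain ⟨j, hj⟩ := exists_coord_ne hv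
  have T2 : ∑ k, v k * EE l v k = 0 := by
    rw [← EE_self, ← hpv]
    exact hl p
  have T3 : ∑ k, v k * EE m v k = 0 := by
    rw [← EE_self, ← hpv]
    exact hm p
  set δ : N := l a * m b - l b * m a with hδ
  set τ : N := cr (EE l v) (EE m v) j / (v j ^ 2 * δ) with hτ
  -- at every valuation ring
  have key : ∀ V : ValuationSubring N, (∀ c : ℂ, algebraMap ℂ N c ∈ V) →
      τ⁻¹ ∈ V ∧ τ ≠ 0 ∧ (τ ∈ V → ∀ i, v i / v j ∈ V) := by
    intro V hV
    obtain ⟨j₁, hj₁⟩ := Finite.exists_max fun k => V.valuation (v k)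
    obtain ⟨q, hq⟩ := Finite.exists_max fun q : Fin 4 × Fin 4 =>
      V.valuation (l q.1 * m q.2 - l q.2 * m q.1)
    have hvj₁ : v j₁ ≠ 0 := by
      intro h0
      have h1 := hj₁ j
      rw [h0, map_zero] at h1
      exact hj ((V.valuation.zero_iff).1 (le_zero_iff.1 h1))
    have hδ₁ : l q.1 * m q.2 - l q.2 * m q.1 ≠ 0 := by
      intro h0
      have h1 := hq (a, b)
      rw [h0, map_zero] at h1
      exact hab ((V.valuation.zero_iff).1 (le_zero_iff.1 h1))
    have hvm : ∀ i, v i / v j₁ ∈ V := by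
      intro i
      rw [← V.valuation_le_one_iff, map_div₀]
      exact div_le_one_of_le₀ (hj₁ i) zero_le
    have hlm : ∀ c d, (l c * m d - l d * m c) / (l q.1 * m q.2 - l q.2 * m q.1) ∈ V := by
      intro c d
      rw [← V.valuation_le_one_iff, map_div₀]
      exact div_le_one_of_le₀ (hq (c, d)) zero_le
    obtain ⟨h1, h2⟩ := tau_unit h hfin V hV hpv hvj₁ hvm hδ₁ hlm hl hm
    set τ₁ : N := cr (EE l v) (EE m v) j₁ / (v j₁ ^ 2 * (l q.1 * m q.2 - l q.2 * m q.1)) with hτ₁
    have hcr := cr_01 T2 T3 j j₁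
    have hrel : τ = τ₁ * ((v j₁ / v j) * ((l q.1 * m q.2 - l q.2 * m q.1) / δ)) := by
      have h3 : cr (EE l v) (EE m v) j = cr (EE l v) (EE m v) j₁ * v j / v j₁ := by
        rw [eq_div_iff hvj₁]
        exact hcr
      rw [hτ, hτ₁, h3]
      field_simp
    clear_value τ₁
    have hinv : τ⁻¹ = τ₁⁻¹ * ((v j / v j₁) * (δ / (l q.1 * m q.2 - l q.2 * m q.1))) := by
      rw [hrel, mul_inv, mul_inv, inv_div, inv_div]
    refine ⟨?_, ?_, fun hτV i => ?_⟩
    · rw [hinv]
      exact mul_mem h1 (mul_mem (hvm j) (hlm a b))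
    · rw [hrel]
      exact mul_ne_zero h2 (mul_ne_zero (div_ne_zero hvj₁ hj) (div_ne_zero hδ₁ hab))
    · have h3 : v i / v j = (v i / v j₁) *
          (τ * τ₁⁻¹ * (δ / (l q.1 * m q.2 - l q.2 * m q.1))) := by
        rw [hrel]
        field_simp
      rw [h3]
      exact mul_mem (hvm i) (mul_mem (mul_mem hτV h1) (hlm a b))
  obtain ⟨c₀, hc₀⟩ := complex_of_val τ⁻¹ fun V hV => (key V hV).1
  have hτ0 : τ ≠ 0 := by
    obtain ⟨V⟩ : Nonempty (ValuationSubring N) := ⟨⊤⟩
    exact (key ⊤ fun c => by trivial).2.1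
  have hτc : τ = algebraMap ℂ N c₀⁻¹ := by
    rw [map_inv₀, hc₀, inv_inv]
  have hvall : ∀ i, ∃ c : ℂ, algebraMap ℂ N c = v i / v j := fun i =>
    complex_of_val _ fun V hV => (key V hV).2.2 (by rw [hτc]; exact hV _) i
  choose z hz using hvall
  have hv' : (v j)⁻¹ • v = fun i => algebraMap ℂ N (z i) := by
    funext i
    rw [hz]
    exact (div_eq_inv_mul _ _).symm
  have hpall : ∀ i, ∃ c : ℂ, algebraMap ℂ N c = ((v j)⁻¹ • p) i := fun i =>
    complex_of_val _ fun V hV => by
      refine fin_of_val hfin V hV ((v j)⁻¹ • p) (fun k => ?_) i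
      rw [qq_smul, hpv, ← ee_smul, hv']
      have h1 := map_ee (Algebra.ofId ℂ N) z k
      change ee (fun i => (Algebra.ofId ℂ N) (z i)) k ∈ V
      rw [← h1]
      exact hV _
  choose x hx using hpall
  refine ⟨v j, x, z, hj, ?_, ?_⟩
  · funext i
    rw [Pi.smul_apply, hx, Pi.smul_apply, smul_eq_mul, smul_eq_mul, mul_inv_cancel_left₀ hj]
  · rw [← hv', smul_smul, mul_inv_cancel₀ hj, one_smul]

/-- The Steiner surface is the image of the plane. -/
theorem exists_ee_all [IsAlgClosed N] {y : Fin 4 → N} (h : st y = 0) :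
    ∃ v : Fin 3 → N, ee v = y := by
  haveI : CharZero N := charZero_of_injective_algebraMap (algebraMap ℂ N).injective
  have hsq : ∀ c : N, ∃ s : N, s ^ 2 = c := fun c => by
    obtain ⟨s, hs⟩ := IsAlgClosed.exists_pow_nat_eq c (n := 2) (by norm_num)
    exact ⟨s, hs⟩
  have hpair : ∀ α β : N, ∃ s t : N, s ^ 2 + t ^ 2 = α ∧ 2 * (s * t) = β := by
    intro α β
    obtain ⟨s, hs⟩ := hsq (α + β)
    obtain ⟨t, ht⟩ := hsq (α - β)
    refine ⟨(s + t) / 2, (s - t) / 2, ?_, ?_⟩
    · linear_combination (1 / 2) * hs + (1 / 2) * ht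
    · linear_combination (1 / 2) * hs - (1 / 2) * ht
  by_cases hy : y 1 * y 2 * y 3 ≠ 0
  · obtain ⟨c, -, -, hc⟩ := exists_ee h hy
    exact ⟨_, hc⟩
  rw [not_not] at hy
  have hcases : (y 1 = 0 ∧ y 2 = 0) ∨ (y 1 = 0 ∧ y 3 = 0) ∨ (y 2 = 0 ∧ y 3 = 0) := by
    simp only [st] at h
    rcases mul_eq_zero.1 hy with h1 | h1
    · rcases mul_eq_zero.1 h1 with h2 | h2
      · rw [h2] at h
        have h3 : (y 2 * y 3) ^ 2 = 0 := by linear_combination h
        rcases mul_eq_zero.1 ((pow_eq_zero_iff two_ne_zero).1 h3) with h4 | h4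
        · exact Or.inl ⟨h2, h4⟩
        · exact Or.inr (Or.inl ⟨h2, h4⟩)
      · rw [h2] at h
        have h3 : (y 1 * y 3) ^ 2 = 0 := by linear_combination h
        rcases mul_eq_zero.1 ((pow_eq_zero_iff two_ne_zero).1 h3) with h4 | h4
        · exact Or.inl ⟨h4, h2⟩
        · exact Or.inr (Or.inr ⟨h2, h4⟩)
    · rw [h1] at h
      have h3 : (y 1 * y 2) ^ 2 = 0 := by linear_combination h
      rcases mul_eq_zero.1 ((pow_eq_zero_iff two_ne_zero).1 h3) with h4 | h4
      · exact Or.inr (Or.inl ⟨h4, h1⟩)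
      · exact Or.inr (Or.inr ⟨h4, h1⟩)
  rcases hcases with ⟨h1, h2⟩ | ⟨h1, h2⟩ | ⟨h1, h2⟩
  · obtain ⟨s, t, hs, ht⟩ := hpair (y 0) (y 3)
    refine ⟨![s, t, 0], ?_⟩
    funext i
    fin_cases i
    · change ee _ 0 = _
      rw [ee_zero]
      simpa using hs
    · change ee _ 1 = _
      rw [ee_one]
      simpa using h1.symm
    · change ee _ 2 = _
      rw [ee_two]
      simpa using h2.symm
    · change ee _ 3 = _
      rw [ee_three]
      simpa using ht
  · obtain ⟨s, t, hs, ht⟩ := hpair (y 0) (y 2)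
    refine ⟨![s, 0, t], ?_⟩
    funext i
    fin_cases i
    · change ee _ 0 = _
      rw [ee_zero]
      simpa using hs
    · change ee _ 1 = _
      rw [ee_one]
      simpa using h1.symm
    · change ee _ 2 = _
      rw [ee_two]
      simpa using ht
    · change ee _ 3 = _
      rw [ee_three]
      simpa using h2.symm
  · obtain ⟨s, t, hs, ht⟩ := hpair (y 0) (y 1)
    refine ⟨![0, s, t], ?_⟩
    funext i
    fin_cases i
    · change ee _ 0 = _
      rw [ee_zero]
      simpa using hs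
    · change ee _ 1 = _
      rw [ee_one]
      simpa using ht
    · change ee _ 2 = _
      rw [ee_two]
      simpa using h1.symm
    · change ee _ 3 = _
      rw [ee_three]
      simpa using h2.symm

end val

section main

variable {N : Type} [Field N] [Algebra ℂ N] {Q : Web}

/-- The left kernel of a square matrix with a pencil of vectors in its kernel. -/
theorem exists_left_ker {k : Type} [Field k] (J : Matrix (Fin 4) (Fin 4) k) {u u' : Fin 4 → k}
    (hind : LinearIndependent k ![u, u']) (hu : J.mulVec u = 0) (hu' : J.mulVec u' = 0) :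
    ∃ l m : Fin 4 → k, LinearIndependent k ![l, m] ∧ J.transpose.mulVec l = 0 ∧
      J.transpose.mulVec m = 0 := by
  have h1 : 2 ≤ Module.finrank k (LinearMap.ker J.mulVecLin) := by
    let w : Fin 2 → LinearMap.ker J.mulVecLin := ![⟨u, hu⟩, ⟨u', hu'⟩]
    have hw : LinearIndependent k w := by
      refine LinearIndependent.of_comp (LinearMap.ker J.mulVecLin).subtype ?_
      convert hind using 1
      funext j
      fin_cases j <;> rfl
    have h2 := hw.fintype_card_le_finrank
    rwa [Fintype.card_fin] at h2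
  have h2 : Module.finrank k (LinearMap.range J.mulVecLin) +
      Module.finrank k (LinearMap.ker J.mulVecLin) = 4 := by
    have := LinearMap.finrank_range_add_finrank_ker J.mulVecLin
    simpa using this
  have h3 : Module.finrank k (LinearMap.range J.transpose.mulVecLin) +
      Module.finrank k (LinearMap.ker J.transpose.mulVecLin) = 4 := by
    have := LinearMap.finrank_range_add_finrank_ker J.transpose.mulVecLin
    simpa using this
  have h4 : Module.finrank k (LinearMap.range J.transpose.mulVecLin) =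
      Module.finrank k (LinearMap.range J.mulVecLin) := Matrix.rank_transpose J
  have h5 : 2 ≤ Module.finrank k (LinearMap.ker J.transpose.mulVecLin) := by omega
  obtain ⟨f, hf⟩ := exists_linearIndependent_of_le_finrank h5
  refine ⟨f 0, f 1, ?_, (f 0).2, (f 1).2⟩
  have h6 : LinearIndependent k (fun i => ((f i : LinearMap.ker J.transpose.mulVecLin) :
      Fin 4 → k)) := hf.map' (LinearMap.ker J.transpose.mulVecLin).subtype
        (Submodule.ker_subtype _)
  convert h6 using 1
  funext i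
  fin_cases i <;> rfl

theorem exists_minor {k : Type} [Field k] {l m : Fin 4 → k} (h : LinearIndependent k ![l, m]) :
    ∃ a b, l a * m b - l b * m a ≠ 0 := by
  rw [LinearIndependent.pair_iff] at h
  by_contra hcon
  push Not at hcon
  have hl : l ≠ 0 := by
    rintro rfl
    have := (h 1 0 (by simp)).1
    exact one_ne_zero this
  obtain ⟨a, ha⟩ := exists_coord_ne hl
  have h1 := (h (m a) (-l a) (by
    funext b
    have h2 := hcon a b
    simp only [Pi.add_apply, Pi.smul_apply, smul_eq_mul, Pi.zero_apply]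
    linear_combination (-1) * h2)).2
  exact ha (neg_eq_zero.1 h1)

theorem left_ker_apply (o l : Fin 4 → N) (h : (jac Q o).transpose.mulVec l = 0) (u : Fin 4 → N) :
    ∑ i, l i * qb Q u o i = 0 := by
  have h1 : ∑ i, l i * (jac Q o).mulVec u i = 0 := by
    change l ⬝ᵥ (jac Q o).mulVec u = 0
    rw [Matrix.dotProduct_mulVec, ← Matrix.mulVec_transpose, h, zero_dotProduct]
  rwa [jac_mulVec] at h1

/-- **The rank of the web at the points of the octic.** -/
theorem rank_of_smooth [IsAlgClosed N] (hQ : ∀ i, (Q i).IsSymm) (hfin : NoBase Q)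
    (h : SmoothX Q) {p u u' : Fin 4 → N} (hst : st (qq Q p) = 0) (hp : p ≠ 0)
    (hu : qb Q p u = 0) (hu' : qb Q p u' = 0) (hind : LinearIndependent N ![u, u']) :
    ∃ (c : N) (x : Fin 4 → ℂ) (l : Fin 4 → ℂ), c ≠ 0 ∧
      p = c • (fun j => algebraMap ℂ N (x j)) ∧ ∑ i, l i * qq Q x i = 0 ∧
      ∃ w : Fin 4 → ℂ, ∑ i, l i * qb Q x w i ≠ 0 := by
  obtain ⟨v, hv⟩ := exists_ee_all hst
  have hv0 : v ≠ 0 := by
    rintro rfl
    refine hp (zero_of_noBase hfin ?_)
    rw [← hv]
    funext i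
    fin_cases i <;> simp [ee, eb]
  obtain ⟨l, m, hlm, hl, hm⟩ := exists_left_ker (jac Q p) hind (by rw [jac_mulVec, qb_comm hQ, hu])
    (by rw [jac_mulVec, qb_comm hQ, hu'])
  obtain ⟨a, b, hab⟩ := exists_minor hlm
  obtain ⟨c, x, z, hc, hpx, hvz⟩ := point_of_smooth h hfin hv.symm hv0 hab
    (fun u => by rw [qb_comm hQ]; exact left_ker_apply p l hl u)
    (fun u => by rw [qb_comm hQ]; exact left_ker_apply p m hm u)
  have hxz : qq Q x = ee z := by
    rw [hpx, hvz, qq_smul, ee_smul] at hv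
    have h1 := smul_right_injective (Fin 4 → N) (pow_ne_zero 2 hc) hv
    funext i
    apply (algebraMap ℂ N).injective
    have h2 := congrFun h1 i
    have h3 := map_qq Q (Algebra.ofId ℂ N) x i
    have h4 := map_ee (Algebra.ofId ℂ N) z i
    exact h3.trans (h2.symm.trans h4.symm)
  -- a conic singular at the point `z`
  let f : (Fin 4 → ℂ) →ₗ[ℂ] (Fin 3 → ℂ) :=
    { toFun := fun l => EE l z
      map_add' := fun l l' => EE_add l l' z
      map_smul' := fun c l => EE_smul c l z }
  have hf : LinearMap.ker f ≠ ⊥ := LinearMap.ker_ne_bot_of_finrank_lt (by simp)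
  obtain ⟨l₀, hl₀, hl₀'⟩ := Submodule.exists_mem_ne_zero_of_ne_bot hf
  have hl₀'' : EE l₀ z = 0 := hl₀
  refine ⟨c, x, l₀, hc, hpx, ?_, ?_⟩
  · rw [hxz, EE_self, hl₀'']
    simp
  · by_contra hcon
    push Not at hcon
    have hne : x ≠ 0 ∨ z ≠ 0 := by
      left
      rintro rfl
      apply hp
      rw [hpx]
      funext i
      simp
    exact hl₀' (h x z hxz hne l₀ hcon (fun u => by rw [EE_dot, hl₀'']; simp))

/-- A binary quadratic form has a zero. -/
theorem exists_binary_zero [IsAlgClosed N] (α β γ : N) :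
    ∃ s t : N, (s ≠ 0 ∨ t ≠ 0) ∧ α * s ^ 2 + 2 * β * s * t + γ * t ^ 2 = 0 := by
  by_cases hα : α = 0
  · exact ⟨1, 0, Or.inl one_ne_zero, by rw [hα]; ring⟩
  obtain ⟨r, hr⟩ := IsAlgClosed.exists_pow_nat_eq (β ^ 2 - α * γ) (n := 2) (by norm_num)
  refine ⟨(r - β) / α, 1, Or.inr one_ne_zero, ?_⟩
  field_simp
  linear_combination hr

end main

end Vale.Agent.P297.C8
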