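import Vale.Agent.P297.H777.Octic
import Mathlib.RingTheory.Valuation.LocalSubring
import Mathlib.RingTheory.Nullstellensatz

/-!
A system of forms without common zeros defines a finite map.
-/

set_option linter.unusedSectionVars false
set_option linter.style.haveILetI false
set_option linter.unusedSimpArgs false

open IntermediateField

namespace Vale.Agent.P297.H777

/-- If polynomials have no common complex zero with `m`-th coordinate one, they have no such zero
in any extension. -/
theorem no_zero_ext {ι κ : Type} [Finite ι] (q : κ → MvPolynomial ι ℂ)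
    {B : Type} [CommRing B] [Algebra ℂ B] [Nontrivial B] (w : ι → B)
    (hw : ∀ k, MvPolynomial.aeval w (q k) = 0) :
    ∃ z : ι → ℂ, (∀ k, MvPolynomial.aeval z (q k) = 0) ∧
      ∀ f : MvPolynomial ι ℂ, MvPolynomial.aeval w f = 0 → MvPolynomial.aeval z f = 0 := by
  let I : Ideal (MvPolynomial ι ℂ) := RingHom.ker (MvPolynomial.aeval w : MvPolynomial ι ℂ →ₐ[ℂ] B)
  have hI : I ≠ ⊤ := RingHom.ker_ne_top _
  obtain ⟨M, hM, hle⟩ := Ideal.exists_le_maximal I hI
  obtain ⟨z, hz⟩ := (MvPolynomial.isMaximal_iff_eq_vanishingIdeal_singleton (K := ℂ)).1 hM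
  have h1 : ∀ f : MvPolynomial ι ℂ, MvPolynomial.aeval w f = 0 → MvPolynomial.aeval z f = 0 := by
    intro f hf
    have h2 : f ∈ M := hle hf
    rw [hz, MvPolynomial.mem_vanishingIdeal_iff] at h2
    exact h2 z rfl
  exact ⟨z, fun k => h1 _ (hw k), h1⟩

/-- **Finiteness.** A system of forms of positive degrees without common complex zeros except the
origin defines a finite map. -/
theorem isIntegral_of_no_zero {ι κ : Type} [Finite ι] (q : κ → MvPolynomial ι ℂ) (d : κ → ℕ)
    (hd : ∀ k, 0 < d k) (hq : ∀ k, (q k).IsHomogeneous (d k))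
    (hfin : ∀ z : ι → ℂ, (∀ k, MvPolynomial.aeval z (q k) = 0) → z = 0)
    {N : Type} [Field N] [Algebra ℂ N] (o : ι → N) (j : ι) :
    IsIntegral (Algebra.adjoin ℂ (Set.range fun k => MvPolynomial.aeval o (q k))) (o j) := by
  classical
  cases nonempty_fintype ι
  haveI : Nonempty ι := ⟨j⟩
  let s : Set N := Set.range (algebraMap ℂ N) ∪ Set.range fun k => MvPolynomial.aeval o (q k)
  have hmain : o j ∈ (integralClosure (Subring.closure s) N).toSubring := by
    rw [← iInf_valuationSubring_superset, Subring.mem_iInf]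
    rintro ⟨V, hV⟩
    change o j ∈ V
    by_contra hj
    obtain ⟨m, hm⟩ := Finite.exists_max fun k => V.valuation (o k)
    have hvm : 1 < V.valuation (o m) := by
      refine lt_of_lt_of_le ?_ (hm j)
      rw [← not_le, V.valuation_le_one_iff]
      exact hj
    have hm0 : o m ≠ 0 := by
      intro h0
      rw [h0, map_zero] at hvm
      exact absurd hvm (not_lt.2 zero_le_one)
    have hwV : ∀ k, o k / o m ∈ V := by
      intro k
      rw [← V.valuation_le_one_iff, map_div₀]
      exact div_le_one_of_le₀ (hm k) zero_le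
    have hCV : ∀ c : ℂ, algebraMap ℂ N c ∈ V := fun c => hV (Or.inl ⟨c, rfl⟩)
    let VA : Subalgebra ℂ N := { V.toSubring with algebraMap_mem' := hCV }
    letI algV : Algebra ℂ V := VA.algebra
    let incl : V →ₐ[ℂ] N := VA.val
    let κ' := IsLocalRing.ResidueField V
    letI algk : Algebra ℂ κ' := ((IsLocalRing.residue V).comp (algebraMap ℂ V)).toAlgebra
    let res : V →ₐ[ℂ] κ' := { IsLocalRing.residue V with commutes' := fun _ => rfl }
    let w : ι → V := fun k => ⟨o k / o m, hwV k⟩
    have hinc : ∀ k, incl (w k) = (o m)⁻¹ * o k := fun k => by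
      change o k / o m = _
      rw [div_eq_inv_mul]
    have hres : ∀ k, MvPolynomial.aeval (fun i => res (w i)) (q k) = 0 := by
      intro k
      rw [← MvPolynomial.comp_aeval_apply]
      change IsLocalRing.residue V (MvPolynomial.aeval w (q k)) = 0
      rw [IsLocalRing.residue_eq_zero_iff, ValuationSubring.valuation_lt_one_iff]
      change V.valuation (incl (MvPolynomial.aeval w (q k))) < 1
      rw [MvPolynomial.comp_aeval_apply]
      simp only [hinc]
      rw [aeval_smul_homog (hq k), map_mul, map_pow, map_inv₀]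
      have h1 : V.valuation (MvPolynomial.aeval o (q k)) ≤ 1 :=
        (V.valuation_le_one_iff _).2 (hV (Or.inr ⟨k, rfl⟩))
      have h2 : (V.valuation (o m))⁻¹ < 1 := inv_lt_one_of_one_lt₀ hvm
      have h3 : (V.valuation (o m))⁻¹ ^ d k < 1 := pow_lt_one₀ zero_le h2 (hd k).ne'
      exact mul_lt_one_of_lt_of_le h3 h1
    obtain ⟨z, hz, hz'⟩ := no_zero_ext q (fun i => res (w i)) hres
    have h1 := hfin z hz
    have h2 := hz' (MvPolynomial.X m - 1) (by
      rw [map_sub, map_one, MvPolynomial.aeval_X]
      have h3 : w m = 1 := Subtype.ext (div_self hm0)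
      rw [h3, map_one, sub_self])
    rw [map_sub, map_one, MvPolynomial.aeval_X, h1] at h2
    simp at h2
  have hint : IsIntegral (Subring.closure s) (o j) := hmain
  have hle : ∀ z : Subring.closure s, ((z : N)) ∈
      Algebra.adjoin ℂ (Set.range fun k => MvPolynomial.aeval o (q k)) := by
    intro z
    have h1 := Algebra.adjoin_eq_ring_closure (R := ℂ)
      (Set.range fun k => MvPolynomial.aeval o (q k))
    have h2 : (z : N) ∈ (Algebra.adjoin ℂ
        (Set.range fun k => MvPolynomial.aeval o (q k))).toSubring := by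
      rw [h1]
      exact z.2
    exact h2
  let φ : Subring.closure s →+* Algebra.adjoin ℂ (Set.range fun k => MvPolynomial.aeval o (q k)) :=
    (Subring.closure s).subtype.codRestrict _ hle
  exact IsIntegral.map_of_comp_eq φ (RingHom.id N) rfl hint

end Vale.Agent.P297.H777

namespace Vale.Agent.P297.C8

open Vale.Agent.P297.H777

variable {N : Type} [Field N] [Algebra ℂ N] {Q : Web}

/-- The coordinates are integral over the values of the quadrics. -/
theorem web_integral (hfin : ∀ o : Fin 4 → ℂ, qq Q o = 0 → o = 0) (o : Fin 4 → N) (j : Fin 4) :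
    IsIntegral (Algebra.adjoin ℂ (Set.range (qq Q o))) (o j) := by
  have h1 := isIntegral_of_no_zero (fun i => qq Q (MvPolynomial.X : Fin 4 → MvPolynomial (Fin 4) ℂ) i)
    (fun _ => 2) (fun _ => by norm_num) (fun i => qq_X_homogeneous Q i) (fun z hz => by
      refine hfin z (funext fun i => ?_)
      have h2 := hz i
      rw [map_qq] at h2
      simp only [MvPolynomial.aeval_X] at h2
      exact h2) o j
  have h3 : (fun k => MvPolynomial.aeval o
      (qq Q (MvPolynomial.X : Fin 4 → MvPolynomial (Fin 4) ℂ) k)) = qq Q o := by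
    funext i
    rw [map_qq]
    simp only [MvPolynomial.aeval_X]
  rw [h3] at h1
  exact h1

end Vale.Agent.P297.C8
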